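import Vale.Agent.P106.U.H118.Sum

/-!
# P106 / U / H652 : parameters of the MIC composition (helper652)

`par` : the constants of `H118.summation` (number of scales `p`, threshold `θ` of the heavy intervals, scales
`M s`, window lengths `L1 s`, lookahead `L2 s`, `η = m η0`) such that the total loss is at most `ε h`.
`sum_par` : `H118.summation` with these constants.

Order: `K, ε, cw, CJ, CH` (relative costs per junction / heavy interval, arbitrary functions of the scale `M s`, in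
units of `m`) → `p, M, δ0, e1, e3` → margin `KK` of the lookahead and `J0` → `L1, L2` → `c1` (constants of the class)
→ `m` → `h`.
-/

set_option autoImplicit false

namespace Vale.Agent.P106.U.H652

open Finset Vale.Agent.P106.U.H118

/-- the scales -/
noncomputable def scl (f : ℕ → ℕ) (θ : ℕ) : ℕ → ℕ
  | 0 => θ
  | s + 1 => max (scl f θ s) (f (scl f θ s))

theorem scl_mono (f : ℕ → ℕ) (θ : ℕ) : Monotone (scl f θ) :=
  monotone_nat_of_le_succ fun s => by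
    rw [show scl f θ (s + 1) = max (scl f θ s) (f (scl f θ s)) from rfl]
    exact le_max_left _ _

theorem scl_f (f : ℕ → ℕ) (θ s : ℕ) : f (scl f θ s) ≤ scl f θ (s + 1) := le_max_right _ _

section num

variable {K u m h : ℝ}

theorem q3 {c1 n : ℝ} (hK : 0 < K) (hu : 0 < u) (hn0 : 0 ≤ n) (h1 : c1 * K / u ≤ m)
    (hn : m * n ≤ K * h) : c1 * n ≤ u * h := by
  rw [div_le_iff₀ hu] at h1
  have h2 : c1 * K * n ≤ m * u * n := mul_le_mul_of_nonneg_right h1 hn0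
  have h3 : u * (m * n) ≤ u * (K * h) := mul_le_mul_of_nonneg_left hn hu.le
  have h4 : K * (c1 * n) ≤ K * (u * h) := by linarith
  exact le_of_mul_le_mul_left h4 hK

theorem q4 {x y n L : ℝ} (hu : 0 < u) (hh : 0 ≤ h) (hn0 : 0 ≤ n) (hL : 0 < L) (hx : 0 ≤ x)
    (hy : y ≤ m * x) (h1 : x * K / u ≤ L) (hn : m * n ≤ K * h) : y * (n / L) ≤ u * h := by
  have h0 : 0 ≤ n / L := by positivity
  refine (mul_le_mul_of_nonneg_right hy h0).trans ?_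
  rw [div_le_iff₀ hu] at h1
  rw [mul_div_assoc', div_le_iff₀ hL]
  have h2 : x * (m * n) ≤ x * (K * h) := mul_le_mul_of_nonneg_left hn hx
  have h3 : x * K * h ≤ L * u * h := mul_le_mul_of_nonneg_right h1 hh
  linarith

theorem qH {x y Hn r M1 : ℝ} (hu : 0 < u) (hm : 0 ≤ m) (hh : 0 ≤ h) (hH0 : 0 ≤ Hn) (hM0 : 0 ≤ M1)
    (hx : 0 ≤ x) (hy : y ≤ m * x) (h1 : x * K / u ≤ M1) (hr : m * r ≤ K * h)
    (hHr : (M1 + 1) * Hn ≤ r) : y * Hn ≤ u * h := by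
  refine (mul_le_mul_of_nonneg_right hy hH0).trans ?_
  rw [div_le_iff₀ hu] at h1
  have h2 : (m * x) * ((M1 + 1) * Hn) ≤ (m * x) * r := mul_le_mul_of_nonneg_left hHr (by positivity)
  have h3 : x * (m * r) ≤ x * (K * h) := mul_le_mul_of_nonneg_left hr hx
  have h4 : x * K * h ≤ M1 * u * h := mul_le_mul_of_nonneg_right h1 hh
  have h7 : 0 ≤ u * h := by positivity
  have h6 : (M1 + 1) * (m * x * Hn) ≤ (M1 + 1) * (u * h) := by linarith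
  exact le_of_mul_le_mul_left h6 (by positivity)

theorem q5 {M Mp e1 E : ℝ} (hh : 0 ≤ h) (hE0 : 0 ≤ m * E) (hMp : 0 ≤ Mp) (hM : M ≤ Mp)
    (he : e1 ≤ u / (2 * (Mp + 1))) (hE : m * E ≤ e1 * h) : m * (M * E) ≤ u / 2 * h := by
  have h1 : m * E ≤ u / (2 * (Mp + 1)) * h := hE.trans (mul_le_mul_of_nonneg_right he hh)
  have h2 : M * (m * E) ≤ (Mp + 1) * (m * E) := mul_le_mul_of_nonneg_right (by linarith) hE0
  have h3 : (Mp + 1) * (m * E) ≤ (Mp + 1) * (u / (2 * (Mp + 1)) * h) :=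
    mul_le_mul_of_nonneg_left h1 (by positivity)
  have h4 : (Mp + 1) * (u / (2 * (Mp + 1)) * h) = u / 2 * h := by
    have : Mp + 1 ≠ 0 := by positivity
    field_simp
  have h5 : m * (M * E) = M * (m * E) := by ring
  linarith

theorem q5c {p r : ℝ} (hu : 0 < u) (hp : 0 < p) (hh : 0 ≤ h) (h1 : K / u < p) (hr : m * r ≤ K * h) :
    m * (r / p) ≤ u * h := by
  rw [div_lt_iff₀ hu] at h1
  rw [mul_div_assoc', div_le_iff₀ hp]
  have h2 : K * h ≤ p * u * h := mul_le_mul_of_nonneg_right h1.le hh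
  linarith

theorem q6 {Q D F n : ℝ} (hu : 0 < u) (hm : 0 ≤ m) (hh : 0 ≤ h) (hD : 0 < D) (hQ : 0 ≤ Q)
    (h1 : 6 * Q * K / u ≤ D) (hF : F * D ≤ Q * n) (hn : m * n ≤ K * h) : 3 * m * F ≤ u / 2 * h := by
  rw [div_le_iff₀ hu] at h1
  have g1 : 6 * m * (F * D) ≤ 6 * m * (Q * n) := mul_le_mul_of_nonneg_left hF (by positivity)
  have g2 : 6 * Q * (m * n) ≤ 6 * Q * (K * h) := mul_le_mul_of_nonneg_left hn (by positivity)
  have g3 : (6 * Q * K) * h ≤ D * u * h := mul_le_mul_of_nonneg_right h1 hh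
  have g5 : D * (3 * m * F) ≤ D * (u / 2 * h) := by linarith
  exact le_of_mul_le_mul_left g5 hD

theorem q7 {δ r : ℝ} (hK : 0 < K) (hu : 0 < u) (hr0 : 0 ≤ m * r) (hδ : δ ≤ u / (2 * K))
    (hr : m * r ≤ K * h) : (m * δ + m * (u / (2 * K))) * r ≤ u * h := by
  have h0 : (m * δ + m * (u / (2 * K))) * r = (δ + u / (2 * K)) * (m * r) := by ring
  have h1 : (δ + u / (2 * K)) * (m * r) ≤ (u / (2 * K) + u / (2 * K)) * (m * r) :=
    mul_le_mul_of_nonneg_right (by linarith) hr0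
  have h2 : (u / (2 * K) + u / (2 * K)) * (m * r) ≤ (u / (2 * K) + u / (2 * K)) * (K * h) :=
    mul_le_mul_of_nonneg_left hr (by positivity)
  have h3 : (u / (2 * K) + u / (2 * K)) * (K * h) = u * h := by
    field_simp
    ring
  linarith

theorem q8a {c θ r : ℝ} (hu : 0 < u) (hc : 0 < c) (hh : 0 ≤ h) (hθ0 : 0 < θ)
    (hθ : 4 * K * c / u ≤ θ) (hr : m * r ≤ K * h) : m * c * (2 * r / θ) ≤ u / 2 * h := by
  rw [div_le_iff₀ hu] at hθ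
  rw [mul_div_assoc', div_le_iff₀ hθ0]
  have h1 : c * (m * r) ≤ c * (K * h) := mul_le_mul_of_nonneg_left hr hc.le
  have h2 : 4 * K * c * h ≤ θ * u * h := mul_le_mul_of_nonneg_right hθ hh
  linarith

theorem q8b {c e1 E : ℝ} (hc : 0 < c) (hh : 0 ≤ h) (he : e1 ≤ u / (2 * c)) (hE : m * E ≤ e1 * h) :
    m * c * E ≤ u / 2 * h := by
  have h1 : m * E ≤ u / (2 * c) * h := hE.trans (mul_le_mul_of_nonneg_right he hh)
  have h2 : c * (m * E) ≤ c * (u / (2 * c) * h) := mul_le_mul_of_nonneg_left h1 hc.le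
  have h3 : c * (u / (2 * c) * h) = u / 2 * h := by
    field_simp
  linarith

theorem q10 {c η0 U : ℝ} (hm : 0 < m) (hc : 0 < c) (hη : 0 < η0) (hU : U ≤ u * η0 / c * h) :
    m * (c / (m * η0) * U) ≤ u * h := by
  have h1 : m * (c / (m * η0) * U) = c / η0 * U := by
    field_simp
  have h2 : c / η0 * U ≤ c / η0 * (u * η0 / c * h) := mul_le_mul_of_nonneg_left hU (by positivity)
  have h3 : c / η0 * (u * η0 / c * h) = u * h := by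
    field_simp
  linarith

end num

/-- the constants -/
structure Con (K ε cw : ℝ) (CJ CH : ℕ → ℝ) (p θ : ℕ) (M : ℕ → ℕ) (e1 e3 : ℝ) : Prop where
  p0 : 0 < p
  pb : K / (ε / 16) < p
  θb : 4 * K * (cw + 3 + ε / 16 / (2 * K)) / (ε / 16) ≤ θ
  θ1 : 1 ≤ θ
  Mm : Monotone M
  Mθ : θ ≤ M 0
  Mb : ∀ s, (CJ (M s) + CH (M s) + 1) * K / (ε / 16) ≤ (M (s + 1) : ℝ)
  e10 : 0 < e1
  e1a : e1 ≤ ε / 16 / (2 * ((M p : ℝ) + 1))
  e1b : e1 ≤ ε / 16 / (2 * (cw + 3 + ε / 16 / (2 * K)))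
  e30 : 0 < e3
  e3b : e3 = ε / 16 * (ε / 16 / (2 * K)) / (20 * (θ : ℝ) + 1)

/-- the window lengths -/
structure Win (K ε : ℝ) (CJ : ℕ → ℝ) (KK : ℕ → ℕ) (J0 : ℕ) (M L1 L2 : ℕ → ℕ) : Prop where
  L10 : ∀ s, 0 < L1 s
  L1b : ∀ s, (CJ (M s) + 1) * K / (ε / 16) ≤ (L1 s : ℝ)
  L2b : ∀ s, L1 s + J0 * KK (M s) ≤ L2 s
  D0 : ∀ s, 0 < L2 s - L1 s
  Db : ∀ s, 6 * (((M s : ℝ) + 1) * ((L1 s : ℝ) + KK (M s))) * K / (ε / 16) ≤ ((L2 s - L1 s : ℕ) : ℝ)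

theorem con_ex {K ε cw : ℝ} (hK : 0 < K) (hε : 0 < ε) (hcw : 0 ≤ cw) (CJ CH : ℕ → ℝ) :
    ∃ (p θ : ℕ) (M : ℕ → ℕ) (e1 e3 : ℝ), Con K ε cw CJ CH p θ M e1 e3 := by
  obtain ⟨p, hp⟩ := exists_nat_gt (K / (ε / 16))
  obtain ⟨θ, hθ⟩ := exists_nat_gt (4 * K * (cw + 3 + ε / 16 / (2 * K)) / (ε / 16))
  have hp0 : 0 < p := by
    have : (0 : ℝ) < p := lt_trans (by positivity) hp
    exact_mod_cast this
  have hθ0 : 0 < θ := by
    have : (0 : ℝ) < θ := lt_trans (by positivity) hθ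
    exact_mod_cast this
  set f : ℕ → ℕ := fun x => ⌈(CJ x + CH x + 1) * K / (ε / 16)⌉₊ with hf
  refine ⟨p, θ, scl f θ, min (ε / 16 / (2 * (((scl f θ p : ℕ) : ℝ) + 1)))
    (ε / 16 / (2 * (cw + 3 + ε / 16 / (2 * K)))),
    ε / 16 * (ε / 16 / (2 * K)) / (20 * (θ : ℝ) + 1), ?_⟩
  refine ⟨hp0, hp, hθ.le, hθ0, scl_mono _ _, le_of_eq rfl, ?_,
    lt_min (by positivity) (by positivity), min_le_left _ _, min_le_right _ _, by positivity, rfl⟩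
  intro s
  refine (Nat.le_ceil _).trans ?_
  exact_mod_cast scl_f f θ s

theorem win_ex {K ε : ℝ} (CJ : ℕ → ℝ) (KK : ℕ → ℕ) (J0 : ℕ) (M : ℕ → ℕ) :
    ∃ (L1 L2 : ℕ → ℕ), Win K ε CJ KK J0 M L1 L2 := by
  set L1 : ℕ → ℕ := fun s => ⌈(CJ (M s) + 1) * K / (ε / 16)⌉₊ + 1 with hL1
  set L2 : ℕ → ℕ := fun s => L1 s + (J0 * KK (M s) +
    (⌈6 * ((M s : ℝ) + 1) * ((L1 s : ℝ) + KK (M s)) * K / (ε / 16)⌉₊ + 1)) with hL2
  have hD : ∀ s, L2 s - L1 s = J0 * KK (M s) +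
      (⌈6 * ((M s : ℝ) + 1) * ((L1 s : ℝ) + KK (M s)) * K / (ε / 16)⌉₊ + 1) := by
    intro s
    rw [hL2]
    exact Nat.add_sub_cancel_left _ _
  refine ⟨L1, L2, fun s => Nat.succ_pos _, ?_, ?_, ?_, ?_⟩
  · intro s
    refine (Nat.le_ceil _).trans ?_
    rw [hL1]
    exact_mod_cast Nat.le_succ _
  · intro s
    rw [hL2]
    simp only
    omega
  · intro s
    rw [hD]
    omega
  · intro s
    rw [hD]
    have h1 := Nat.le_ceil (6 * ((M s : ℝ) + 1) * ((L1 s : ℝ) + KK (M s)) * K / (ε / 16))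
    have h2 : 6 * (((M s : ℝ) + 1) * ((L1 s : ℝ) + KK (M s))) * K / (ε / 16) =
        6 * ((M s : ℝ) + 1) * ((L1 s : ℝ) + KK (M s)) * K / (ε / 16) := by ring
    rw [h2]
    push_cast
    have h3 : (0 : ℝ) ≤ (J0 : ℝ) * (KK (M s) : ℝ) := by positivity
    linarith

/-- the total loss -/
theorem par {K ε c1 cw : ℝ} {CJ CH : ℕ → ℝ} {KK : ℕ → ℕ} {J0 p θ : ℕ} {M L1 L2 : ℕ → ℕ}
    {e1 e3 : ℝ} (hK : 0 < K) (hε : 0 < ε) (hcw : 0 ≤ cw)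
    (hCJ : ∀ x, 0 ≤ CJ x) (hCH : ∀ x, 0 ≤ CH x)
    (C : Con K ε cw CJ CH p θ M e1 e3) (D : Win K ε CJ KK J0 M L1 L2) {m h : ℝ} {s : ℕ}
    (hs : s < p) (hm0 : 0 < m) (hm1 : c1 ≤ m)
    (hmc : c1 * K / (ε / 16) ≤ m) (hh : 0 ≤ h) (v1 : m * (CJ (M s) + 1) ≤ ε / 16 * h)
    (v2 : 2 * m * (M s : ℝ) ≤ ε / 16 * h) (v3 : 6 * m * (L2 s : ℝ) ≤ ε / 16 * h)
    {n E Hn F2 : ℕ} {r U se sq cj ch δ : ℝ} (hr : 0 ≤ r) (hn : m * n ≤ K * h) (hrK : m * r ≤ K * h)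
    (hE : m * E ≤ e1 * h) (hU : U ≤ e3 * h) (hse : se ≤ ε / 16 * h) (hsq : sq ≤ ε / 16 * h)
    (hcj : cj ≤ m * CJ (M s)) (hch : ch ≤ m * CH (M s)) (hδ : δ ≤ ε / 16 / (2 * K))
    (hHn : ((M (s + 1) : ℝ) + 1) * Hn ≤ r)
    (hF2 : F2 * (L2 s - L1 s) ≤ (M s + 1) * (L1 s + KK (M s)) * n) :
    se + sq + c1 * n + (cj + c1) * ((n : ℝ) / L1 s + Hn + 1) + m * ((M s : ℝ) * (E + 1) + r / p) +
      3 * m * ((L2 s : ℝ) + F2) + (m * δ + m * (ε / 16 / (2 * K))) * r +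
      (m * (cw + 3) + m * (ε / 16 / (2 * K))) * (2 * r / θ + E) + (ch + c1) * Hn +
      m * ((20 * θ + 1) / (m * (ε / 16 / (2 * K))) * U) ≤ ε * h := by
  set u : ℝ := ε / 16 with hu
  have hu0 : 0 < u := by positivity
  have hJ := hCJ (M s)
  have hH := hCH (M s)
  have hn0 : (0 : ℝ) ≤ n := Nat.cast_nonneg _
  have hHn0 : (0 : ℝ) ≤ Hn := Nat.cast_nonneg _
  have hE0 : (0 : ℝ) ≤ E := Nat.cast_nonneg _
  have hcj1 : cj + c1 ≤ m * (CJ (M s) + 1) := by linarith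
  have hch1 : ch + c1 ≤ m * (CH (M s) + 1) := by linarith
  have hcw3 : 0 < cw + 3 + u / (2 * K) := by positivity
  have hMn : ∀ x, x ≤ CJ (M s) + CH (M s) + 1 → x * K / u ≤ (M (s + 1) : ℝ) := by
    intro x hx
    refine le_trans ?_ (C.Mb s)
    have : x * K ≤ (CJ (M s) + CH (M s) + 1) * K := mul_le_mul_of_nonneg_right hx hK.le
    exact div_le_div_of_nonneg_right this hu0.le
  have t3 : c1 * n ≤ u * h := q3 hK hu0 hn0 hmc hn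
  have t4a : (cj + c1) * ((n : ℝ) / L1 s) ≤ u * h :=
    q4 hu0 hh hn0 (by exact_mod_cast D.L10 s) (by linarith) hcj1 (D.L1b s) hn
  have t4b : (cj + c1) * (Hn : ℝ) ≤ u * h :=
    qH hu0 hm0.le hh hHn0 (Nat.cast_nonneg _) (by linarith) hcj1 (hMn _ (by linarith)) hrK hHn
  have t4c : (cj + c1) * (1 : ℝ) ≤ u * h := by linarith
  have t9 : (ch + c1) * (Hn : ℝ) ≤ u * h :=
    qH hu0 hm0.le hh hHn0 (Nat.cast_nonneg _) (by linarith) hch1 (hMn _ (by linarith)) hrK hHn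
  have t5a : m * ((M s : ℝ) * E) ≤ u / 2 * h :=
    q5 hh (by positivity) (Nat.cast_nonneg _) (by exact_mod_cast C.Mm hs.le) C.e1a hE
  have t5b : m * (M s : ℝ) ≤ u / 2 * h := by linarith
  have t5c : m * (r / p) ≤ u * h := q5c hu0 (by exact_mod_cast C.p0) hh C.pb hrK
  have t6a : 3 * m * (L2 s : ℝ) ≤ u / 2 * h := by linarith
  have t6b : 3 * m * (F2 : ℝ) ≤ u / 2 * h :=
    q6 (n := n) hu0 hm0.le hh (by exact_mod_cast D.D0 s) (by positivity) (D.Db s)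
      (by exact_mod_cast hF2) hn
  have t7 := q7 hK hu0 (mul_nonneg hm0.le hr) hδ hrK
  have t8a : m * (cw + 3 + u / (2 * K)) * (2 * r / θ) ≤ u / 2 * h :=
    q8a hu0 hcw3 hh (by exact_mod_cast C.θ1) C.θb hrK
  have t8b : m * (cw + 3 + u / (2 * K)) * (E : ℝ) ≤ u / 2 * h := q8b hcw3 hh C.e1b hE
  have t10 : m * ((20 * (θ : ℝ) + 1) / (m * (u / (2 * K))) * U) ≤ u * h :=
    q10 hm0 (by positivity) (by positivity) (by rw [C.e3b] at hU; exact hU)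
  have hfin : 13 * (u * h) ≤ ε * h := by
    rw [hu]
    have : 0 ≤ ε * h := by positivity
    linarith
  have e5 : m * ((M s : ℝ) * (E + 1) + r / p) =
      m * ((M s : ℝ) * E) + m * (M s : ℝ) + m * (r / p) := by ring
  have e4 : (cj + c1) * ((n : ℝ) / L1 s + Hn + 1) =
      (cj + c1) * ((n : ℝ) / L1 s) + (cj + c1) * Hn + (cj + c1) * 1 := by ring
  have e6 : 3 * m * ((L2 s : ℝ) + F2) = 3 * m * (L2 s : ℝ) + 3 * m * F2 := by ring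
  have e8 : (m * (cw + 3) + m * (u / (2 * K))) * (2 * r / (θ : ℝ) + E) =
      m * (cw + 3 + u / (2 * K)) * (2 * r / (θ : ℝ)) + m * (cw + 3 + u / (2 * K)) * E := by ring
  rw [e5, e4, e6, e8]
  linarith

/-- **`H118.summation` with parameters** : total loss at most `ε h`; the scales are large (helper931). -/
theorem sum_parB {K ε cw : ℝ} (hK : 0 < K) (hε : 0 < ε) (hcw : 0 ≤ cw) (CJ CH : ℕ → ℝ)
    (hCJ : ∀ x, 0 ≤ CJ x) (hCH : ∀ x, 0 ≤ CH x) :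
    ∃ (p : ℕ) (M : ℕ → ℕ) (δ0 e1 e3 : ℝ), 0 < p ∧ Monotone M ∧ 0 < δ0 ∧ 0 < e1 ∧ 0 < e3 ∧
      (∀ s, 192 * K / ε ≤ M s) ∧ ∀ (KK : ℕ → ℕ) (J0 : ℕ), ∃ (L1 L2 : ℕ → ℕ), (∀ s, 0 < L1 s ∧ L1 s ≤ L2 s) ∧
      ∀ c1 : ℝ, 0 ≤ c1 → ∃ m0 : ℝ, 1 ≤ m0 ∧ ∀ m : ℝ, m0 ≤ m → ∃ h0 : ℝ, 0 < h0 ∧ ∀ h : ℝ, h0 ≤ h →
        ∀ (n : ℕ) (g : ℕ → Prop) (a R : ℕ → ℕ), 0 < n → Sdat n g a R → g 0 →
        (∀ j, j + J0 ≤ n → R j + 1 ≤ R (j + J0)) → m * n ≤ K * h → m * ((R n : ℝ) - R 0) ≤ K * h →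
        ∀ E : Finset ℕ, (∀ i < n, a (i + 1) = a i + 1 → ¬ g i → i ∈ E) → m * E.card ≤ e1 * h →
        ∃ s < p, ∀ (psi err q u : ℕ → ℝ) (cj ch δ : ℝ), 0 ≤ cj → 0 ≤ ch → 0 ≤ δ →
          cj ≤ m * CJ (M s) → ch ≤ m * CH (M s) → δ ≤ δ0 → (∀ j, 0 ≤ err j) → (∀ z, 0 ≤ u z) →
          ∀ T : Finset ℕ, (∀ z, z ∉ T → u z = 0) →
          ∑ j ∈ range n, err j ≤ ε / 16 * h → ∑ j ∈ range n, q j ≤ ε / 16 * h →
          ∑ z ∈ T, u z ≤ e3 * h →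
          (∀ i k i1, i ≤ k → k ≤ i + L1 s → k ≤ i1 → i1 ≤ n → i1 ≤ i + L2 s → a k + KK (M s) ≤ a i1 →
            R k + KK (M s) ≤ R i1 →
            ∑ j ∈ CS (M s) n g a R i k, (full m a R j - err j) - c1 * ((k : ℝ) - i) - cj -
              ∑ j ∈ Ico i k, q j ≤ psi k - psi i) →
          (∀ i k, i ≤ k → k ≤ n → - c1 - ∑ j ∈ Ico i k, q j ≤ psi k - psi i) →
          (∀ i i1, g i → i < i1 → i1 ≤ n → R i + M (s + 1) < R i1 →
            m * (1 - δ) * ((R i1 : ℝ) - R i) - m * cw * ((a i1 : ℝ) - a i) -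
              ∑ z ∈ Icc (a i) (a i + (R i1 - R i)), u z - ch - ∑ j ∈ Ico i i1, q j ≤
                psi i1 - psi i) →
          3 * m * ((a n : ℝ) - a 0) + m * ((R n : ℝ) - R 0) - ε * h ≤ psi n - psi 0 := by
  obtain ⟨p, θ, M, e1, e3, C⟩ := con_ex hK hε hcw CJ CH
  have hu0 : (0 : ℝ) < ε / 16 := by positivity
  have hlow : ∀ s, 192 * K / ε ≤ (M s : ℝ) := by
    intro s
    have h1 : (θ : ℝ) ≤ M s := by exact_mod_cast C.Mθ.trans (C.Mm (Nat.zero_le s))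
    refine le_trans (le_trans ?_ C.θb) h1
    rw [div_le_div_iff₀ hε hu0]
    have h2 : 0 ≤ 4 * K * (cw + ε / 16 / (2 * K)) * ε := by positivity
    linarith
  refine ⟨p, M, ε / 16 / (2 * K), e1, e3, C.p0, C.Mm, by positivity, C.e10, C.e30, hlow, ?_⟩
  intro KK J0
  obtain ⟨L1, L2, D⟩ := win_ex (K := K) (ε := ε) CJ KK J0 M
  refine ⟨L1, L2, fun s => ⟨D.L10 s, (Nat.le_add_right _ _).trans (D.L2b s)⟩, ?_⟩
  intro c1 hc1
  refine ⟨max (max 1 c1) (c1 * K / (ε / 16)), (le_max_left _ _).trans (le_max_left _ _), ?_⟩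
  intro m hm
  have hm1 : 1 ≤ m := ((le_max_left _ _).trans (le_max_left _ _)).trans hm
  have hm2 : c1 ≤ m := ((le_max_right _ _).trans (le_max_left _ _)).trans hm
  have hm0 : 0 < m := by linarith
  have hmc : c1 * K / (ε / 16) ≤ m := (le_max_right _ _).trans hm
  set W : ℝ := ∑ s ∈ range p, (m * (CJ (M s) + 1) / (ε / 16) + 2 * m * (M s : ℝ) / (ε / 16) +
    6 * m * (L2 s : ℝ) / (ε / 16)) with hW
  refine ⟨W + 1, ?_, ?_⟩
  · have : 0 ≤ W := Finset.sum_nonneg fun s _ => by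
      have := hCJ (M s)
      positivity
    linarith
  intro h hh n g a R hn S0 g0 hF hnK hrK E hE hEc
  obtain ⟨s, hs, S⟩ := summation C.p0 hn S0 g0 E hE M C.Mm C.θ1 C.Mθ
  refine ⟨s, hs, ?_⟩
  intro psi err q u cj ch δ hcj hch hδ hcj' hch' hδ' herr hu T hT hse hsq hsu hLt hTr hHv
  obtain ⟨Hn, F2, k1, k2, k3⟩ := S (L1 s) (L2 s) (KK (M s)) J0 (D.L10 s) (D.L2b s) hF psi err q u m c1
    cj ch cw δ (m * (ε / 16 / (2 * K))) hm0.le hc1 hcj hch hcw hδ (by positivity) herr hu T hT hLt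
    hTr hHv
  have hr : (0 : ℝ) ≤ (R n : ℝ) - R 0 := by
    have : R 0 ≤ R n := rmono S0.hr (Nat.zero_le n) le_rfl
    have h' : (R 0 : ℝ) ≤ R n := by exact_mod_cast this
    linarith
  have hHn : ((M (s + 1) : ℝ) + 1) * Hn ≤ (R n : ℝ) - R 0 := by
    have h' : (((M (s + 1) + 1) * Hn : ℕ) : ℝ) ≤ ((R n - R 0 : ℕ) : ℝ) := by exact_mod_cast k1
    rw [Nat.cast_sub (rmono S0.hr (Nat.zero_le n) le_rfl)] at h'
    push_cast at h'
    exact h'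
  have hWs : m * (CJ (M s) + 1) / (ε / 16) + 2 * m * (M s : ℝ) / (ε / 16) +
      6 * m * (L2 s : ℝ) / (ε / 16) ≤ W := by
    refine Finset.single_le_sum (f := fun s => m * (CJ (M s) + 1) / (ε / 16) +
      2 * m * (M s : ℝ) / (ε / 16) + 6 * m * (L2 s : ℝ) / (ε / 16)) (fun s _ => ?_)
      (Finset.mem_range.2 hs)
    have := hCJ (M s)
    positivity
  have hJ := hCJ (M s)
  have w1 : 0 ≤ m * (CJ (M s) + 1) / (ε / 16) := by positivity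
  have w2 : 0 ≤ 2 * m * (M s : ℝ) / (ε / 16) := by positivity
  have w3 : 0 ≤ 6 * m * (L2 s : ℝ) / (ε / 16) := by positivity
  have hh0 : 0 < h := by linarith
  have v1 : m * (CJ (M s) + 1) ≤ ε / 16 * h := by
    have h1 : m * (CJ (M s) + 1) / (ε / 16) ≤ h := by linarith
    rw [div_le_iff₀ hu0] at h1
    linarith
  have v2 : 2 * m * (M s : ℝ) ≤ ε / 16 * h := by
    have h1 : 2 * m * (M s : ℝ) / (ε / 16) ≤ h := by linarith
    rw [div_le_iff₀ hu0] at h1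
    linarith
  have v3 : 6 * m * (L2 s : ℝ) ≤ ε / 16 * h := by
    have h1 : 6 * m * (L2 s : ℝ) / (ε / 16) ≤ h := by linarith
    rw [div_le_iff₀ hu0] at h1
    linarith
  have key := par hK hε hcw hCJ hCH C D hs hm0 hm2 hmc hh0.le v1 v2 v3 (n := n) (E := E.card)
    (Hn := Hn) (F2 := F2) (r := (R n : ℝ) - R 0) (U := ∑ z ∈ T, u z)
    (se := ∑ j ∈ range n, err j) (sq := ∑ j ∈ range n, q j) (cj := cj) (ch := ch) (δ := δ)
    hr hnK hrK hEc hsu hse hsq hcj' hch' hδ' hHn k2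
  linarith

/-- **`H118.summation` with parameters** : total loss at most `ε h`. -/
theorem sum_par {K ε cw : ℝ} (hK : 0 < K) (hε : 0 < ε) (hcw : 0 ≤ cw) (CJ CH : ℕ → ℝ)
    (hCJ : ∀ x, 0 ≤ CJ x) (hCH : ∀ x, 0 ≤ CH x) :
    ∃ (p : ℕ) (M : ℕ → ℕ) (δ0 e1 e3 : ℝ), 0 < p ∧ Monotone M ∧ 0 < δ0 ∧ 0 < e1 ∧ 0 < e3 ∧
      ∀ (KK : ℕ → ℕ) (J0 : ℕ), ∃ (L1 L2 : ℕ → ℕ), (∀ s, 0 < L1 s ∧ L1 s ≤ L2 s) ∧
      ∀ c1 : ℝ, 0 ≤ c1 → ∃ m0 : ℝ, 1 ≤ m0 ∧ ∀ m : ℝ, m0 ≤ m → ∃ h0 : ℝ, 0 < h0 ∧ ∀ h : ℝ, h0 ≤ h →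
        ∀ (n : ℕ) (g : ℕ → Prop) (a R : ℕ → ℕ), 0 < n → Sdat n g a R → g 0 →
        (∀ j, j + J0 ≤ n → R j + 1 ≤ R (j + J0)) → m * n ≤ K * h → m * ((R n : ℝ) - R 0) ≤ K * h →
        ∀ E : Finset ℕ, (∀ i < n, a (i + 1) = a i + 1 → ¬ g i → i ∈ E) → m * E.card ≤ e1 * h →
        ∃ s < p, ∀ (psi err q u : ℕ → ℝ) (cj ch δ : ℝ), 0 ≤ cj → 0 ≤ ch → 0 ≤ δ →
          cj ≤ m * CJ (M s) → ch ≤ m * CH (M s) → δ ≤ δ0 → (∀ j, 0 ≤ err j) → (∀ z, 0 ≤ u z) →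
          ∀ T : Finset ℕ, (∀ z, z ∉ T → u z = 0) →
          ∑ j ∈ range n, err j ≤ ε / 16 * h → ∑ j ∈ range n, q j ≤ ε / 16 * h →
          ∑ z ∈ T, u z ≤ e3 * h →
          (∀ i k i1, i ≤ k → k ≤ i + L1 s → k ≤ i1 → i1 ≤ n → i1 ≤ i + L2 s → a k + KK (M s) ≤ a i1 →
            R k + KK (M s) ≤ R i1 →
            ∑ j ∈ CS (M s) n g a R i k, (full m a R j - err j) - c1 * ((k : ℝ) - i) - cj -
              ∑ j ∈ Ico i k, q j ≤ psi k - psi i) →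
          (∀ i k, i ≤ k → k ≤ n → - c1 - ∑ j ∈ Ico i k, q j ≤ psi k - psi i) →
          (∀ i i1, g i → i < i1 → i1 ≤ n → R i + M (s + 1) < R i1 →
            m * (1 - δ) * ((R i1 : ℝ) - R i) - m * cw * ((a i1 : ℝ) - a i) -
              ∑ z ∈ Icc (a i) (a i + (R i1 - R i)), u z - ch - ∑ j ∈ Ico i i1, q j ≤
                psi i1 - psi i) →
          3 * m * ((a n : ℝ) - a 0) + m * ((R n : ℝ) - R 0) - ε * h ≤ psi n - psi 0 := by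
  obtain ⟨p, M, δ0, e1, e3, q1, q2, q3, q4, q5, _, H⟩ := sum_parB hK hε hcw CJ CH hCJ hCH
  exact ⟨p, M, δ0, e1, e3, q1, q2, q3, q4, q5, H⟩

end Vale.Agent.P106.U.H652
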