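import Mathlib
import Vale.Agent.P127.U.CellD

/-!
# P106 / U / H652 : side conditions in the order `m`, `B`, `h` (helper652)

* `Ev3 P` : for all large `m`, for all large `B` (depending on `m`), for all large `h` (depending on `m`, `B`) : `P m B h`.
* `Ev3.and`, `Ev3.mono`, `Ev3.all` (finitely many scales), `Ev3.of_m`, `Ev3.of_B`, `Ev3.of_h`, `Ev3.out`.
* numbers: `ev_ge`, `ev_lin`, `ev_q2` (polynomial × exponential), `ev_divB`, `ev_con`, `ev_log`, `sqrt_q2`, `sqrt_sqrt_q2`.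
-/

set_option autoImplicit false

namespace Vale.Agent.P106.U.H652

open Filter Topology
open Vale.Agent.P127.U.CellD (q2)

/-- for all large `m`, then all large `B`, then all large `h` -/
def Ev3 (P : ℕ → ℕ → ℕ → Prop) : Prop := ∀ᶠ m in atTop, ∀ᶠ B in atTop, ∀ᶠ h in atTop, P m B h

namespace Ev3

variable {P Q : ℕ → ℕ → ℕ → Prop}

theorem mono (hP : Ev3 P) (h : ∀ m B h, P m B h → Q m B h) : Ev3 Q :=
  Eventually.mono hP fun m H => H.mono fun B H => H.mono fun n H => h m B n H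

theorem and (hP : Ev3 P) (hQ : Ev3 Q) : Ev3 fun m B h => P m B h ∧ Q m B h :=
  (Eventually.and hP hQ).mono fun _ H => (H.1.and H.2).mono fun _ H => H.1.and H.2

theorem mono2 {R : ℕ → ℕ → ℕ → Prop} (hP : Ev3 P) (hQ : Ev3 Q) (h : ∀ m B h, P m B h → Q m B h → R m B h) : Ev3 R :=
  (hP.and hQ).mono fun m B n H => h m B n H.1 H.2

/-- finitely many scales -/
theorem all {p : ℕ} {P : ℕ → ℕ → ℕ → ℕ → Prop} (H : ∀ s < p, Ev3 (P s)) : Ev3 fun m B h => ∀ s < p, P s m B h := by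
  have e : ∀ (α : Type) (F : Filter α) (G : ℕ → α → Prop), (∀ s < p, ∀ᶠ x in F, G s x) → ∀ᶠ x in F, ∀ s < p, G s x := by
    intro α F G hG
    have := (Filter.eventually_all_finset (Finset.range p) (p := fun s x => G s x)).2
      (fun s hs => hG s (Finset.mem_range.1 hs))
    exact this.mono fun x hx s hs => hx s (Finset.mem_range.2 hs)
  have h1 := e ℕ atTop (fun s m => ∀ᶠ B in atTop, ∀ᶠ h in atTop, P s m B h) H
  refine Eventually.mono h1 fun m h2 => ?_
  have h3 := e ℕ atTop (fun s B => ∀ᶠ h in atTop, P s m B h) h2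
  exact h3.mono fun B h4 => e ℕ atTop (fun s h => P s m B h) h4

theorem of_m {P : ℕ → Prop} (h : ∀ᶠ m in atTop, P m) : Ev3 fun m _ _ => P m :=
  h.mono fun _ H => Eventually.of_forall fun _ => Eventually.of_forall fun _ => H

theorem of_B {P : ℕ → ℕ → Prop} (h : ∀ᶠ m in atTop, ∀ᶠ B in atTop, P m B) : Ev3 fun m B _ => P m B :=
  h.mono fun _ H => H.mono fun _ H => Eventually.of_forall fun _ => H

theorem of_B' {P : ℕ → ℕ → Prop} (h : ∀ m, ∀ᶠ B in atTop, P m B) : Ev3 fun m B _ => P m B :=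
  of_B (Eventually.of_forall h)

theorem of_h (h : ∀ m B, ∀ᶠ n in atTop, P m B n) : Ev3 P :=
  Eventually.of_forall fun m => Eventually.of_forall fun B => h m B

theorem of_all (h : ∀ m B n, P m B n) : Ev3 P := of_h fun m B => Eventually.of_forall fun n => h m B n

/-- **elimination** -/
theorem out (hP : Ev3 P) : ∃ m0 : ℕ, ∀ m : ℕ, m0 ≤ m → ∃ B0 : ℕ, ∀ B : ℕ, B0 ≤ B → ∃ h0 : ℕ, ∀ h : ℕ, h0 ≤ h → P m B h := by
  obtain ⟨m0, H⟩ := eventually_atTop.1 hP
  refine ⟨m0, fun m hm => ?_⟩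
  obtain ⟨B0, H⟩ := eventually_atTop.1 (H m hm)
  refine ⟨B0, fun B hB => ?_⟩
  exact eventually_atTop.1 (H B hB)

theorem intro (H : ∃ m0 : ℕ, ∀ m : ℕ, m0 ≤ m → ∃ B0 : ℕ, ∀ B : ℕ, B0 ≤ B → ∃ h0 : ℕ, ∀ h : ℕ, h0 ≤ h → P m B h) : Ev3 P := by
  obtain ⟨m0, H⟩ := H
  refine eventually_atTop.2 ⟨m0, fun m hm => ?_⟩
  obtain ⟨B0, H⟩ := H m hm
  exact eventually_atTop.2 ⟨B0, fun B hB => eventually_atTop.2 (H B hB)⟩

end Ev3

/-! ### numbers -/

theorem ev_nat (n : ℕ) : ∀ᶠ m : ℕ in atTop, n ≤ m := eventually_ge_atTop n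

/-- `C ≤ κ m` -/
theorem ev_con (C : ℝ) {κ : ℝ} (hκ : 0 < κ) : ∀ᶠ m : ℕ in atTop, C ≤ κ * m := by
  have h1 : Tendsto (fun m : ℕ => κ * (m : ℝ)) atTop atTop := tendsto_natCast_atTop_atTop.const_mul_atTop hκ
  exact h1.eventually_ge_atTop C

/-- `C / B ≤ κ` -/
theorem ev_div (C : ℝ) {κ : ℝ} (hκ : 0 < κ) : ∀ᶠ B : ℕ in atTop, C / (B : ℝ) ≤ κ := by
  filter_upwards [ev_con C hκ, ev_nat 1] with B h1 h2
  have h3 : (0 : ℝ) < B := by exact_mod_cast h2
  rw [div_le_iff₀ h3]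
  exact h1

/-- **polynomial times exponential** -/
theorem ev_q2 (C : ℝ) (k a b : ℕ) (hab : a < b) {κ : ℝ} (hκ : 0 < κ) :
    ∀ᶠ m : ℕ in atTop, C * (m : ℝ) ^ k * 2 ^ (a * m) * q2 (b * m) ≤ κ := by
  have h1 := tendsto_pow_const_mul_const_pow_of_abs_lt_one k (r := (1 / 2 : ℝ)) (by rw [abs_of_pos (by norm_num)]; norm_num)
  have h2 : Tendsto (fun m : ℕ => |C| * ((m : ℝ) ^ k * (1 / 2 : ℝ) ^ m)) atTop (𝓝 (|C| * 0)) := h1.const_mul _
  rw [mul_zero] at h2
  filter_upwards [h2.eventually_le_const hκ] with m hm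
  refine le_trans ?_ hm
  have e1 : (2 : ℝ) ^ (a * m) * q2 (b * m) = (1 / 2 : ℝ) ^ ((b - a) * m) := by
    have e2 : b * m = a * m + (b - a) * m := by
      rw [← Nat.add_mul]
      congr 1
      omega
    unfold q2
    rw [e2, pow_add, ← mul_assoc, ← mul_pow]
    norm_num
  rw [mul_assoc, e1]
  have e3 : (1 / 2 : ℝ) ^ ((b - a) * m) ≤ (1 / 2) ^ m :=
    pow_le_pow_of_le_one (by norm_num) (by norm_num) (Nat.le_mul_of_pos_left m (by omega))
  have e4 : C * (m : ℝ) ^ k ≤ |C| * (m : ℝ) ^ k := mul_le_mul_of_nonneg_right (le_abs_self C) (by positivity)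
  calc C * (m : ℝ) ^ k * (1 / 2) ^ ((b - a) * m) ≤ |C| * (m : ℝ) ^ k * (1 / 2) ^ m :=
        mul_le_mul e4 e3 (by positivity) (by positivity)
    _ = |C| * ((m : ℝ) ^ k * (1 / 2) ^ m) := by ring

/-- the same without polynomial -/
theorem ev_q2' (C : ℝ) (a b : ℕ) (hab : a < b) {κ : ℝ} (hκ : 0 < κ) :
    ∀ᶠ m : ℕ in atTop, C * 2 ^ (a * m) * q2 (b * m) ≤ κ :=
  (ev_q2 C 0 a b hab hκ).mono fun m hm => by simpa using hm

/-- exponential against polynomial -/
theorem ev_q20 (C : ℝ) (k b : ℕ) (hb : 0 < b) {κ : ℝ} (hκ : 0 < κ) :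
    ∀ᶠ m : ℕ in atTop, C * (m : ℝ) ^ k * q2 (b * m) ≤ κ :=
  (ev_q2 C k 0 b hb hκ).mono fun m hm => by simpa using hm

theorem sqrt_q2 (n : ℕ) : Real.sqrt (q2 (2 * n)) = q2 n := by
  unfold q2
  rw [show (1 / 2 : ℝ) ^ (2 * n) = ((1 / 2) ^ n) ^ 2 by rw [← pow_mul, mul_comm]]
  exact Real.sqrt_sq (by positivity)

theorem sqrt_sqrt_q2 (n : ℕ) : Real.sqrt (Real.sqrt (q2 (4 * n))) = q2 n := by
  rw [show 4 * n = 2 * (2 * n) by ring, sqrt_q2, sqrt_q2]

/-- logarithms are smaller than linear -/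
theorem ev_log (C A : ℝ) {κ : ℝ} (hκ : 0 < κ) : ∀ᶠ h : ℕ in atTop, C * Real.log (A * h + 1) ≤ κ * h := by
  have h1 : (fun x : ℝ => Real.log x) =o[atTop] (fun x : ℝ => x) := Real.isLittleO_log_id_atTop
  rcases le_or_gt A 0 with hA | hA
  · -- bounded argument is not a case of interest: the argument is at most `1`
    by_cases hA0 : A = 0
    · subst hA0
      exact Eventually.of_forall fun h => by
        simp only [zero_mul, zero_add, Real.log_one, mul_zero]
        positivity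
    · -- negative `A` : compare with the logarithm of the absolute value
      have hA' : 0 < -A := by
        rcases hA.lt_or_eq with h | h
        · linarith
        · exact absurd h hA0
      have t1 : Tendsto (fun h : ℕ => (-A) * (h : ℝ) - 1) atTop atTop :=
        tendsto_atTop_add_const_right _ (-1) (tendsto_natCast_atTop_atTop.const_mul_atTop hA')
      have t2 := h1.comp_tendsto t1
      have t3 : ∀ᶠ h : ℕ in atTop, |Real.log ((-A) * (h : ℝ) - 1)| ≤ κ / ((|C| + 1) * (-A + 1)) * |(-A) * (h : ℝ) - 1| := by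
        have := t2.def (show 0 < κ / ((|C| + 1) * (-A + 1)) by positivity)
        exact this.mono fun h hh => by simpa [Real.norm_eq_abs] using hh
      filter_upwards [t3, ev_con 1 hA'] with h g1 g2
      have g3 : 0 ≤ (-A) * (h : ℝ) - 1 := by linarith
      rw [abs_of_nonneg g3] at g1
      have e : Real.log (A * h + 1) = Real.log ((-A) * (h : ℝ) - 1) := by
        rw [← Real.log_neg_eq_log]
        congr 1
        ring
      have g4 : C * Real.log (A * h + 1) ≤ |C| * |Real.log ((-A) * (h : ℝ) - 1)| := by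
        rw [e, ← abs_mul]
        exact le_abs_self _
      have g5 : |C| * |Real.log ((-A) * (h : ℝ) - 1)| ≤ (|C| + 1) * (κ / ((|C| + 1) * (-A + 1)) * ((-A) * (h : ℝ) - 1)) :=
        mul_le_mul (by linarith) g1 (abs_nonneg _) (by positivity)
      have g6 : (|C| + 1) * (κ / ((|C| + 1) * (-A + 1)) * ((-A) * (h : ℝ) - 1)) = κ * (((-A) * (h : ℝ) - 1) / (-A + 1)) := by
        have := abs_nonneg C
        field_simp
      have g7 : ((-A) * (h : ℝ) - 1) / (-A + 1) ≤ h := by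
        rw [div_le_iff₀ (by linarith)]
        have : (0 : ℝ) ≤ h := Nat.cast_nonneg _
        nlinarith
      have g8 := mul_le_mul_of_nonneg_left g7 hκ.le
      linarith
  · have t1 : Tendsto (fun h : ℕ => A * (h : ℝ) + 1) atTop atTop :=
      tendsto_atTop_add_const_right _ 1 (tendsto_natCast_atTop_atTop.const_mul_atTop hA)
    have t2 := h1.comp_tendsto t1
    have t3 : ∀ᶠ h : ℕ in atTop, |Real.log (A * (h : ℝ) + 1)| ≤ κ / ((|C| + 1) * (A + 1)) * |A * (h : ℝ) + 1| := by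
      have := t2.def (show 0 < κ / ((|C| + 1) * (A + 1)) by positivity)
      exact this.mono fun h hh => by simpa [Real.norm_eq_abs] using hh
    filter_upwards [t3, ev_nat 1] with h g1 g2
    have g2' : (1 : ℝ) ≤ h := by exact_mod_cast g2
    rw [abs_of_nonneg (by positivity : 0 ≤ A * (h : ℝ) + 1)] at g1
    have g4 : C * Real.log (A * h + 1) ≤ |C| * |Real.log (A * (h : ℝ) + 1)| := by
      rw [← abs_mul]
      exact le_abs_self _
    have g5 : |C| * |Real.log (A * (h : ℝ) + 1)| ≤ (|C| + 1) * (κ / ((|C| + 1) * (A + 1)) * (A * (h : ℝ) + 1)) :=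
      mul_le_mul (by linarith) g1 (abs_nonneg _) (by positivity)
    have g6 : (|C| + 1) * (κ / ((|C| + 1) * (A + 1)) * (A * (h : ℝ) + 1)) = κ * ((A * (h : ℝ) + 1) / (A + 1)) := by
      have := abs_nonneg C
      field_simp
    have g7 : (A * (h : ℝ) + 1) / (A + 1) ≤ h := by
      rw [div_le_iff₀ (by linarith)]
      nlinarith
    have g8 := mul_le_mul_of_nonneg_left g7 hκ.le
    linarith

end Vale.Agent.P106.U.H652
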