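import Vale.Agent.P106.U.H652.ChoW

/-!
# P106 / U / H652 : one cap, constants of the errors of the steps, near terms proportional to `h` (helper652; 518's (H1))

Error of the step `j`: `err1 = c0 + c m coll j + A ∑_{k ∈ (j, j+L]} (√(I1 j k) + √(I2 j k)) + x m 1[j ∈ X]` (`Avg.lean`), and one
further total `err2`.  The bound of the information sums is `φ h + X1` for ANY `φ ≥ 0` with `A² L φ ≤ u0`, `u0` relative (chosen
before `m`, `L`, `A`, `φ`).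

* `one_u` : one kind of steps.
* `one_u_par` : kinds `q : Fin Q`, scales `σ < p`, the same constants.
-/

set_option autoImplicit false

namespace Vale.Agent.P106.U.H652

open Finset

/-- **one kind of steps** -/
theorem one_u {K τ c x : ℝ} (hK : 0 < K) (hτ : 0 < τ) (hc : 0 ≤ c) (hx : 0 ≤ x) :
    ∃ κ e u0 : ℝ, 0 < κ ∧ 0 < e ∧ 0 < u0 ∧ ∀ c0 : ℝ, 0 ≤ c0 → ∃ m0 : ℝ, 1 ≤ m0 ∧ ∀ m : ℝ, m0 ≤ m →
      ∀ (L : ℕ) (A φ X1 : ℝ), 0 ≤ A → 0 ≤ φ → A ^ 2 * L * φ ≤ u0 → ∃ h0 : ℝ, 0 < h0 ∧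
        ∀ h : ℝ, h0 ≤ h → ∀ n : ℕ, m * n ≤ K * h →
        ∀ (coll : ℕ → ℝ) (I1 I2 : ℕ → ℕ → ℝ) (X : Finset ℕ), (∀ j k, 0 ≤ I1 j k) → (∀ j k, 0 ≤ I2 j k) →
          m * ∑ j ∈ range n, coll j ≤ κ * h →
          ∑ j ∈ range n, ∑ k ∈ Ioc j (j + L), I1 j k ≤ φ * h + X1 →
          ∑ j ∈ range n, ∑ k ∈ Ioc j (j + L), I2 j k ≤ φ * h + X1 → m * X.card ≤ e * h →
          ∑ j ∈ range n, err1 c0 c m A x L coll I1 I2 X j ≤ τ * h := by
  set u : ℝ := τ / 5 with hu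
  have hu0 : 0 < u := by positivity
  refine ⟨u / (c + 1), u / (x + 1), u ^ 2 / (2 * K), by positivity, by positivity, by positivity, ?_⟩
  intro c0 hc0
  refine ⟨max 1 (c0 * K / u), le_max_left _ _, ?_⟩
  intro m hm L A φ X1 hA hφ hAφ
  have hm1 : 1 ≤ m := (le_max_left _ _).trans hm
  have hm0 : 0 < m := by linarith
  have hmc : c0 * K / u ≤ m := (le_max_right _ _).trans hm
  refine ⟨2 * A ^ 2 * K * L * |X1| / u ^ 2 + 1, by positivity, ?_⟩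
  intro h hh n hn coll I1 I2 X h1 h2 hcoll hI1 hI2 hX
  have hq0 : 0 ≤ 2 * A ^ 2 * K * L * |X1| / u ^ 2 := by positivity
  have hh0 : 0 < h := by linarith
  have hn0 : (0 : ℝ) ≤ n := Nat.cast_nonneg _
  have hL0 : (0 : ℝ) ≤ L := Nat.cast_nonneg _
  have hnK : (n : ℝ) ≤ K * h := by nlinarith
  refine (err_le hA (by positivity) n L coll h1 h2 X).trans ?_
  -- the five terms
  have t1 : c0 * n ≤ u * h := by
    rw [div_le_iff₀ hu0] at hmc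
    have g1 : c0 * K * n ≤ m * u * n := mul_le_mul_of_nonneg_right hmc hn0
    have g2 : u * (m * n) ≤ u * (K * h) := mul_le_mul_of_nonneg_left hn hu0.le
    have g3 : K * (c0 * n) ≤ K * (u * h) := by linarith
    exact le_of_mul_le_mul_left g3 hK
  have t2 : c * m * ∑ j ∈ range n, coll j ≤ u * h := by
    have g1 : c * (m * ∑ j ∈ range n, coll j) ≤ c * (u / (c + 1) * h) := mul_le_mul_of_nonneg_left hcoll hc
    have g2 : c * (u / (c + 1) * h) ≤ (c + 1) * (u / (c + 1) * h) :=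
      mul_le_mul_of_nonneg_right (by linarith) (by positivity)
    have g3 : (c + 1) * (u / (c + 1) * h) = u * h := by
      field_simp
    have g4 : c * m * ∑ j ∈ range n, coll j = c * (m * ∑ j ∈ range n, coll j) := by ring
    linarith
  have t3 : x * m * X.card ≤ u * h := by
    have g1 : x * (m * X.card) ≤ x * (u / (x + 1) * h) := mul_le_mul_of_nonneg_left hX hx
    have g2 : x * (u / (x + 1) * h) ≤ (x + 1) * (u / (x + 1) * h) :=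
      mul_le_mul_of_nonneg_right (by linarith) (by positivity)
    have g3 : (x + 1) * (u / (x + 1) * h) = u * h := by
      field_simp
    have g4 : x * m * (X.card : ℝ) = x * (m * X.card) := by ring
    linarith
  have hsq : ∀ Y : ℝ, 0 ≤ Y → Y ≤ φ * h + X1 → A * Real.sqrt (n * L * Y) ≤ u * h := by
    intro Y hY hle
    have f1 : Y ≤ φ * h + |X1| := hle.trans (by linarith [le_abs_self X1])
    have g1 : Real.sqrt (n * L * Y) ≤ Real.sqrt (K * h * L * (φ * h + |X1|)) := by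
      refine Real.sqrt_le_sqrt ?_
      have e1 : (n : ℝ) * L ≤ K * h * L := mul_le_mul_of_nonneg_right hnK hL0
      exact mul_le_mul e1 f1 hY (by positivity)
    have g2 : A * Real.sqrt (K * h * L * (φ * h + |X1|)) ≤ u * h := by
      refine abs_le_of_sq_le_sq' ?_ (by positivity) |>.2
      rw [mul_pow, Real.sq_sqrt (by positivity)]
      have e1 : 2 * A ^ 2 * K * L * |X1| / u ^ 2 ≤ h := by linarith
      rw [div_le_iff₀ (by positivity)] at e1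
      have e2 : A ^ 2 * L * φ * (2 * K) ≤ u ^ 2 := by
        rw [le_div_iff₀ (by positivity)] at hAφ
        exact hAφ
      have e3 := mul_le_mul_of_nonneg_right e1 hh0.le
      have e4 := mul_le_mul_of_nonneg_right e2 (by positivity : (0 : ℝ) ≤ h ^ 2)
      have e5 : A ^ 2 * (K * h * L * (φ * h + |X1|)) = (A ^ 2 * L * φ * (2 * K) * h ^ 2 + 2 * A ^ 2 * K * L * |X1| * h) / 2 := by
        ring
      rw [e5]
      nlinarith
    exact (mul_le_mul_of_nonneg_left g1 hA).trans g2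
  have s1 : 0 ≤ ∑ j ∈ range n, ∑ k ∈ Ioc j (j + L), I1 j k :=
    Finset.sum_nonneg fun j _ => Finset.sum_nonneg fun k _ => h1 j k
  have s2 : 0 ≤ ∑ j ∈ range n, ∑ k ∈ Ioc j (j + L), I2 j k :=
    Finset.sum_nonneg fun j _ => Finset.sum_nonneg fun k _ => h2 j k
  have t4 := hsq _ s1 hI1
  have t5 := hsq _ s2 hI2
  have e5 : 5 * (u * h) = τ * h := by rw [hu]; ring
  linarith

/-- **all kinds `q : Fin Q` and all scales `σ < p`** -/
theorem one_u_par {Q p : ℕ} {K : ℝ} (hK : 0 < K) {τ c x : Fin Q → ℝ} (hτ : ∀ q, 0 < τ q)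
    (hc : ∀ q, 0 ≤ c q) (hx : ∀ q, 0 ≤ x q) :
    ∃ κ e e2 u0 : ℝ, 0 < κ ∧ 0 < e ∧ 0 < e2 ∧ 0 < u0 ∧ ∀ c0 : Fin Q → ℝ, (∀ q, 0 ≤ c0 q) → ∃ m0 : ℝ, 1 ≤ m0 ∧
      ∀ m : ℝ, m0 ≤ m → ∀ (L : Fin Q → ℕ → ℕ) (A φ X1 : Fin Q → ℕ → ℝ), (∀ q, ∀ σ < p, 0 ≤ A q σ) →
      (∀ q, ∀ σ < p, 0 ≤ φ q σ) → (∀ q, ∀ σ < p, A q σ ^ 2 * L q σ * φ q σ ≤ u0) →
      ∃ h0 : ℝ, 0 < h0 ∧ ∀ h : ℝ, h0 ≤ h → ∀ n : ℕ, m * n ≤ K * h → ∀ σ < p, ∀ q,
        ∀ (coll : ℕ → ℝ) (I1 I2 : ℕ → ℕ → ℝ) (X : Finset ℕ) (err2 : ℝ),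
          (∀ j k, 0 ≤ I1 j k) → (∀ j k, 0 ≤ I2 j k) →
          m * ∑ j ∈ range n, coll j ≤ κ * h →
          ∑ j ∈ range n, ∑ k ∈ Ioc j (j + L q σ), I1 j k ≤ φ q σ * h + X1 q σ →
          ∑ j ∈ range n, ∑ k ∈ Ioc j (j + L q σ), I2 j k ≤ φ q σ * h + X1 q σ → m * X.card ≤ e * h → err2 ≤ e2 * h →
          ∑ j ∈ range n, err1 (c0 q) (c q) m (A q σ) (x q) (L q σ) coll I1 I2 X j + err2 ≤ τ q * h := by
  classical
  have hpar := fun q => one_u (K := K) (τ := τ q / 2) (c := c q) (x := x q) hK (by have := hτ q; positivity)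
    (hc q) (hx q)
  choose κ0 e0 u hκ0 he0 hu H using hpar
  obtain ⟨κ, hκ, hκ'⟩ := low_ex hκ0
  obtain ⟨e, he, he'⟩ := low_ex he0
  obtain ⟨u1, hu1, hu1'⟩ := low_ex hu
  obtain ⟨τ0, hτ0, hτ0'⟩ := low_ex hτ
  refine ⟨κ, e, τ0 / 2, u1, hκ, he, by positivity, hu1, fun c0 hc0 => ?_⟩
  have H1 := fun q => H q (c0 q) (hc0 q)
  choose m0 hm0 H2 using H1
  obtain ⟨m1, hm1, hm1'⟩ := upp_ex m0
  refine ⟨m1, hm1, fun m hm L A φ X1 hA hφ hAφ => ?_⟩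
  have H5 : ∀ q σ, ∃ h0 : ℝ, σ < p → (0 < h0 ∧
        ∀ h : ℝ, h0 ≤ h → ∀ n : ℕ, m * n ≤ K * h →
        ∀ (coll : ℕ → ℝ) (I1 I2 : ℕ → ℕ → ℝ) (X : Finset ℕ), (∀ j k, 0 ≤ I1 j k) → (∀ j k, 0 ≤ I2 j k) →
          m * ∑ j ∈ range n, coll j ≤ κ0 q * h →
          ∑ j ∈ range n, ∑ k ∈ Ioc j (j + L q σ), I1 j k ≤ φ q σ * h + X1 q σ →
          ∑ j ∈ range n, ∑ k ∈ Ioc j (j + L q σ), I2 j k ≤ φ q σ * h + X1 q σ → m * X.card ≤ e0 q * h →
          ∑ j ∈ range n, err1 (c0 q) (c q) m (A q σ) (x q) (L q σ) coll I1 I2 X j ≤ τ q / 2 * h) := by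
    intro q σ
    by_cases hσ : σ < p
    · obtain ⟨h0, a1, a2⟩ := H2 q m ((hm1' q).trans hm) (L q σ) (A q σ) (φ q σ) (X1 q σ) (hA q σ hσ) (hφ q σ hσ)
        ((hAφ q σ hσ).trans (hu1' q))
      exact ⟨h0, fun _ => ⟨a1, a2⟩⟩
    · exact ⟨1, fun h => absurd h hσ⟩
  choose h0 H6 using H5
  obtain ⟨h1, hh1, hh1'⟩ := upp_ex2 (p := p) h0
  refine ⟨h1, by linarith, ?_⟩
  intro h hh n hn σ hσ q coll I1 I2 X err2 g1 g2 b1 b2 b3 b4 b5
  have hhp : 0 < h := by linarith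
  obtain ⟨a1, a2⟩ := H6 q σ hσ
  have a3 := a2 h ((hh1' q σ hσ).trans hh) n hn coll I1 I2 X g1 g2
    (b1.trans (mul_le_mul_of_nonneg_right (hκ' q) hhp.le)) b2 b3
    (b4.trans (mul_le_mul_of_nonneg_right (he' q) hhp.le))
  have a4 : τ0 / 2 * h ≤ τ q / 2 * h := mul_le_mul_of_nonneg_right (by have := hτ0' q; linarith) hhp.le
  linarith

end Vale.Agent.P106.U.H652
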