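import Vale.Agent.P106.U.H652.Ev3
import Vale.Agent.P106.U.H652.OneU

/-!
# P106 / U / H652 : the numbers of the sums of the square roots (helper652)

`t = x m`, `μ = 8 c t`, `A = 2^(e t)` with `2 e < c`; the informations are summed by `S3.F2b`.

* `sum_sqrt_le` : `Σ √I ≤ √(N Σ I)`.
* **`ev_row`** : `A √(C' h/m (D h/B + K (m + μ + 1) 2^-(μ/8) (C h/m))) ≤ κ h` for all large `m`, then `B`.
* `F2bs` : the sum of `F2b` over `d ≤ D`;  `F2bs_le`.
* `ev_sw` : `A (C h/B + C' m) ≤ κ h`.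
-/

set_option autoImplicit false

namespace Vale.Agent.P106.U.H652

open Filter Topology Finset
open Vale.Agent.P127.U.CellD (q2)

/-- Cauchy-Schwarz -/
theorem sum_sqrt_le {ι : Type*} (S : Finset ι) (I : ι → ℝ) (hI : ∀ i ∈ S, 0 ≤ I i) {N X : ℝ} (hN : (S.card : ℝ) ≤ N)
    (hX : ∑ i ∈ S, I i ≤ X) : ∑ i ∈ S, Real.sqrt (I i) ≤ Real.sqrt (N * X) := by
  have h0 : 0 ≤ ∑ i ∈ S, I i := Finset.sum_nonneg hI
  have h1 : (∑ i ∈ S, Real.sqrt (I i)) ^ 2 ≤ S.card * ∑ i ∈ S, Real.sqrt (I i) ^ 2 := sq_sum_le_card_mul_sum_sq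
  have h2 : ∑ i ∈ S, Real.sqrt (I i) ^ 2 = ∑ i ∈ S, I i := Finset.sum_congr rfl fun i hi => Real.sq_sqrt (hI i hi)
  rw [h2] at h1
  have h3 : (S.card : ℝ) * ∑ i ∈ S, I i ≤ N * X :=
    mul_le_mul hN hX h0 ((Nat.cast_nonneg _).trans hN)
  exact Real.le_sqrt_of_sq_le (h1.trans h3)

/-- the number under the root -/
theorem row_key {C C' D K κ m h B w q P : ℝ} (hm : 1 ≤ m) (hB : 0 < B) (hq : 0 ≤ q) (hP : 0 < P)
    (hw : 0 ≤ w) (h1 : |C' * K * C| * w * P ^ 2 * q ≤ κ ^ 2 / 2) (h2 : |C' * D| * P ^ 2 * 2 ≤ κ ^ 2 * B) :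
    C' * (h / m) * (D * (h / B) + K * w * q * (C * (h / m))) ≤ (κ * h / P) ^ 2 := by
  have hm0 : 0 < m := by linarith
  have a1 : C' * D * (h ^ 2 / (m * B)) ≤ κ ^ 2 / 2 * h ^ 2 / P ^ 2 := by
    have b2 : C' * D * (h ^ 2 / (m * B)) ≤ |C' * D| * (h ^ 2 / B) := by
      refine mul_le_mul (le_abs_self _) ?_ (by positivity) (abs_nonneg _)
      refine div_le_div_of_nonneg_left (by positivity) (by positivity) ?_
      nlinarith
    refine b2.trans ?_
    rw [← mul_div_assoc, div_le_div_iff₀ hB (by positivity)]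
    have b3 : |C' * D| * P ^ 2 * 2 * h ^ 2 ≤ κ ^ 2 * B * h ^ 2 := mul_le_mul_of_nonneg_right h2 (by positivity)
    linarith
  have a2 : C' * K * C * (w * q * (h ^ 2 / m ^ 2)) ≤ κ ^ 2 / 2 * h ^ 2 / P ^ 2 := by
    have b2 : C' * K * C * (w * q * (h ^ 2 / m ^ 2)) ≤ |C' * K * C| * (w * q * h ^ 2) := by
      refine mul_le_mul (le_abs_self _) ?_ (by positivity) (abs_nonneg _)
      refine mul_le_mul_of_nonneg_left ?_ (by positivity)
      exact div_le_self (by positivity) (by nlinarith)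
    refine b2.trans ?_
    rw [le_div_iff₀ (by positivity)]
    have b3 := mul_le_mul_of_nonneg_right h1 (sq_nonneg h)
    linarith
  have e1 : C' * (h / m) * (D * (h / B) + K * w * q * (C * (h / m))) =
      C' * D * (h ^ 2 / (m * B)) + C' * K * C * (w * q * (h ^ 2 / m ^ 2)) := by
    field_simp
  have e2 : (κ * h / P) ^ 2 = κ ^ 2 / 2 * h ^ 2 / P ^ 2 + κ ^ 2 / 2 * h ^ 2 / P ^ 2 := by
    rw [div_pow, mul_pow]
    ring
  rw [e1, e2]
  exact add_le_add a1 a2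

/-- **the numbers of one row** -/
theorem ev_row {e c x : ℕ} (hc : 2 * e < c) (hx : 1 ≤ x) (A C C' D K : ℝ) {κ : ℝ} (hκ : 0 < κ) :
    Ev3 fun m B h => A * 2 ^ (e * (x * m)) * Real.sqrt (C' * ((h : ℝ) / m) * (D * ((h : ℝ) / B) +
      K * (m + (8 * c * (x * m) : ℕ) + 1) * q2 (8 * c * (x * m) / 8) * (C * ((h : ℝ) / m)))) ≤ κ * h := by
  obtain ⟨κ', hκ'⟩ : ∃ κ' : ℝ, κ' = κ / (|A| + 1) := ⟨_, rfl⟩
  have hA := abs_nonneg A
  have hκ'0 : 0 < κ' := by rw [hκ']; positivity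
  have hm1 : ∀ᶠ m : ℕ in atTop, |C' * K * C| * (10 * c * x + 1) * (m : ℝ) ^ 1 * 2 ^ (2 * e * x * m) * q2 (c * x * m) ≤
      κ' ^ 2 / 2 := ev_q2 (|C' * K * C| * (10 * c * x + 1)) 1 (2 * e * x) (c * x) (Nat.mul_lt_mul_of_pos_right hc hx)
        (by positivity)
  have main : ∀ᶠ m : ℕ in atTop, ∀ᶠ B : ℕ in atTop, ∀ h : ℕ, A * 2 ^ (e * (x * m)) *
      Real.sqrt (C' * ((h : ℝ) / m) * (D * ((h : ℝ) / B) +
      K * (m + (8 * c * (x * m) : ℕ) + 1) * q2 (8 * c * (x * m) / 8) * (C * ((h : ℝ) / m)))) ≤ κ * h := by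
    filter_upwards [hm1, ev_nat 1] with m h1 hm
    have hmr : (1 : ℝ) ≤ m := by exact_mod_cast hm
    filter_upwards [ev_con (|C' * D| * 2 ^ (2 * e * x * m) * 2) (κ := κ' ^ 2) (by positivity), ev_nat 1] with B h2 hB h
    have hBr : (0 : ℝ) < B := by exact_mod_cast hB
    have hh : (0 : ℝ) ≤ h := Nat.cast_nonneg _
    have eμ : 8 * c * (x * m) / 8 = c * x * m := by
      rw [show 8 * c * (x * m) = 8 * (c * x * m) by ring]
      exact Nat.mul_div_cancel_left _ (by norm_num)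
    have e2 : (2 : ℝ) ^ (2 * e * x * m) = (2 ^ (e * (x * m))) ^ 2 := by
      rw [← pow_mul]
      congr 1
      ring
    have hq0 : 0 ≤ q2 (c * x * m) := by unfold q2; positivity
    have hP0 : (0 : ℝ) < 2 ^ (e * (x * m)) := by positivity
    rw [e2] at h1 h2
    rw [eμ]
    generalize q2 (c * x * m) = q at h1 hq0 ⊢
    generalize (2 : ℝ) ^ (e * (x * m)) = P at h1 h2 hP0 ⊢
    have b0 : ((m : ℝ) + (8 * c * (x * m) : ℕ) + 1) ≤ (10 * c * x + 1) * m := by
      push_cast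
      have c1 : (1 : ℝ) ≤ c := by exact_mod_cast (by omega : 1 ≤ c)
      have c2 : (1 : ℝ) ≤ x := by exact_mod_cast hx
      have c3 : (1 : ℝ) ≤ c * x := by nlinarith
      have c4 : (m : ℝ) ≤ c * x * m := by nlinarith
      nlinarith
    have b1 : (0 : ℝ) ≤ (m : ℝ) + (8 * c * (x * m) : ℕ) + 1 := by positivity
    generalize (m : ℝ) + (8 * c * (x * m) : ℕ) + 1 = w at b0 b1 ⊢
    have h1' : |C' * K * C| * w * P ^ 2 * q ≤ κ' ^ 2 / 2 := by
      refine le_trans ?_ h1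
      rw [pow_one]
      have := abs_nonneg (C' * K * C)
      have b2 : |C' * K * C| * w ≤ |C' * K * C| * (10 * c * x + 1) * m := by
        have := mul_le_mul_of_nonneg_left b0 this
        linarith
      exact mul_le_mul_of_nonneg_right (mul_le_mul_of_nonneg_right b2 (by positivity)) hq0
    have key := row_key (h := (h : ℝ)) (C := C) (C' := C') (D := D) (K := K) (κ := κ') hmr hBr hq0 hP0 b1 h1' h2
    have r1 := Real.sqrt_le_sqrt key
    rw [Real.sqrt_sq (by positivity)] at r1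
    have r2 : A * P * Real.sqrt (C' * ((h : ℝ) / m) * (D * ((h : ℝ) / B) + K * w * q * (C * ((h : ℝ) / m)))) ≤
        |A| * P * (κ' * h / P) :=
      mul_le_mul (mul_le_mul_of_nonneg_right (le_abs_self A) hP0.le) r1 (Real.sqrt_nonneg _) (by positivity)
    refine r2.trans ?_
    have e3 : |A| * P * (κ' * h / P) = |A| * κ' * h := by field_simp
    rw [e3, hκ']
    have e4 : |A| * (κ / (|A| + 1)) ≤ κ := by
      rw [← mul_div_assoc, div_le_iff₀ (by positivity)]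
      nlinarith
    exact mul_le_mul_of_nonneg_right e4 hh
  exact main.mono fun m H => H.mono fun B H => Eventually.of_forall H

/-- few exceptional levels -/
theorem ev_sw (A C C' : ℝ) {κ : ℝ} (hκ : 0 < κ) : Ev3 fun m B h => A * (C * ((h : ℝ) / B) + C' * m) ≤ κ * h := by
  refine Eventually.of_forall fun m => ?_
  filter_upwards [ev_con (2 * |A * C|) hκ, ev_nat 1] with B h1 h2
  filter_upwards [ev_con (2 * |A * C' * m|) hκ] with h h3
  have hB : (0 : ℝ) < B := by exact_mod_cast h2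
  have hh : (0 : ℝ) ≤ h := Nat.cast_nonneg _
  have e1 : A * (C * ((h : ℝ) / B)) ≤ κ * h / 2 := by
    have b1 : A * (C * ((h : ℝ) / B)) ≤ |A * C| * (h / B) := by
      rw [← mul_assoc]
      exact mul_le_mul_of_nonneg_right (le_abs_self _) (by positivity)
    refine b1.trans ?_
    rw [← mul_div_assoc, div_le_iff₀ hB]
    have := mul_le_mul_of_nonneg_right h1 hh
    linarith
  have e2 : A * (C' * m) ≤ κ * h / 2 := by
    have := le_abs_self (A * C' * m)
    rw [← mul_assoc]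
    linarith
  rw [mul_add]
  linarith

/-- the sum of the right sides of the field `F2` -/
theorem F2bs_le {h B : ℝ} {K m μ q n : ℝ} (hK : 0 ≤ K) (hm : 0 ≤ m + μ + 1) (hq : 0 ≤ q) (hn : 0 ≤ n) (D : ℕ) :
    ∑ d ∈ range (D + 1), (h / B + K * ((d : ℝ) + 1) ^ 2 * (m + μ + 1) * q * n) ≤
      ((D : ℝ) + 1) * (h / B) + ((D : ℝ) + 1) ^ 3 * K * (m + μ + 1) * q * n := by
  have h1 : ∀ d ∈ range (D + 1), h / B + K * ((d : ℝ) + 1) ^ 2 * (m + μ + 1) * q * n ≤
      h / B + K * ((D : ℝ) + 1) ^ 2 * (m + μ + 1) * q * n := by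
    intro d hd
    have h2 : (d : ℝ) ≤ D := by exact_mod_cast Nat.lt_succ_iff.1 (mem_range.1 hd)
    have h3 : (0 : ℝ) ≤ d := Nat.cast_nonneg _
    gcongr
  refine (Finset.sum_le_sum h1).trans ?_
  rw [Finset.sum_const, card_range, nsmul_eq_mul]
  push_cast
  apply le_of_eq
  ring

end Vale.Agent.P106.U.H652
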