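import Vale.Agent.P106.U.H652.Sel6
import Vale.Agent.P106.U.H523.Nums

/-!
# P106 / U / H652 : the arithmetic of the record `RunOk` (helper652)

Order of constants: `σ`, `ε` → `c'` → .. → `m` → `(Tc, s, D0)` → `h`.

* `gp_num` : price of the closure `X (log 5 + 2 √c + c log (2^(m+1))) ≤ κ h` for `X ≤ CX h / m`, every `c ≤ c'`, `m ≥ m0`.
* `lin_num` : `C h / m ≤ κ h` for `m ≥ m0`;  `con_num` : `C ≤ κ h`.
* `log_num` : `C log (A h + 1) ≤ κ h`.
* `word_num` : average entropy of the words (helper339's `wordH`) `≤ CA h / m`.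
-/

set_option autoImplicit false

namespace Vale.Agent.P106.U.H652

open Finset

/-- numbers of the form `C h / m` -/
theorem lin_num (C : ℝ) {κ : ℝ} (hκ : 0 < κ) : ∃ m0 : ℕ, 1 ≤ m0 ∧ ∀ m h : ℕ, m0 ≤ m → C * h / m ≤ κ * h := by
  obtain ⟨m0, hm0⟩ := exists_nat_gt (|C| / κ)
  refine ⟨max m0 1, le_max_right _ _, fun m h hm => ?_⟩
  have h1 : (m0 : ℝ) ≤ m := by exact_mod_cast (le_max_left _ _).trans hm
  have h2 : 1 ≤ m := (le_max_right _ _).trans hm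
  have h3 : (0 : ℝ) < m := by exact_mod_cast h2
  have hh : (0 : ℝ) ≤ h := Nat.cast_nonneg _
  rw [div_lt_iff₀ hκ] at hm0
  rw [div_le_iff₀ h3]
  have h4 : C ≤ m * κ := by
    have := le_abs_self C
    have h5 : (m0 : ℝ) * κ ≤ m * κ := mul_le_mul_of_nonneg_right h1 hκ.le
    linarith
  have := mul_le_mul_of_nonneg_right h4 hh
  linarith

/-- constants -/
theorem con_num (C : ℝ) {κ : ℝ} (hκ : 0 < κ) : ∃ h0 : ℕ, 1 ≤ h0 ∧ ∀ h : ℕ, h0 ≤ h → C ≤ κ * h := by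
  obtain ⟨h0, hh0⟩ := exists_nat_gt (C / κ)
  refine ⟨max h0 1, le_max_right _ _, fun h hh => ?_⟩
  have h1 : (h0 : ℝ) ≤ h := by exact_mod_cast (le_max_left _ _).trans hh
  rw [div_lt_iff₀ hκ] at hh0
  have h2 : (h0 : ℝ) * κ ≤ h * κ := mul_le_mul_of_nonneg_right h1 hκ.le
  linarith

/-- logarithms -/
theorem log_num {C A : ℝ} (hC : 0 ≤ C) (hA : 0 ≤ A) {κ : ℝ} (hκ : 0 < κ) :
    ∃ h0 : ℕ, 1 ≤ h0 ∧ ∀ h : ℕ, h0 ≤ h → ∀ x : ℝ, 0 ≤ x → x ≤ A * h → C * Real.log (x + 1) ≤ κ * h := by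
  -- `log (y²) ≤ 2 (y - 1)`, `y = √(x + 1)`
  obtain ⟨h0, hh0⟩ := exists_nat_gt ((2 * C) ^ 2 * (A + 1) / κ ^ 2)
  refine ⟨max h0 1, le_max_right _ _, fun h hh x hx hxA => ?_⟩
  have h1 : (h0 : ℝ) ≤ h := by exact_mod_cast (le_max_left _ _).trans hh
  have h2 : (1 : ℝ) ≤ h := by exact_mod_cast (le_max_right _ _).trans hh
  have h3 : (2 * C) ^ 2 * (A + 1) ≤ κ ^ 2 * h := by
    rw [div_lt_iff₀ (by positivity)] at hh0
    have := mul_le_mul_of_nonneg_right h1 (sq_nonneg κ)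
    linarith
  have h4 : Real.log (x + 1) ≤ 2 * Real.sqrt (x + 1) := by
    have e1 : x + 1 = Real.sqrt (x + 1) ^ 2 := (Real.sq_sqrt (by linarith)).symm
    have e2 : Real.log (x + 1) = 2 * Real.log (Real.sqrt (x + 1)) := by
      conv_lhs => rw [e1]
      rw [Real.log_pow]
      norm_num
    have e3 := Real.log_le_sub_one_of_pos (Real.sqrt_pos.2 (by linarith : 0 < x + 1))
    rw [e2]
    linarith
  have h5 : Real.sqrt (x + 1) ≤ Real.sqrt ((A + 1) * h) := Real.sqrt_le_sqrt (by nlinarith)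
  have h6 : 2 * C * Real.sqrt ((A + 1) * h) ≤ κ * h := by
    refine abs_le_of_sq_le_sq' ?_ (by positivity) |>.2
    rw [mul_pow, Real.sq_sqrt (by positivity)]
    have := mul_le_mul_of_nonneg_right h3 (by linarith : (0 : ℝ) ≤ h)
    nlinarith
  have h7 := mul_le_mul_of_nonneg_left h4 hC
  have h8 := mul_le_mul_of_nonneg_left h5 (by positivity : (0 : ℝ) ≤ 2 * C)
  linarith

/-- **the price of the closure** -/
theorem gp_num {CX κ : ℝ} (hCX : 0 < CX) (hκ : 0 < κ) : ∃ c' : ℝ, 0 < c' ∧ c' ≤ 1 / 4 ∧ ∃ m0 : ℕ, 1 ≤ m0 ∧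
    ∀ c : ℝ, 0 ≤ c → c ≤ c' → ∀ m h X : ℕ, m0 ≤ m → (X : ℝ) ≤ CX * h / m →
      X * (Real.log 5 + (2 * Real.sqrt c + c * Real.log ((2 * 2 ^ m : ℕ) : ℝ))) ≤ κ * h := by
  refine ⟨min (1 / 4) (κ / (4 * CX)), by positivity, min_le_left _ _, ?_⟩
  obtain ⟨m0, hm0⟩ := exists_nat_gt (8 * CX / κ)
  refine ⟨max m0 1, le_max_right _ _, ?_⟩
  intro c hc hcc m h X hm hX
  have h1 : (m0 : ℝ) ≤ m := by exact_mod_cast (le_max_left _ _).trans hm
  have h2 : (1 : ℝ) ≤ m := by exact_mod_cast (le_max_right _ _).trans hm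
  have hh : (0 : ℝ) ≤ h := Nat.cast_nonneg _
  have c1 : c ≤ 1 / 4 := hcc.trans (min_le_left _ _)
  have c2 : c ≤ κ / (4 * CX) := hcc.trans (min_le_right _ _)
  have l2 : Real.log 2 < 1 := by
    have := Real.log_two_lt_d9
    linarith
  have l20 : 0 < Real.log 2 := Real.log_pos (by norm_num)
  have l5 : Real.log 5 ≤ 3 := by
    have e1 : Real.log 5 ≤ Real.log (2 ^ 3) := Real.log_le_log (by norm_num) (by norm_num)
    rw [Real.log_pow] at e1
    push_cast at e1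
    linarith
  have lm : Real.log ((2 * 2 ^ m : ℕ) : ℝ) = (m + 1) * Real.log 2 := by
    push_cast
    rw [← pow_succ', Real.log_pow]
    push_cast
    ring
  have s1 : Real.sqrt c ≤ 1 := by
    rw [Real.sqrt_le_one]
    linarith
  have b0 : c * ((m + 1) * Real.log 2) ≤ c * (m + 1) := by
    have : (m + 1) * Real.log 2 ≤ (m + 1) * 1 := mul_le_mul_of_nonneg_left l2.le (by linarith)
    have := mul_le_mul_of_nonneg_left this hc
    linarith
  have b1 : Real.log 5 + (2 * Real.sqrt c + c * Real.log ((2 * 2 ^ m : ℕ) : ℝ)) ≤ 6 + c * m := by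
    rw [lm]
    linarith
  have b2 : X * (Real.log 5 + (2 * Real.sqrt c + c * Real.log ((2 * 2 ^ m : ℕ) : ℝ))) ≤ CX * h / m * (6 + c * m) :=
    mul_le_mul hX b1 (by
      rw [lm]
      have : 0 ≤ Real.sqrt c := Real.sqrt_nonneg _
      have : 0 ≤ Real.log 5 := Real.log_nonneg (by norm_num)
      positivity) (by positivity)
  refine b2.trans ?_
  have hm0' : (0 : ℝ) < m := by linarith
  have b3 : CX * h / m * (6 + c * m) = 6 * CX * h / m + CX * c * h := by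
    field_simp
  rw [b3]
  have b4 : CX * c * h ≤ κ / 4 * h := by
    refine mul_le_mul_of_nonneg_right ?_ hh
    rw [le_div_iff₀ (by positivity)] at c2
    linarith
  have b5 : 6 * CX * h / m ≤ 3 / 4 * κ * h := by
    rw [div_le_iff₀ hm0']
    rw [div_lt_iff₀ hκ] at hm0
    have g1 : (m0 : ℝ) * κ ≤ m * κ := mul_le_mul_of_nonneg_right h1 hκ.le
    have g2 : 8 * CX ≤ m * κ := by linarith
    have := mul_le_mul_of_nonneg_right g2 hh
    linarith
  linarith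

/-- **the words** -/
theorem word_num {C0 C δ1 A K : ℝ} (hC0 : 0 ≤ C0) (hC : 0 ≤ C) (hK : 0 ≤ K) (m Tc s D0 : ℕ)
    (hm : 1 ≤ m) (hA : (C0 + 1) * K + 2 ≤ A) :
    ∃ h0 : ℕ, 1 ≤ h0 ∧ ∀ h n nB X0 Xn : ℕ, h0 ≤ h → (n : ℝ) + Xn ≤ K * (h / m) → X0 ≤ Xn + n →
      (h : ℝ) / m ≤ 2 / δ1 * nB → 0 < nB →
      (Tc + 1) * Real.log ((X0 : ℝ) + 1) + (C0 + 1) * (n + Xn) + C * Tc * (n * (s * D0)) / nB ≤ A * h / m := by
  have hmr : (1 : ℝ) ≤ m := by exact_mod_cast hm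
  have hm0 : (0 : ℝ) < m := by linarith
  obtain ⟨h1, hh11, hh1⟩ := log_num (C := (Tc : ℝ) + 1) (A := K) (by positivity) hK (κ := 1 / m) (by positivity)
  obtain ⟨h2, hh21, hh2⟩ := con_num (C * Tc * (K * (s * D0)) * (2 / δ1)) (κ := 1 / m) (by positivity)
  refine ⟨max h1 h2, le_max_of_le_left hh11, ?_⟩
  intro h n nB X0 Xn hh hn hX hB hB0
  have hhr : (0 : ℝ) ≤ h := Nat.cast_nonneg _
  have hBr : (0 : ℝ) < nB := by exact_mod_cast hB0
  have hn0 : (0 : ℝ) ≤ n := Nat.cast_nonneg _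
  have hXn0 : (0 : ℝ) ≤ Xn := Nat.cast_nonneg _
  have hX' : (X0 : ℝ) ≤ Xn + n := by exact_mod_cast hX
  have hdm : (h : ℝ) / m ≤ h := div_le_self hhr hmr
  have a1 : (X0 : ℝ) ≤ K * h := by
    have := mul_le_mul_of_nonneg_left hdm hK
    linarith
  have a2 := hh1 h ((le_max_left _ _).trans hh) X0 (Nat.cast_nonneg _) a1
  have a3 := hh2 h ((le_max_right _ _).trans hh)
  have a4 : C * Tc * (n * (s * D0)) / nB ≤ C * Tc * (K * (s * D0)) * (2 / δ1) := by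
    rw [div_le_iff₀ hBr]
    have e1 : (n : ℝ) ≤ K * (2 / δ1 * nB) := by
      have := mul_le_mul_of_nonneg_left hB hK
      linarith
    have e2 := mul_le_mul_of_nonneg_right e1 (by positivity : (0 : ℝ) ≤ (s : ℝ) * D0)
    have e3 := mul_le_mul_of_nonneg_left e2 (by positivity : (0 : ℝ) ≤ C * Tc)
    have e4 : C * Tc * (K * (2 / δ1 * nB) * (s * D0)) = C * Tc * (K * (s * D0)) * (2 / δ1) * nB := by ring
    linarith
  have a5 : (C0 + 1) * ((n : ℝ) + Xn) ≤ (C0 + 1) * (K * (h / m)) := mul_le_mul_of_nonneg_left hn (by positivity)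
  have a6 : ((C0 + 1) * K + 2) * h / m ≤ A * h / m := by gcongr
  have a7 : ((C0 + 1) * K + 2) * h / m = (C0 + 1) * (K * (h / m)) + 1 / m * h + 1 / m * h := by
    field_simp
    ring
  linarith

end Vale.Agent.P106.U.H652
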