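import Vale.Agent.P106.U.H565.Sel5
import Vale.Agent.P106.U.H480.SelG

/-!
# P106 / U / H652 : the selection with closures, constants of `U/S5/Props` (helper652): helper565's `sel5` for helper480's `PSelG`

* `H652.tot_cost`, `H652.tot_avg` : finitely many costs are put into ONE total cost (the factor `(J.card + 4) / pg` of `PSelG`
  multiplies the activity and the defect, the number of costs is chosen after them).
* `sel6` : from the normal form (constants `σ`, `ε`, `ε₁`, `pg`; `d1`, `g`, `m`, `(Tc, s)`, `h0` in this order): a first word with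
  `log M1 ≤ CA h / m`, closures of price `gp ≤ lam² δ1 ε₁ / 4096 h`, words with average entropy `≤ CA h / m`, one total cost with
  average `≤ 1`; one place, cap, values `e1`, `E`, `e2`, laws `Q1`, `Q2` with `NEx .. ε`.
-/

set_option autoImplicit false

namespace Vale.Agent.P106.U

open Finset Vale.Agent.P127 Vale.Agent.P127.Stk Vale.Agent.P127.U Vale.Agent.P106.W Vale.Agent.P106.K
open Vale.Agent.P127.U.Nonat Vale.Agent.P127.U.YPat Vale.Agent.P127.U.JSB H565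

namespace H652

theorem tot_cost {ι : Type} {J : Finset ι} {Φ x : ι → ℝ} (hΦ : ∀ j ∈ J, 0 < Φ j) (hx : ∀ j ∈ J, 0 ≤ x j) {C : ℝ}
    (h : ∑ j ∈ J, x j / (J.card * Φ j) ≤ C) : ∀ j ∈ J, x j ≤ C * (J.card * Φ j) := by
  intro j hj
  have hc : (0 : ℝ) < J.card := by exact_mod_cast Finset.card_pos.2 ⟨j, hj⟩
  have h1 : x j / (J.card * Φ j) ≤ C :=
    le_trans (Finset.single_le_sum (f := fun j => x j / (J.card * Φ j))
      (fun i hi => div_nonneg (hx i hi) (mul_nonneg hc.le (hΦ i hi).le)) hj) h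
  rwa [div_le_iff₀ (mul_pos hc (hΦ j hj))] at h1

theorem tot_nonneg {ι : Type} {J : Finset ι} {Φ x : ι → ℝ} (hΦ : ∀ j ∈ J, 0 < Φ j) (hx : ∀ j ∈ J, 0 ≤ x j) :
    0 ≤ ∑ j ∈ J, x j / (J.card * Φ j) :=
  Finset.sum_nonneg fun j hj => div_nonneg (hx j hj) (mul_nonneg (Nat.cast_nonneg _) (hΦ j hj).le)

/-- the average of the total cost -/
theorem tot_avg {ι : Type} {J : Finset ι} {Φ : ι → ℝ} (hΦ : ∀ j ∈ J, 0 < Φ j) {Ω : Type} [Fintype Ω] (Q : Law Ω)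
    {S2 : Type} (Z : ℕ → ℕ → Ω → S2) (ψ : ι → ℕ → ℕ → S2 → ℝ) (n T : ℕ) {X : ℝ} (hX : 0 ≤ X)
    (h : ∀ j ∈ J, ∑ b0 ∈ range n, ∑ kk ∈ range T, Q.ex (fun ω => ψ j b0 kk (Z b0 kk ω)) ≤ Φ j * X) :
    ∑ b0 ∈ range n, ∑ kk ∈ range T, Q.ex (fun ω => ∑ j ∈ J, ψ j b0 kk (Z b0 kk ω) / (J.card * Φ j)) ≤ X := by
  have e1 : ∀ b0 kk, Q.ex (fun ω => ∑ j ∈ J, ψ j b0 kk (Z b0 kk ω) / (J.card * Φ j)) =
      ∑ j ∈ J, Q.ex (fun ω => ψ j b0 kk (Z b0 kk ω)) / (J.card * Φ j) := by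
    intro b0 kk
    unfold Law.ex
    simp only [Finset.mul_sum]
    rw [Finset.sum_comm]
    refine Finset.sum_congr rfl fun j _ => ?_
    rw [Finset.sum_div]
    exact Finset.sum_congr rfl fun ω _ => by ring
  simp only [e1]
  have e2 : ∑ b0 ∈ range n, ∑ kk ∈ range T, ∑ j ∈ J, Q.ex (fun ω => ψ j b0 kk (Z b0 kk ω)) / (J.card * Φ j) =
      ∑ j ∈ J, (∑ b0 ∈ range n, ∑ kk ∈ range T, Q.ex (fun ω => ψ j b0 kk (Z b0 kk ω))) / (J.card * Φ j) := by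
    have e3 : ∀ b0, ∑ kk ∈ range T, ∑ j ∈ J, Q.ex (fun ω => ψ j b0 kk (Z b0 kk ω)) / (J.card * Φ j) =
        ∑ j ∈ J, ∑ kk ∈ range T, Q.ex (fun ω => ψ j b0 kk (Z b0 kk ω)) / (J.card * Φ j) := fun b0 =>
      Finset.sum_comm
    rw [Finset.sum_congr rfl fun b0 _ => e3 b0, Finset.sum_comm]
    refine Finset.sum_congr rfl fun j _ => ?_
    rw [Finset.sum_div]
    exact Finset.sum_congr rfl fun b0 _ => by rw [Finset.sum_div]
  rw [e2]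
  rcases J.eq_empty_or_nonempty with hJ | hJ
  · rw [hJ]
    simpa using hX
  have hc : (0 : ℝ) < J.card := by exact_mod_cast Finset.card_pos.2 hJ
  have e4 : ∀ j ∈ J, (∑ b0 ∈ range n, ∑ kk ∈ range T, Q.ex (fun ω => ψ j b0 kk (Z b0 kk ω))) / (J.card * Φ j) ≤
      X / J.card := by
    intro j hj
    have hΦj := hΦ j hj
    rw [div_le_div_iff₀ (mul_pos hc hΦj) hc]
    have := mul_le_mul_of_nonneg_right (h j hj) hc.le
    linarith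
  refine (Finset.sum_le_sum e4).trans (le_of_eq ?_)
  rw [Finset.sum_const, nsmul_eq_mul]
  field_simp

/-- the threshold of the light blocks: linear in `m` -/
theorem ay_lin {lam ε₁ : ℝ} (hl : 0 < lam) (he : 0 < ε₁) : ∃ m0 : ℕ, ∀ m : ℕ, m0 ≤ m →
    ε₁ * lam / 64 * m ≤ ε₁ * Real.log (ε₁ / ay lam m) - 1 := by
  have l2 : 1 / 2 < Real.log 2 := by
    have := Real.log_two_gt_d9
    linarith
  have l3 : Real.log 2 < 1 := by
    have := Real.log_two_lt_d9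
    linarith
  obtain ⟨m1, hm1⟩ := exists_nat_gt ((|Real.log ε₁| + 1 + 1 / ε₁) * (64 / lam))
  refine ⟨m1, fun m hm => ?_⟩
  have hm' : (m1 : ℝ) ≤ m := by exact_mod_cast hm
  have hmm : (|Real.log ε₁| + 1 + 1 / ε₁) * (64 / lam) ≤ m := by linarith
  rw [mul_div_assoc', div_le_iff₀ hl] at hmm
  have hm0 : (0 : ℝ) ≤ m := Nat.cast_nonneg _
  have h1 : Real.log (ε₁ / ay lam m) = Real.log ε₁ - (Real.log 2 - lam / 8 * (m * Real.log 2)) := by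
    rw [Real.log_div he.ne' (ay_pos lam m).ne', ay_log]
  have h2 : lam / 8 * (m * (1 / 2)) ≤ lam / 8 * (m * Real.log 2) := by gcongr
  have h3 : lam / 16 * m - |Real.log ε₁| - 1 ≤ Real.log (ε₁ / ay lam m) := by
    rw [h1]
    linarith [neg_abs_le (Real.log ε₁)]
  have h4 := mul_le_mul_of_nonneg_left h3 he.le
  have h5 := mul_le_mul_of_nonneg_left hmm he.le
  have h6 : ε₁ * (1 / ε₁) = 1 := by field_simp
  have h7 : 0 ≤ ε₁ * |Real.log ε₁| := by positivity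
  have h8 : 0 ≤ ε₁ * (m * lam) := by positivity
  nlinarith

/-- the closure price -/
theorem s6_gp {lam δ1 ε₁ h m nB y gp : ℝ} (hlam : 0 < lam) (hnB : 0 ≤ nB) (hε : 0 < ε₁) (h1 : δ1 * h / 2 ≤ m * nB)
    (hy : ε₁ * lam / 64 * m ≤ y) (hg : gp ≤ lam ^ 2 * δ1 * ε₁ / 4096 * h) : gp ≤ lam / 32 * nB * y := by
  have h2 : lam / 32 * nB * (ε₁ * lam / 64 * m) ≤ lam / 32 * nB * y := mul_le_mul_of_nonneg_left hy (by positivity)
  have h3 : lam / 32 * nB * (ε₁ * lam / 64 * m) = ε₁ * lam ^ 2 / 2048 * (m * nB) := by ring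
  have h4 : ε₁ * lam ^ 2 / 2048 * (δ1 * h / 2) ≤ ε₁ * lam ^ 2 / 2048 * (m * nB) :=
    mul_le_mul_of_nonneg_left h1 (by positivity)
  have h5 : ε₁ * lam ^ 2 / 2048 * (δ1 * h / 2) = lam ^ 2 * δ1 * ε₁ / 4096 * h := by ring
  linarith

end H652

open S5

/-- **the selection with closures** -/
theorem sel6 {σ : Cst} (hσ : σ.Ok) {CA : ℝ} (hCA : 0 < CA) {ε ε₁ pg : ℝ} (hε : 0 < ε) (hε₁ : 0 < ε₁) (hpg : 0 < pg)
    (hpg1 : pg ≤ 1) :
    ∃ d1 : ℝ, 0 < d1 ∧ ∀ g : Gv, g.Ok σ d1 → ∀ Kg : ℝ, ∃ m0 : ℕ, 1 ≤ m0 ∧ ∀ m : ℕ, m0 ≤ m → ∀ Tc s : ℕ, 0 < Tc →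
      ∃ h0 : ℕ, ∀ (Ω : Type) [Fintype Ω] (P : Law Ω) (l : Ω → Ry) (t : Ω → ℝ) (L h q : ℕ) (W : Ω → Cbx), h0 ≤ h →
      NEx 100 σ.lam σ.N g.k g.β d1 P l t (fun _ => ()) L h q W →
      ∀ (δ : Type) (v : Ω → ℝ) (Wd : Ω → δ), (∀ ω, 0 < P.w ω → |v ω| ≤ 2) →
      (σ.lam - 8 * g.k) * (m * nBl σ.δ1 h m : ℕ) * Real.log 2 ≤
        Stk.hc P (fun ω => fl1 (m * nBl σ.δ1 h m) (v ω)) Wd + (3 * d1 * h * Real.log 2 + Kg) →
      ∀ (S S2 V : Type) (Pw : Ω → S) (M1 : ℕ) (Gb : Law Ω → ℕ → Ω → V) (Zw : Law Ω → ℕ → ℕ → Ω → S2)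
        (A : Law Ω → ℕ → ℕ → S2 → Prop) (gp : ℝ) (ψ : Law Ω → ℕ → ℕ → S2 → ℝ), (img Pw).card ≤ M1 →
      Real.log M1 ≤ CA * h / m → gp ≤ σ.lam ^ 2 * σ.δ1 * ε₁ / 4096 * h →
      (∀ (e1 : S) (E : Finset ℕ) (Q1 : Law Ω),
        Q1 = P.cond (fun ω => (Pw ω, ypat P (nBl σ.δ1 h m) (yb m v) (pst m v Wd) (ay σ.lam m) ω)) (e1, E) →
        σ.lam / 2 / (6 * (M1 * 2 ^ (nBl σ.δ1 h m))) ≤
          P.pr (fun ω => (Pw ω, ypat P (nBl σ.δ1 h m) (yb m v) (pst m v Wd) (ay σ.lam m) ω)) (e1, E) →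
        (∀ ω, 0 < Q1.w ω → 0 < P.w ω ∧ Pw ω = e1 ∧
          ypat P (nBl σ.δ1 h m) (yb m v) (pst m v Wd) (ay σ.lam m) ω = E) →
        NEx 100 σ.lam σ.N g.k g.β ε Q1 l t (fun _ => ()) L h q W →
        G480.Fin2 Q1 (nBl σ.δ1 h m) (yb m v) (pst m v Wd) (Gb Q1) ∧
        Stk.hc Q1 (Gb Q1 0) (pst m v Wd 0) + ∑ b ∈ range (nBl σ.δ1 h m),
          Stk.hc Q1 (Gb Q1 (b + 1)) (fun ω => (Gb Q1 b ω, yb m v b ω)) ≤ gp ∧
        (∀ b0 kk, kk < Tc → b0 + Tc * s ≤ nBl σ.δ1 h m → Dtm Q1 (Gb Q1 (b0 + kk * s)) (Zw Q1 b0 kk)) ∧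
        (∀ b0 kk, kk < Tc → b0 + Tc * s ≤ nBl σ.δ1 h m → pg ≤ prE Q1 (fun ω => A Q1 b0 kk (Zw Q1 b0 kk ω))) ∧
        ∑ b0 ∈ range (nBl σ.δ1 h m + 1 - Tc * s), ∑ kk ∈ range Tc, Q1.H (Zw Q1 b0 kk) ≤
          CA * h / m * (nBl σ.δ1 h m * Tc) ∧
        (∀ b0 kk, ∀ ω, 0 < Q1.w ω → 0 ≤ ψ Q1 b0 kk (Zw Q1 b0 kk ω)) ∧
        ∑ b0 ∈ range (nBl σ.δ1 h m + 1 - Tc * s), ∑ kk ∈ range Tc,
          Q1.ex (fun ω => ψ Q1 b0 kk (Zw Q1 b0 kk ω)) ≤ nBl σ.δ1 h m * Tc) →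
      0 < nBl σ.δ1 h m ∧
      ∃ (b0 kk : ℕ) (e1 : S) (E : Finset ℕ) (e2 : S2) (Q1 Q2 : Law Ω),
        NEx 100 σ.lam σ.N g.k g.β ε Q1 l t (fun _ => ()) L h q W ∧
        NEx 100 σ.lam σ.N g.k g.β ε Q2 l t (fun _ => ()) L h q W ∧
        SelG P Pw M1 (nBl σ.δ1 h m) (ay σ.lam m) (σ.lam / 2) ε₁ (yb m v) (pst m v Wd) Gb Zw A pg (CA * h / m) s Tc
          {()} (fun _ => ψ) (fun _ => 1) b0 kk e1 E e2 Q1 Q2 ∧
        colp Q2 (yb m v (b0 + kk * s)) (Gb Q1 (b0 + kk * s)) ≤ 10 * ε₁ / pg ∧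
        ψ Q1 b0 kk e2 ≤ 480 / (σ.lam * pg) ∧
        Real.log (1 / (P.pr (fun ω => (Pw ω, ypat P (nBl σ.δ1 h m) (yb m v) (pst m v Wd) (ay σ.lam m) ω)) (e1, E) *
          Q1.pr (Zw Q1 b0 kk) e2)) ≤ (CA + 2 + 480 * CA / (σ.lam * pg)) * h / m := by
  classical
  have hlam := hσ.bs.lam0
  have hδ := hσ.δ0
  have hN1 : 0 ≤ σ.N + 1 := by linarith [hσ.bs.N2]
  have l2a : Real.log 2 < 1 := by
    have := Real.log_two_lt_d9
    linarith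
  have l2b : 1 / 2 < Real.log 2 := by
    have := Real.log_two_gt_d9
    linarith
  obtain ⟨ε', hε'⟩ : ∃ ε' : ℝ, ε' = ε * pg * (4 / 5) := ⟨_, rfl⟩
  have hε0' : 0 < ε' := by rw [hε']; positivity
  have hε1' : ε' ≤ ε := by
    rw [hε']
    have h1 : ε * pg ≤ ε := mul_le_of_le_one_right hε.le hpg1
    have h2 : 0 < ε * pg := by positivity
    linarith
  obtain ⟨d1, hd10, hd1a, hd1b, hd1c⟩ : ∃ d1 : ℝ, 0 < d1 ∧ d1 ≤ σ.lam / 64 ∧ d1 ≤ σ.lam * σ.δ1 / 64 ∧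
      d1 ≤ ε' * σ.lam / 4096 := ⟨min (min (σ.lam / 64) (σ.lam * σ.δ1 / 64)) (ε' * σ.lam / 4096), by positivity,
    (min_le_left _ _).trans (min_le_left _ _), (min_le_left _ _).trans (min_le_right _ _), min_le_right _ _⟩
  refine ⟨d1, hd10, ?_⟩
  intro g hg Kg
  have hFix : FIX 100 σ.lam σ.N g.k g.b' :=
    (H523.FIXA_mono hlam.le hσ.bs.lam1.le hg.k0.le (by linarith [hg.k0]) hg.fix) 100 (by norm_num)
  obtain ⟨K, hK0, hsel⟩ := pSelG 100 σ.lam σ.N g.k g.β g.b' (by norm_num) hlam.le hσ.bs.lam1.le (by linarith [hσ.bs.N2]) hg.k0.le hg.βb hFix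
    d1 hd10
  obtain ⟨CB, hCB⟩ : ∃ CB : ℝ, CB = 96 / σ.lam * CA := ⟨_, rfl⟩
  have hCB0 : 0 ≤ CB := by rw [hCB]; positivity
  obtain ⟨m1, hm11, hay⟩ := ay_ok (C := 2 * (16 / σ.lam * (2 * CA / σ.δ1 + 1 + |Real.log (12 / σ.lam)|))) hlam hε₁ (by positivity)
  obtain ⟨m3, hlin⟩ := H652.ay_lin hlam hε₁
  obtain ⟨m2, hm2⟩ := exists_nat_gt (12 / σ.lam * (σ.N + 1) * (CA + 1) * (128 / ε') + 64 * (σ.N + 1) * (CB + 1) / ε')
  refine ⟨max (max m1 m3) m2, le_max_of_le_left (le_max_of_le_left hm11), ?_⟩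
  intro m hm Tc s hTc
  have hmm1 : m1 ≤ m := ((le_max_left _ _).trans (le_max_left _ _)).trans hm
  have hmm3 : m3 ≤ m := ((le_max_right _ _).trans (le_max_left _ _)).trans hm
  have hmm2 : m2 ≤ m := (le_max_right _ _).trans hm
  have hm0 : 0 < m := by omega
  have hmr : (0 : ℝ) < m := by exact_mod_cast hm0
  have c1 : 0 ≤ 12 / σ.lam * (σ.N + 1) * (CA + 1) * (128 / ε') := by positivity
  have c2 : 0 ≤ 64 * (σ.N + 1) * (CB + 1) / ε' := by positivity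
  have c3 : (m2 : ℝ) ≤ m := by exact_mod_cast hmm2
  have hma : 12 / σ.lam * (σ.N + 1) * (CA + 1) * (128 / ε') ≤ m := by linarith
  have hmb : 64 * (σ.N + 1) * (CB + 1) / ε' ≤ m := by linarith
  clear c1 c2 c3 hm2
  obtain ⟨a1, a2, a3, a4⟩ := hay m hmm1
  have a5 := hlin m hmm3
  obtain ⟨n1, hn1⟩ := exists_nat_gt (2 * (m : ℝ) / σ.δ1 + 64 * (|Kg| + Real.log 5) / (σ.lam * σ.δ1) +
    12 / σ.lam * K * (128 / ε') + 64 * K / ε' + 128 / (σ.lam * σ.δ1) * m * (Tc * s : ℝ) +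
    (|Real.log (12 / σ.lam)| + 5 / pg) * m)
  refine ⟨n1, ?_⟩
  intro Ω _ P l t L h q W hh hne δ v Wd hv hgr S S2 V Pw M1 Gb Zw A gp ψ hM1 hlM1 hgp hall
  have hhr : (n1 : ℝ) ≤ h := by exact_mod_cast hh
  have l5 : 0 ≤ Real.log 5 := Real.log_nonneg (by norm_num)
  have t1 : 0 < 2 * (m : ℝ) / σ.δ1 := by positivity
  have t2 : 0 ≤ 64 * (|Kg| + Real.log 5) / (σ.lam * σ.δ1) := by positivity
  have t3 : 0 ≤ 12 / σ.lam * K * (128 / ε') := by positivity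
  have t4 : 0 ≤ 64 * K / ε' := by positivity
  have t5 : 0 ≤ 128 / (σ.lam * σ.δ1) * m * (Tc * s : ℝ) := by positivity
  have t6 : 0 ≤ (|Real.log (12 / σ.lam)| + 5 / pg) * m := by positivity
  have u1 : 2 * (m : ℝ) / σ.δ1 ≤ h := by linarith
  have u2 : 64 * (|Kg| + Real.log 5) / (σ.lam * σ.δ1) ≤ h := by linarith
  have u3 : 12 / σ.lam * K * (128 / ε') ≤ h := by linarith
  have u4 : 64 * K / ε' ≤ h := by linarith
  have u5 : 128 / (σ.lam * σ.δ1) * m * (Tc * s : ℝ) ≤ h := by linarith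
  have u6 : (|Real.log (12 / σ.lam)| + 5 / pg) * m ≤ h := by linarith
  have hpos : (0 : ℝ) < h := by linarith
  clear t1 t2 t3 t4 t5 t6 hn1 hhr
  obtain ⟨g1, g2, g3⟩ := le_nBl hδ hm0 u1
  have g4 := nBl_le hδ.le (h := h) hm0
  set nB : ℕ := nBl σ.δ1 h m with hnB
  have hnB1 : (1 : ℝ) ≤ nB := by exact_mod_cast g2
  have hnBh : (nB : ℝ) ≤ h / m := by
    rw [le_div_iff₀ hmr]
    have h1 : σ.δ1 * h ≤ 1 * h := mul_le_mul_of_nonneg_right (by linarith [hσ.δθ, hσ.θ4]) hpos.le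
    push_cast at g4
    linarith
  -- YBl
  have hY : YBl P nB (2 ^ m) (ay σ.lam m) (σ.lam / 2) (yb m v) (pst m v Wd) := by
    refine ybl_grow P hv Wd (r := σ.lam - 8 * g.k) (g := 3 * d1 * h * Real.log 2 + Kg) ?_ hgr ?_
    · rw [one_div, Real.log_inv, ay_log]
      linarith
    · exact s5_grow l2b hlam hδ hpos (by linarith [hg.kε]) hd1b g1 u2 rfl
  have hM1pos : 0 < M1 := H565.img_card_pos P Pw hM1
  have hM1r : (0 : ℝ) < M1 := by exact_mod_cast hM1pos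
  have hpow : Real.log (6 * ((M1 : ℝ) * 2 ^ nB) / (σ.lam / 2)) = Real.log (12 / σ.lam) + Real.log M1 + nB * Real.log 2 := by
    have e1 : 6 * ((M1 : ℝ) * 2 ^ nB) / (σ.lam / 2) = 12 / σ.lam * M1 * 2 ^ nB := by
      field_simp
      ring
    rw [e1, Real.log_mul (by positivity) (by positivity), Real.log_mul (by positivity) (by positivity), Real.log_pow]
  have hlM1' : Real.log M1 ≤ CA * (2 / σ.δ1 * nB) := by
    refine hlM1.trans ?_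
    rw [mul_div_assoc]
    exact mul_le_mul_of_nonneg_left g3 hCA.le
  obtain ⟨y, hy⟩ : ∃ y : ℝ, y = ε₁ * Real.log (ε₁ / ay σ.lam m) - 1 := ⟨_, rfl⟩
  have f1 : Real.log (6 * ((M1 : ℝ) * 2 ^ nB) / (σ.lam / 2)) + gp ≤
      σ.lam / 2 / 8 * nB * (ε₁ * Real.log (ε₁ / ay σ.lam m) - 1) := by
    rw [hpow, ← hy]
    rw [← hy] at a4 a5
    have b1 := s5_thr (y := y / 2) (x := Real.log (12 / σ.lam)) hlam hδ hnB1 hlM1' l2a.le rfl (by linarith)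
    have b2 := H652.s6_gp (m := (m : ℝ)) (nB := (nB : ℝ)) hlam (by linarith) hε₁ (by push_cast at g1; exact g1) a5 hgp
    have b3 : σ.lam / 2 / 8 * nB * y = σ.lam / 2 / 8 * nB * (y / 2) + σ.lam / 32 * nB * y := by ring
    rw [b3]
    linarith
  have f2 : ((Tc * s : ℕ) : ℝ) ≤ σ.lam / 2 / 16 * nB := by
    have e2 := s5_scale (u := (Tc * s : ℝ)) hlam hδ hmr u5 (by push_cast at g1; exact g1)
    push_cast
    have : (0 : ℝ) ≤ Tc * s := by positivity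
    linarith
  have f3 : 6 / (σ.lam / 2) * ((g.b' - g.β + d1 + d1) * h * Real.log 2 + (σ.N + 1) * (Real.log M1 + nB * Real.log 2) + K) ≤
      ε' / 16 * h * Real.log 2 :=
    s5_d1 hlam hN1 hε0' hmr hpos l2b l2a (by linarith [hg.bε]) hd1c hlM1 hnBh (by linarith) hma u3
  have hHm : 96 / σ.lam * (CA * h / m) ≤ CB * h / m := by
    rw [hCB]
    exact le_of_eq (by ring)
  have f4' : 4 * ((g.b' - g.β + ε' / 16 + d1) * h * Real.log 2 + (σ.N + 1) * (96 / σ.lam * (CA * h / m)) + K) ≤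
      ε' * h * Real.log 2 :=
    s5_d2 hlam hσ.bs.lam1 hN1 hε0' hmr hpos l2b (by linarith [hg.bε]) hd1c hHm hmb u4
  have hc1 : ((({()} : Finset Unit).card : ℕ) : ℝ) = 1 := by simp
  have f4 : (((({()} : Finset Unit).card : ℕ) : ℝ) + 4) / pg * ((g.b' - g.β + ε' / 16 + d1) * h * Real.log 2 +
      (σ.N + 1) * (16 * (((({()} : Finset Unit).card : ℕ) : ℝ) + 2) / (σ.lam / 2) * (CA * h / m)) + K) ≤
      ε * h * Real.log 2 := by
    rw [hc1]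
    have e1 : (16 * ((1 : ℝ) + 2) / (σ.lam / 2)) = 96 / σ.lam := by
      field_simp
      ring
    rw [e1, div_mul_eq_mul_div, div_le_iff₀ hpg]
    have e2 : ε' * h * Real.log 2 = 4 / 5 * (ε * h * Real.log 2 * pg) := by rw [hε']; ring
    rw [e2] at f4'
    linarith
  have hHm0 : 0 < CA * h / m := by positivity
  obtain ⟨b0, kk, e1, E, e2, Q1, Q2, x1, x2, x3⟩ := hsel Ω Unit P l t (fun _ => ()) L h q W d1 hne S S2 ℤ (δ × ℤ) V Unit Pw M1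
    nB (2 ^ m) (yb m v) (pst m v Wd) (ay σ.lam m) (σ.lam / 2) ε₁ Gb Zw A pg gp (CA * h / m) s Tc {()} (fun _ => ψ)
    (fun _ => 1) hM1 g2 hTc (Nat.one_lt_two_pow hm0.ne') (ay_pos _ _) a1 (by positivity) (by linarith [hσ.bs.lam1]) a2 a3
    hpg hpg1 hHm0 (fun _ _ => one_pos) hY f1 f2 (ε' / 16) ε
    (fun e1 E Q1 q1 r1 sp nx => by
      obtain ⟨z1, z2, z3, z4, z5, z6, z7⟩ := hall e1 E Q1 q1 r1 sp (H565.nex_mono (by linarith) nx)
      exact ⟨z1, z2, z3, z4, z5, fun _ _ => z6, fun _ _ => by rw [one_mul]; exact z7⟩) f3 f4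
  refine ⟨g2, b0, kk, e1, E, e2, Q1, Q2, H565.nex_mono (by linarith) x1, x2, x3, ?_, ?_, ?_⟩
  · have h1 := x3.gcol2
    rw [hc1] at h1
    refine h1.trans (le_of_eq ?_)
    ring
  · have h1 := x3.cost () (Finset.mem_singleton_self ())
    rw [hc1] at h1
    refine h1.trans (le_of_eq ?_)
    field_simp
    ring
  have y1 := x3.pos1
  have y2 := x3.pos2
  rw [Real.log_div one_ne_zero (mul_pos y1 y2).ne', Real.log_one, Real.log_mul y1.ne' y2.ne']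
  have z1 := Real.log_le_log (by positivity) x3.p1
  have z2 := x3.p2
  have h2 : σ.lam / 2 / (6 * ((M1 : ℝ) * 2 ^ nB)) = (6 * ((M1 : ℝ) * 2 ^ nB) / (σ.lam / 2))⁻¹ := by
    rw [inv_div]
  rw [h2, Real.log_inv, hpow] at z1
  rw [hc1] at z2
  have e3 : ((1 : ℝ) + 4) / pg * (16 * (1 + 2) / (σ.lam / 2) * (CA * h / m) + 1) =
      480 * CA / (σ.lam * pg) * h / m + 5 / pg := by
    field_simp
    ring
  rw [e3] at z2
  have z3 : (nB : ℝ) * Real.log 2 ≤ h / m := by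
    have : (nB : ℝ) * Real.log 2 ≤ nB * 1 := mul_le_mul_of_nonneg_left l2a.le (by linarith)
    linarith
  have z4 : |Real.log (12 / σ.lam)| + 5 / pg ≤ h / m := by
    rw [le_div_iff₀ hmr]
    exact u6
  have z5 : (CA + 2 + 480 * CA / (σ.lam * pg)) * h / m = CA * h / m + h / m + h / m + 480 * CA / (σ.lam * pg) * h / m := by
    ring
  rw [z5]
  linarith [le_abs_self (Real.log (12 / σ.lam))]

end Vale.Agent.P106.U
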