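import Vale.Agent.P106.U.H652.Row

/-!
# P106 / U / H652 : the budget of one kind of steps at one scale (helper652)

`t = x m`, `μ = 8 c t`; error of the step `j` : `err1 c0 c' (m l) A xx L coll I1 I2 X j` with `A ≤ A0 2^(e t)`, `2 e < c`;
informations summed by `D h/B + K' (m + μ + 1) 2^-(μ/8) (C h/m) + X1` (the field `F2` summed over the distances).

* `ev_phi` : `A² L φ ≤ u0` for all large `m`, then `B`.
* **`ev_kind`** : the sum of the errors is at most `τ h`.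
-/

set_option autoImplicit false

namespace Vale.Agent.P106.U.H652

open Filter Topology Finset
open Vale.Agent.P127.U.CellD (q2)

theorem mu_div (c x m : ℕ) : 8 * c * (x * m) / 8 = c * x * m := by
  rw [show 8 * c * (x * m) = 8 * (c * x * m) by ring]
  exact Nat.mul_div_cancel_left _ (by norm_num)

/-- **`A² L φ ≤ u0`** -/
theorem ev_phi {e c x : ℕ} (hc : 2 * e < c) (hx : 1 ≤ x) (A C D K : ℝ) {u0 : ℝ} (hu : 0 < u0) :
    ∀ᶠ m : ℕ in atTop, ∀ᶠ B : ℕ in atTop,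
      A * (2 ^ (e * (x * m))) ^ 2 * (D * (1 / (B : ℝ)) +
        K * (m + (8 * c * (x * m) : ℕ) + 1) * q2 (8 * c * (x * m) / 8) * (C * (1 / (m : ℝ)))) ≤ u0 := by
  have hm1 : ∀ᶠ m : ℕ in atTop, |A * K * C| * (10 * c * x + 1) * (m : ℝ) ^ 1 * 2 ^ (2 * e * x * m) * q2 (c * x * m) ≤
      u0 / 2 := ev_q2 (|A * K * C| * (10 * c * x + 1)) 1 (2 * e * x) (c * x) (Nat.mul_lt_mul_of_pos_right hc hx)
        (by positivity)
  filter_upwards [hm1, ev_nat 1] with m h1 hm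
  have hmr : (1 : ℝ) ≤ m := by exact_mod_cast hm
  have e2 : (2 : ℝ) ^ (2 * e * x * m) = (2 ^ (e * (x * m))) ^ 2 := by
    rw [← pow_mul]
    congr 1
    ring
  filter_upwards [ev_div (|A * D| * (2 ^ (e * (x * m))) ^ 2) (κ := u0 / 2) (by positivity), ev_nat 1] with B h2 hB
  have hBr : (0 : ℝ) < B := by exact_mod_cast hB
  rw [mu_div]
  rw [e2] at h1
  have hq0 : 0 ≤ q2 (c * x * m) := by unfold q2; positivity
  have hP0 : (0 : ℝ) < 2 ^ (e * (x * m)) := by positivity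
  generalize q2 (c * x * m) = q at h1 hq0 ⊢
  generalize (2 : ℝ) ^ (e * (x * m)) = P at h1 h2 hP0 ⊢
  have b0 : ((m : ℝ) + (8 * c * (x * m) : ℕ) + 1) ≤ (10 * c * x + 1) * m := by
    push_cast
    have c1 : (1 : ℝ) ≤ c := by exact_mod_cast (by omega : 1 ≤ c)
    have c2 : (1 : ℝ) ≤ x := by exact_mod_cast hx
    have c3 : (1 : ℝ) ≤ c * x := by nlinarith
    have c4 : (m : ℝ) ≤ c * x * m := by nlinarith
    nlinarith
  have b1 : (0 : ℝ) ≤ (m : ℝ) + (8 * c * (x * m) : ℕ) + 1 := by positivity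
  generalize (m : ℝ) + (8 * c * (x * m) : ℕ) + 1 = w at b0 b1 ⊢
  have a1 : A * P ^ 2 * (D * (1 / (B : ℝ))) ≤ u0 / 2 := by
    refine le_trans ?_ h2
    rw [show A * P ^ 2 * (D * (1 / (B : ℝ))) = (A * D) * P ^ 2 / B by ring]
    exact div_le_div_of_nonneg_right (mul_le_mul_of_nonneg_right (le_abs_self _) (by positivity)) hBr.le
  have a2 : A * P ^ 2 * (K * w * q * (C * (1 / (m : ℝ)))) ≤ u0 / 2 := by
    refine le_trans ?_ h1
    have g1 : A * P ^ 2 * (K * w * q * (C * (1 / (m : ℝ)))) = (A * K * C) * (w * P ^ 2 * q * (1 / m)) := by ring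
    have g2 : (A * K * C) * (w * P ^ 2 * q * (1 / (m : ℝ))) ≤ |A * K * C| * (((10 * c * x + 1) * m) * P ^ 2 * q * 1) := by
      refine mul_le_mul (le_abs_self _) ?_ (by positivity) (abs_nonneg _)
      have g3 : 1 / (m : ℝ) ≤ 1 := by rw [div_le_one (by linarith)]; exact hmr
      have g4 : w * P ^ 2 * q ≤ ((10 * c * x + 1) * m) * P ^ 2 * q :=
        mul_le_mul_of_nonneg_right (mul_le_mul_of_nonneg_right b0 (by positivity)) hq0
      exact mul_le_mul g4 g3 (by positivity) (by positivity)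
    rw [g1]
    refine g2.trans (le_of_eq ?_)
    ring
  rw [mul_add]
  linarith

/-- monotonicity in the prefactor -/
theorem err1_mono {c0 c m A A' x : ℝ} (hA : A ≤ A') {L : ℕ} {coll : ℕ → ℝ} {I1 I2 : ℕ → ℕ → ℝ} {X : Finset ℕ} (j : ℕ) :
    err1 c0 c m A x L coll I1 I2 X j ≤ err1 c0 c m A' x L coll I1 I2 X j := by
  unfold err1
  have h1 : 0 ≤ ∑ k ∈ Ioc j (j + L), (Real.sqrt (I1 j k) + Real.sqrt (I2 j k)) :=
    Finset.sum_nonneg fun _ _ => by positivity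
  have := mul_le_mul_of_nonneg_right hA h1
  linarith

/-- **the budget of one kind of steps** -/
theorem ev_kind {K τ c' xx l : ℝ} (hK : 0 < K) (hτ : 0 < τ) (hc' : 0 ≤ c') (hxx : 0 ≤ xx) (hl : 0 < l) :
    ∃ κ e0 : ℝ, 0 < κ ∧ 0 < e0 ∧ ∀ (c0 : ℝ), 0 ≤ c0 → ∀ {e c x : ℕ}, 2 * e < c → 1 ≤ x →
      ∀ (L : ℕ) (A0 C D K' : ℝ) (X1 : ℕ → ℕ → ℝ), 0 ≤ A0 → 0 ≤ C → 0 ≤ D → 0 ≤ K' → Ev3 fun m B h =>
        ∀ n : ℕ, (m * l) * n ≤ K * h → ∀ A : ℝ, 0 ≤ A → A ≤ A0 * 2 ^ (e * (x * m)) →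
        ∀ (coll : ℕ → ℝ) (I1 I2 : ℕ → ℕ → ℝ) (X : Finset ℕ), (∀ j k, 0 ≤ I1 j k) → (∀ j k, 0 ≤ I2 j k) →
          (m * l) * ∑ j ∈ range n, coll j ≤ κ * h →
          ∑ j ∈ range n, ∑ k ∈ Ioc j (j + L), I1 j k ≤ D * ((h : ℝ) / B) +
            K' * (m + (8 * c * (x * m) : ℕ) + 1) * q2 (8 * c * (x * m) / 8) * (C * ((h : ℝ) / m)) + X1 m B →
          ∑ j ∈ range n, ∑ k ∈ Ioc j (j + L), I2 j k ≤ D * ((h : ℝ) / B) +
            K' * (m + (8 * c * (x * m) : ℕ) + 1) * q2 (8 * c * (x * m) / 8) * (C * ((h : ℝ) / m)) + X1 m B →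
          (m * l) * X.card ≤ e0 * h →
          ∑ j ∈ range n, err1 c0 c' (m * l) A xx L coll I1 I2 X j ≤ τ * h := by
  obtain ⟨κ, e0, u0, hκ, he0, hu0, H⟩ := one_u hK hτ hc' hxx
  refine ⟨κ, e0, hκ, he0, fun c0 hc0 e c x hec hx L A0 C D K' X1 hA0 hC hD hK' => ?_⟩
  obtain ⟨m0, hm0, H⟩ := H c0 hc0
  have E := ev_phi hec hx (A0 ^ 2 * L) C D K' hu0
  show ∀ᶠ m in atTop, ∀ᶠ B in atTop, ∀ᶠ h in atTop, _
  filter_upwards [E, ev_con m0 hl, ev_nat 1] with m E hm hm1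
  filter_upwards [E, ev_nat 1] with B E hB
  have hmr : (0 : ℝ) < m := by exact_mod_cast hm1
  have hBr : (0 : ℝ) < B := by exact_mod_cast hB
  obtain ⟨φ, hφ⟩ : ∃ φ : ℝ, φ = D * (1 / (B : ℝ)) +
      K' * (m + (8 * c * (x * m) : ℕ) + 1) * q2 (8 * c * (x * m) / 8) * (C * (1 / (m : ℝ))) := ⟨_, rfl⟩
  have hq0 : 0 ≤ q2 (8 * c * (x * m) / 8) := by unfold q2; positivity
  have hφ0 : 0 ≤ φ := by rw [hφ]; positivity
  have hA1 : 0 ≤ A0 * 2 ^ (e * (x * m)) := by positivity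
  obtain ⟨h0, -, H⟩ := H (m * l) (by linarith) L (A0 * 2 ^ (e * (x * m))) φ (X1 m B) hA1 hφ0 (by
    rw [← hφ] at E
    refine le_trans (le_of_eq ?_) E
    ring)
  filter_upwards [ev_con h0 one_pos] with h hh n hn A hA hAA coll I1 I2 X h1 h2 g1 g2 g3 g4
  have eφ : φ * h = D * ((h : ℝ) / B) +
      K' * (m + (8 * c * (x * m) : ℕ) + 1) * q2 (8 * c * (x * m) / 8) * (C * ((h : ℝ) / m)) := by
    rw [hφ]
    ring
  refine (Finset.sum_le_sum fun j _ => err1_mono hAA j).trans ?_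
  refine H h (by linarith) n hn coll I1 I2 X h1 h2 g1 ?_ ?_ g4
  · rw [eφ]; exact g2
  · rw [eφ]; exact g3

end Vale.Agent.P106.U.H652
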