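import Vale.Agent.P106.U.H652.Adm
import Vale.Agent.P106.U.H652.Kind
import Vale.Agent.P106.U.H931.SC

/-!
# P106 / U / H652 : [SE1], the error of kind 1 at one scale (helper652), over `MIC.St`

* `KNum s` : the numbers;  `ev_KNum`.
* `I1K`, `I2K` : the informations F1+ (384) and V2 of the admissible pairs of kind 1.
* **`si1K`**, **`si2K`** : their sums.
* `XE s` : a-steps with a bad a-step at this or the next level;  `xe_le`.
* **`ev_se1`** : the sum of `errO .. 4` is at most `η / 400 h`.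
-/

set_option autoImplicit false

namespace Vale.Agent.P106.U.H652.SE

open Finset Vale.Agent.P127 Vale.Agent.P127.Stk
open Vale.Agent.P127.U.CellD (q2 q2_pos)
open Vale.Agent.P106.U.S3 (Run IdK IdP At' mt LDk LTh Ob lv)
open Vale.Agent.P106.U.S5
open Vale.Agent.P106.U.H336 (SwL)
open Vale.Agent.P106.U.MIC
open Vale.Agent.P106.U.H384.F1 (gdK lkR Prk vA nR VD)
open Vale.Agent.P106.U.H384.Runs (rs)
open Vale.Agent.P106.U.H833 (errO)

/-- numbers of the record -/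
structure KNum (x : ℕ) (ρ : Thr) (m B h : ℕ) : Prop where
  m1 : 1 ≤ m
  KB : (100 * ρ.K) ^ 20 ≤ (B : ℝ)
  μB : μS x m ≤ B
  B1 : 1 ≤ B
  hJ : (m : ℝ) * (ρ.J + 1) ≤ h

theorem ev_KNum (x : ℕ) (ρ : Thr) : Ev3 (KNum x ρ) := by
  have a0 : Ev3 fun m _ _ => 1 ≤ m := Ev3.of_m (ev_nat 1)
  have a1 : Ev3 fun _ B _ => (100 * ρ.K) ^ 20 ≤ (B : ℝ) := by
    refine Ev3.of_B' fun _ => ?_
    obtain ⟨n, hn⟩ := exists_nat_ge ((100 * ρ.K) ^ 20)
    exact (ev_nat n).mono fun B hB => hn.trans (by exact_mod_cast hB)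
  have a2 : Ev3 fun m B _ => μS x m ≤ B := Ev3.of_B' fun m => ev_nat (μS x m)
  have a3 : Ev3 fun _ B _ => 1 ≤ B := Ev3.of_B' fun _ => ev_nat 1
  have a4 : Ev3 fun m _ h => (m : ℝ) * (ρ.J + 1) ≤ h := by
    refine Ev3.of_h fun m _ => ?_
    refine (ev_nat (m * (ρ.J + 1))).mono fun h hh => ?_
    exact_mod_cast hh
  refine (a0.mono2 a1 fun _ _ _ x y => And.intro x y).mono2 ((a2.mono2 a3 fun _ _ _ x y => And.intro x y).mono2 a4
    fun _ _ _ x y => And.intro x y) fun m B h p q => ⟨p.1, p.2, q.1.1, q.1.2, q.2⟩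

section

variable {η : ℝ} {x : ℕ} {σ : Cst} {ε : ℝ} {ρ : Thr} {g : Gv} {m B h : ℕ}

theorem nJ_le (s : St η x σ ε ρ g m B h) (hJ : (m : ℝ) * (ρ.J + 1) ≤ h) (hm : 1 ≤ m) :
    ((s.R.n : ℝ) + s.pn.J + 1) ≤ (2 * σ.K1 + 4) * ((s.R.h : ℝ) / s.R.m) := by
  have h1 := H931.n_le s.run
  have hm0 : (0 : ℝ) < m := by exact_mod_cast hm
  rw [s.run.hJ, s.run.hh, s.run.hm, ← mul_div_assoc, le_div_iff₀ hm0]
  nlinarith

open Classical in
/-- information F1+ -/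
noncomputable def I1K (s : St η x σ ε ρ g m B h) (Sw Cu : Finset ℕ) (e L1 L2 Lk Kr pp δ j k : ℕ) : ℝ :=
  if AdmV s 1 Sw e L1 L2 Lk j k then
    mi s.R.Q (vA s.R s.F pp δ (rs (lkR s.R (gdK s.R s.Vs s.Xs) Cu) (uV s e j)))
      ((mt s.R s.F (μS x m) s.o s.o').mtr (vV s Kr k) (s.R.m * s.R.b1))
      (fun ω => (LDk ((mt s.R s.F (μS x m) s.o s.o').fz (uV s e j) (uV s e j)) (s.R.m * s.R.b1) (uV s e j) ω,
        LTh ((mt s.R s.F (μS x m) s.o s.o').fz (uV s e j) (uV s e j)) (s.R.m * s.R.b1) (vV s Kr k) ω))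
  else 0

open Classical in
/-- information V2 -/
noncomputable def I2K (s : St η x σ ε ρ g m B h) (Sw : Finset ℕ) (e L1 L2 Lk Kr j k : ℕ) : ℝ :=
  if AdmV s 1 Sw e L1 L2 Lk j k then
    mi s.R.Q (LTh ((mt s.R s.F (μS x m) s.o s.o').fz (uV s e j) (uV s e j)) (s.R.m * s.R.b1) (vV s Kr k))
      (fun ω => (((mt s.R s.F (μS x m) s.o s.o').fz (uV s e j) (uV s e j)).cell (uV s e j) s.bV ω,
        s.F.Ao (lv s.R (uV s e j)) ω, Ob s.R B s.o' (uV s e j) ω))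
      (LDk ((mt s.R s.F (μS x m) s.o s.o').fz (uV s e j) (uV s e j)) (s.R.m * s.R.b1) (uV s e j))
  else 0

theorem I1K_nonneg (s : St η x σ ε ρ g m B h) (Sw Cu : Finset ℕ) (e L1 L2 Lk Kr pp δ j k : ℕ) :
    0 ≤ I1K s Sw Cu e L1 L2 Lk Kr pp δ j k := by
  unfold I1K
  split_ifs
  · exact mi_nonneg _ _ _ _
  · exact le_rfl

theorem I2K_nonneg (s : St η x σ ε ρ g m B h) (Sw : Finset ℕ) (e L1 L2 Lk Kr j k : ℕ) :
    0 ≤ I2K s Sw e L1 L2 Lk Kr j k := by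
  unfold I2K
  split_ifs
  · exact mi_nonneg _ _ _ _
  · exact le_rfl

/-- **the sum of V2** -/
theorem si2K (hρ : ρ.Ok) (N : KNum x ρ m B h) (s : St η x σ ε ρ g m B h) {Sw : Finset ℕ} {e L1 L2 Lk Lr Kr : ℕ}
    (hKr : 0 < Kr) (hLk : 2 * Kr ≤ Lk) (hLr : L1 + Kr ≤ Lr) (hSw : SwL s.R B s.Vs s.Xs Lr ⊆ Sw) (hB : L1 + Kr ≤ B) :
    ∑ j ∈ range s.N, ∑ k ∈ Ioc j (j + L1), I2K s Sw e L1 L2 Lk Kr j k ≤
      L1 * (((L1 + Kr : ℕ) : ℝ) + 1) * ((h : ℝ) / B) +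
        L1 * (((L1 + Kr : ℕ) : ℝ) + 1) ^ 3 * KS ρ * (m + μS x m + 1) * q2 (μS x m / 8) *
          ((2 * σ.K1 + 4) * ((h : ℝ) / m)) := by
  have hK0 : 0 ≤ KS ρ := by
    unfold KS
    have := hρ.K1
    positivity
  have h1 := pairs_F2b (N := s.N) (L1 := L1) (D := L1 + Kr) (B := B) (μ := μS x m) (K' := KS ρ) (p := s.pn)
    (C := 2 * σ.K1 + 4) (I := IdK s.R s.Vs s.Xs)
    (Φ := fun u v => mi s.R.Q (LTh ((mt s.R s.F (μS x m) s.o s.o').fz u u) (s.R.m * s.R.b1) v)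
      (fun ω => (((mt s.R s.F (μS x m) s.o s.o').fz u u).cell u s.bV ω,
        s.F.Ao (lv s.R u) ω, Ob s.R B s.o' u ω))
      (LDk ((mt s.R s.F (μS x m) s.o s.o').fz u u) (s.R.m * s.R.b1) u))
    hK0 (fun u v => mi_nonneg _ _ _ _) s.f2o.V2 hB (nJ_le s N.hJ N.m1) (AdmV s 1 Sw e L1 L2 Lk) (uV s e) (vV s Kr)
    (fun j k A => ⟨adm_K s N.B1 (Lr := Lr) hKr hLk hSw A, adm_at s hKr hLk hLr hSw A⟩)
    (fun j j' k k' A A' hu => inj_u s hKr hLk A A' hu)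
  refine h1.trans (le_of_eq ?_)
  rw [s.run.hm, s.run.hh]

/-- **the sum of F1+** : one set `Cu` of cuts for all families -/
theorem si1K (hρ : ρ.Ok) (N : KNum x ρ m B h) (s : St η x σ ε ρ g m B h) {N0 : ℕ} (hN0 : ρ.K ≤ N0)
    (hl : Real.log (8 * N0 + 3) ≤ m) :
    ∃ Cu : Finset ℕ, (m : ℝ) * nR s.Vs s.Xs Cu ≤ 3 * (h / B) + m ∧
      VD s.R s.pn s.F ρ.K s.Vs s.Xs Cu (gdK s.R s.Vs s.Xs) ∧
      ∀ {Sw : Finset ℕ} {e L1 L2 Lk Lr Kr pp δ : ℕ} {P Δ : ℝ}, 0 < Kr → 2 * Kr ≤ Lk → SwL s.R B s.Vs s.Xs Lr ⊆ Sw →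
        Cu ⊆ Sw → 2 * μS x m + m ≤ m * Kr → (pp : ℝ) ≤ P * m → (δ : ℝ) ≤ Δ * m →
        ∑ j ∈ range s.N, ∑ k ∈ Ioc j (j + L1), I1K s Sw Cu e L1 L2 Lk Kr pp δ j k ≤
          3 * (L1 * L2 * (P + Δ + 2)) * ((h : ℝ) / B) +
            (L1 + (L2 + 1) * L1 : ℕ) * (2 * H122.cI (4 * ρ.K) (H384.F1.NK ρ.K) * KS ρ) * (m + μS x m + 1) *
              q2 (μS x m / 8) * ((2 * σ.K1 + 4) * ((h : ℝ) / m)) +
            L1 * L2 * (P + Δ + 2) * m := by
  have hK1 := hρ.K1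
  have hK0 : 0 ≤ KS ρ := by
    unfold KS
    positivity
  have hP := s.run.ok.pth
  have hm1 : 1 ≤ s.R.m := hP.m1
  have hμm : μS x m ≤ s.R.C.μ := by
    rw [s.run.hμ]
    exact N.μB.trans (Nat.le_mul_of_pos_left B N.m1)
  have hb : 8 * μS x m ≤ s.R.m * s.R.b1 := by
    have h1 := s.run.cap.low
    have h2 : s.R.b1 ≤ s.R.m * s.R.b1 := Nat.le_mul_of_pos_left _ hm1
    have h3 := N.μB
    omega
  have hr : 100 * (s.R.m * B) ≤ s.R.r0 := by
    rw [s.run.hm, s.run.hr0]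
    exact s.run.rm
  obtain ⟨Cu, c1, c2, H⟩ := H384.F1.f1_kap s.run.ok s.f2 hK1 N.KB hr N.μB hμm (le_refl (KS ρ)) s.f2o hb
  have c1' : (m : ℝ) * nR s.Vs s.Xs Cu ≤ 3 * (h / B) + m := by
    rw [s.run.hm, s.run.hh] at c1
    exact c1
  refine ⟨Cu, c1', c2, ?_⟩
  intro Sw e L1 L2 Lk Lr Kr pp δ P Δ hKr hLk hSw hCu hKμ hpp hδ
  classical
  have hprk := adm_prk s N.B1 (e := e) (L1 := L1) (L2 := L2) hKr hLk hSw hCu
  have h1 := (H s.f s.N (s.R.m * Kr) L2 L1 ((L2 + 1) * L1) pp δ N0 _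
    (((range s.N).sigma fun j => Ioc j (j + L1)).filter fun y => AdmV s 1 Sw e L1 L2 Lk y.1 y.2)
    (fun y => jV s e y.1) (fun y => wV s Kr y.2) s.hf
    (fun j hj => H812.ix_strict hP j (j + 1) (Nat.lt_succ_self j) hj)
    (f_le s _) (by rw [s.run.hm]; exact hKμ) hN0 hprk
    (fun i => card_v (P := AdmV s 1 Sw e L1 L2 Lk) (w := wV s Kr) (fun j k A => by
      have I := adm_ix s hKr hLk A
      have := I.kw
      have := I.wL
      have := A.2.1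
      omega) i)).2
  have h2 := sum_pairs s.N L1 (fun j k => mi s.R.Q (vA s.R s.F pp δ (rs (lkR s.R (gdK s.R s.Vs s.Xs) Cu) (uV s e j)))
      ((mt s.R s.F (μS x m) s.o s.o').mtr (vV s Kr k) (s.R.m * s.R.b1))
      (fun ω => (LDk ((mt s.R s.F (μS x m) s.o s.o').fz (uV s e j) (uV s e j)) (s.R.m * s.R.b1) (uV s e j) ω,
        LTh ((mt s.R s.F (μS x m) s.o s.o').fz (uV s e j) (uV s e j)) (s.R.m * s.R.b1) (vV s Kr k) ω)))
    (AdmV s 1 Sw e L1 L2 Lk)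
  have h3 := f1_num (R := s.R) (p := s.pn) (Vs := s.Vs) (Xs := s.Xs) (Cu := Cu) (K := ρ.K) (K' := KS ρ)
    (C := 2 * σ.K1 + 4) (P := P) (Δ := Δ) (B := B) (μ := μS x m) (N := L1) (N2 := (L2 + 1) * L1) (L := L2) (pp := pp)
    (δ := δ) (N0 := N0) hm1 hK0 c1 (by rw [s.run.hm]; exact hpp) (by rw [s.run.hm]; exact hδ)
    (by rw [s.run.hm]; exact hl) (nJ_le s N.hJ N.m1)
  refine ((le_of_eq h2).trans (h1.trans h3)).trans (le_of_eq ?_)
  rw [s.run.hm, s.run.hh]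

/-! ### the exceptional steps -/

open Classical in
/-- a-steps with a bad a-step at this or the next level -/
noncomputable def XE (s : St η x σ ε ρ g m B h) : Finset ℕ :=
  (range s.N).filter fun j => s.lm (s.a j) = j ∧ s.a j + 1 < s.a s.N ∧ (s.lm (s.a j) ∈ s.E ∨ s.lm (s.a j + 1) ∈ s.E)

/-- the good steps of the levels outside `XE` -/
theorem not_xe (s : St η x σ ε ρ g m B h) {j : ℕ} (hj : j < s.N) (h1 : s.lm (s.a j) = j) (h2 : s.a j + 1 < s.a s.N)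
    (hX : j ∉ XE s) : s.gd (jV s 0 j) ∧ s.gd (jV s 1 j) := by
  classical
  have D := s.word.sd
  have HL := lvl s
  have a0 : s.a 0 ≤ s.a j := D.am (Nat.zero_le _) hj.le
  have key : ∀ e ≤ 1, s.gd (jV s e j) := by
    intro e he
    have c1 : jV s e j < s.N := HL.lt _ (by omega) (by omega)
    have c2 : s.a (jV s e j) = s.a j + e := HL.eq _ (by omega) (by omega)
    have c3 : s.a (jV s e j + 1) = s.a j + e + 1 := HL.st _ (by omega) (by omega)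
    by_contra hc
    have h3 := s.word.hE (jV s e j) c1 (by
      show s.a (jV s e j + 1) = s.a (jV s e j) + 1
      omega) hc
    refine hX (Finset.mem_filter.2 ⟨Finset.mem_range.2 hj, h1, h2, ?_⟩)
    rcases (show e = 0 ∨ e = 1 by omega) with h | h
    · left
      rw [h] at h3
      exact h3
    · right
      rw [h] at h3
      exact h3
  exact ⟨key 0 (by omega), key 1 le_rfl⟩

theorem xe_card (s : St η x σ ε ρ g m B h) : (XE s).card ≤ 2 * s.E.card := by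
  classical
  have HL := lvl s
  have D := s.word.sd
  have h1 : (XE s).card ≤ (s.E.product {0, 1} : Finset (ℕ × ℕ)).card := by
    refine Finset.card_le_card_of_injOn
      (fun j => if s.lm (s.a j) ∈ s.E then (s.lm (s.a j), 0) else (s.lm (s.a j + 1), 1)) ?_ ?_
    · intro j hj
      have h2 := (Finset.mem_filter.1 hj).2
      show _ ∈ (s.E ×ˢ {0, 1} : Finset (ℕ × ℕ))
      by_cases h3 : s.lm (s.a j) ∈ s.E
      · simp only [if_pos h3, Finset.mem_product]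
        exact ⟨h3, by simp⟩
      · simp only [if_neg h3, Finset.mem_product]
        exact ⟨h2.2.2.resolve_left h3, by simp⟩
    · intro j hj j' hj' hjj
      have h2 := (Finset.mem_filter.1 hj).2
      have h2' := (Finset.mem_filter.1 hj').2
      have b0 : s.a 0 ≤ s.a j := D.am (Nat.zero_le _) (Finset.mem_range.1 (Finset.mem_filter.1 hj).1).le
      have b0' : s.a 0 ≤ s.a j' := D.am (Nat.zero_le _) (Finset.mem_range.1 (Finset.mem_filter.1 hj').1).le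
      by_cases h3 : s.lm (s.a j) ∈ s.E <;> by_cases h3' : s.lm (s.a j') ∈ s.E
      · simp only [if_pos h3, if_pos h3', Prod.mk.injEq] at hjj
        rw [← h2.1, ← h2'.1]
        exact hjj.1
      · simp only [if_pos h3, if_neg h3', Prod.mk.injEq] at hjj
        omega
      · simp only [if_neg h3, if_pos h3', Prod.mk.injEq] at hjj
        omega
      · simp only [if_neg h3, if_neg h3', Prod.mk.injEq] at hjj
        have e1 := HL.eq (s.a j + 1) (by omega) h2.2.1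
        have e2 := HL.eq (s.a j' + 1) (by omega) h2'.2.1
        rw [hjj.1] at e1
        have e3 : s.a j = s.a j' := by omega
        rw [← h2.1, ← h2'.1, e3]
  have h5 : (s.E.product {0, 1} : Finset (ℕ × ℕ)).card = s.E.card * 2 := by
    show (s.E ×ˢ {0, 1} : Finset (ℕ × ℕ)).card = _
    rw [Finset.card_product]
    rfl
  omega

theorem xe_le (s : St η x σ ε ρ g m B h) (hε : 0 ≤ ε) : (m : ℝ) * (XE s).card ≤ 58 * ε * h := by
  have h1 := s.word.cE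
  have h2 : ((XE s).card : ℝ) ≤ 2 * s.E.card := by exact_mod_cast xe_card s
  have hl2 : 0.69 ≤ Real.log 2 := by
    have := Real.log_two_gt_d9
    linarith
  have h3 : (0 : ℝ) ≤ m * s.E.card := by positivity
  have h4 : 0.69 * (m * s.E.card) ≤ 20 * ε * h := by
    calc 0.69 * ((m : ℝ) * s.E.card) ≤ Real.log 2 * (m * s.E.card) := mul_le_mul_of_nonneg_right hl2 h3
      _ = m * Real.log 2 * s.E.card := by ring
      _ ≤ _ := h1
  have h5 : (m : ℝ) * (XE s).card ≤ m * (2 * s.E.card) := mul_le_mul_of_nonneg_left h2 (Nat.cast_nonneg m)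
  have h6 : 0 ≤ ε * h := mul_nonneg hε (Nat.cast_nonneg h)
  linarith

end

/-! ### the budget -/

theorem μS_eq (x m : ℕ) : μS x m = 8 * (1000 * cN) * (xS x * m) := by
  unfold μS cμ
  ring

/-- **[SE1]** : the sum of the errors of kind 1; `X` any set with `m #X ≤ e0 h` -/
theorem ev_se1 {K1 η c2 : ℝ} (hK1 : 0 < K1) (hη : 0 < η) (hc2 : 0 ≤ c2) :
    ∃ κ e0 : ℝ, 0 < κ ∧ 0 < e0 ∧ ∀ c0 : ℝ, 0 ≤ c0 → ∀ {e : ℕ}, 2 * e < 1000 * cN → ∀ (x L1 : ℕ) (A0 C D K' : ℝ)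
      (X1 : ℕ → ℕ → ℝ), 0 ≤ A0 → 0 ≤ C → 0 ≤ D → 0 ≤ K' → Ev3 fun m B h =>
        ∀ (σ : Cst) (ε : ℝ) (ρ : Thr) (g : Gv) (s : St η x σ ε ρ g m B h), σ.K1 = K1 →
          ∀ A : ℝ, 0 ≤ A → A ≤ A0 * 2 ^ (e * (xS x * m)) → ∀ (coll : ℕ → ℝ) (I1 I2 : ℕ → ℕ → ℝ) (X : Finset ℕ),
          (∀ j k, 0 ≤ I1 j k) → (∀ j k, 0 ≤ I2 j k) → (m : ℝ) * ∑ j ∈ range s.N, coll j ≤ κ * h →
          ∑ j ∈ range s.N, ∑ k ∈ Ioc j (j + L1), I1 j k ≤ D * ((h : ℝ) / B) +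
            K' * (m + μS x m + 1) * q2 (μS x m / 8) * (C * ((h : ℝ) / m)) + X1 m B →
          ∑ j ∈ range s.N, ∑ k ∈ Ioc j (j + L1), I2 j k ≤ D * ((h : ℝ) / B) +
            K' * (m + μS x m + 1) * q2 (μS x m / 8) * (C * ((h : ℝ) / m)) + X1 m B →
          (m : ℝ) * X.card ≤ e0 * h →
          ∑ j ∈ range s.N, errO c0 c2 s.R.m A 4 L1 coll I1 I2 X j ≤ η / 400 * h := by
  obtain ⟨κ, e0, hκ, he0, H⟩ := ev_kind (K := 2 * K1 + 4) (τ := η / 400) (c' := c2) (xx := 4) (l := 1) (by positivity)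
    (by positivity) hc2 (by norm_num) one_pos
  refine ⟨κ, e0, hκ, he0, fun c0 hc0 e hec x L1 A0 C D K' X1 hA0 hC hD hK' => ?_⟩
  have H1 := H c0 hc0 (e := e) (c := 1000 * cN) (x := xS x) hec (by unfold xS; omega) L1 A0 C D K' X1 hA0 hC hD hK'
  refine H1.mono fun m B h P => ?_
  intro σ ε ρ g s hσK A hA hAA coll I1 I2 X hI1 hI2 hcoll s1 s2 hX
  have hn : (m : ℝ) * s.N ≤ (2 * σ.K1 + 3) * h := H931.nz_le s.run
  rw [hσK] at hn
  have hh0 : (0 : ℝ) ≤ h := Nat.cast_nonneg h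
  have e1 : (m : ℝ) + μS x m + 1 = m + (8 * (1000 * cN) * (xS x * m) : ℕ) + 1 := by rw [μS_eq]
  rw [μS_eq] at s1 s2
  have key := P s.N (by rw [mul_one]; nlinarith) A hA hAA coll I1 I2 X hI1 hI2 (by rw [mul_one]; exact hcoll) s1 s2
    (by rw [mul_one]; exact hX)
  rw [mul_one] at key
  refine le_trans (le_of_eq ?_) key
  refine Finset.sum_congr rfl fun j _ => ?_
  rw [s.run.hm]
  rfl

end Vale.Agent.P106.U.H652.SE
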