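import Vale.Agent.P106.U.H565.Sel5
import Vale.Agent.P106.U.H652.RunNum

/-!
# P106 / U / H652 : the inequalities after `(m, B)` (helper652)

* `nBl_big` : the number of the blocks `nBl δ h m` is large;  `nBl_top` : room above the caps.
* `RmN`, `XN` : digits of the common normal, lower bound of the start precision.
* `NumsH`, **`nums_h`** : all inequalities for `h ≥ h0`.
* `lowc` : the cost which forces the cap to be at least `z0`;  `lowc_nonneg`, `lowc_sum`, `lowc_get`.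
-/

set_option autoImplicit false

namespace Vale.Agent.P106.U.H652

open Finset Vale.Agent.P106.U Vale.Agent.P106.U.H565
open Vale.Agent.P127.U.CellD (q2)

theorem nBl_big {δ : ℝ} (hδ : 0 < δ) {m : ℕ} (hm : 0 < m) (C : ℝ) : ∃ h0 : ℕ, ∀ h : ℕ, h0 ≤ h → C < nBl δ h m := by
  obtain ⟨h0, hh0⟩ := exists_nat_gt (m * (|C| + 1) / δ)
  refine ⟨h0, fun h hh => ?_⟩
  have hmr : (0 : ℝ) < m := by exact_mod_cast hm
  have h1 : (h0 : ℝ) ≤ h := by exact_mod_cast hh
  rw [div_lt_iff₀ hδ] at hh0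
  have h2 : (h0 : ℝ) * δ ≤ h * δ := mul_le_mul_of_nonneg_right h1 hδ.le
  have h3 : |C| + 1 < δ * h / m := by
    rw [lt_div_iff₀ hmr]
    linarith
  have h4 := Nat.lt_floor_add_one (δ * (h : ℝ) / m)
  have h5 := le_abs_self C
  unfold nBl
  linarith

theorem nBl_top {δ : ℝ} (hδ : 0 < δ) {m : ℕ} (hm : 0 < m) (Bt : ℕ) : ∃ h0 : ℕ, ∀ h : ℕ, h0 ≤ h →
    nBl (δ / 2) h m + Bt ≤ nBl δ h m := by
  obtain ⟨h0, hh0⟩ := exists_nat_gt (m * (2 * Bt) / δ)
  refine ⟨h0, fun h hh => ?_⟩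
  have hmr : (0 : ℝ) < m := by exact_mod_cast hm
  have h1 : (h0 : ℝ) ≤ h := by exact_mod_cast hh
  rw [div_lt_iff₀ hδ] at hh0
  have h2 : (h0 : ℝ) * δ ≤ h * δ := mul_le_mul_of_nonneg_right h1 hδ.le
  have h3 := nBl_le (δ1 := δ / 2) (by positivity) (h := h) hm
  unfold nBl at h3 ⊢
  refine Nat.le_floor ?_
  rw [le_div_iff₀ hmr]
  push_cast at h3 ⊢
  linarith

/-- digits of the common normal -/
def RmN (m B : ℕ) : ℕ := 103 * (m * B) + 3 * m + 4

/-- lower bound of the start precision -/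
def XN (m B : ℕ) : ℕ := max 12 (100 * (m * B))

theorem RmN_le (m B : ℕ) : 2 * (m * B) + 2 ≤ RmN m B - 1 := by
  unfold RmN
  omega

theorem XN_r0 {m B rs : ℕ} (h : XN m B ≤ rs) : 3888 * q2 rs ≤ 1 := by
  have h1 : 12 ≤ rs := (le_max_left _ _).trans h
  have h2 : q2 rs ≤ q2 12 := by
    unfold q2
    exact pow_le_pow_of_le_one (by norm_num) (by norm_num) h1
  have h3 : q2 12 = 1 / 4096 := by
    unfold q2
    norm_num
  rw [h3] at h2
  linarith

theorem XN_rm {m B rs : ℕ} (h : XN m B ≤ rs) : 100 * (m * B) ≤ rs := (le_max_right _ _).trans h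

/-- **the inequalities after `(m, B)`** -/
structure NumsH (σ : S5.Cst) (m B Bt j : ℕ) (C D : ℝ) (h : ℕ) : Prop where
  h1 : 1 ≤ h
  mh : m ≤ h
  /-- the caps below `8 B` are expensive -/
  low : C * ((8 * B + 1 : ℕ) : ℝ) < nBl (σ.δ1 / 2) h m
  /-- room above the caps -/
  top : nBl (σ.δ1 / 2) h m + Bt ≤ nBl σ.δ1 h m
  top' : m * (nBl (σ.δ1 / 2) h m + Bt) ≤ m * nBl σ.δ1 h m
  cap : ((m * (2 * Bt + 8 * B + 2) : ℕ) : ℝ) ≤ σ.δ1 / 2 * h
  j : (j : ℝ) ≤ σ.θ / 2 * h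
  D : D + 3 ≤ σ.δ1 * h

/-- **existence of `h0`** -/
theorem nums_h {σ : S5.Cst} (hσ : σ.Ok) {m : ℕ} (hm : 0 < m) (B Bt j : ℕ) (C D : ℝ) :
    ∃ h0 : ℕ, ∀ h : ℕ, h0 ≤ h → NumsH σ m B Bt j C D h := by
  have hδ := hσ.δ0
  have hθ := hσ.θ0
  obtain ⟨n1, H1⟩ := nBl_big (δ := σ.δ1 / 2) (by linarith) hm (C * ((8 * B + 1 : ℕ) : ℝ))
  obtain ⟨n2, H2⟩ := nBl_top hδ hm Bt
  obtain ⟨n3, -, H3⟩ := con_num (((m * (2 * Bt + 8 * B + 2) : ℕ) : ℝ)) (κ := σ.δ1 / 2) (by linarith)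
  obtain ⟨n4, -, H4⟩ := con_num (j : ℝ) (κ := σ.θ / 2) (by linarith)
  obtain ⟨n5, -, H5⟩ := con_num (D + 3) hδ
  refine ⟨max (max (max n1 n2) (max n3 n4)) (max n5 (max m 1)), fun h hh => ?_⟩
  have g1 : n1 ≤ h := (((le_max_left _ _).trans (le_max_left _ _)).trans (le_max_left _ _)).trans hh
  have g2 : n2 ≤ h := (((le_max_right _ _).trans (le_max_left _ _)).trans (le_max_left _ _)).trans hh
  have g3 : n3 ≤ h := (((le_max_left _ _).trans (le_max_right _ _)).trans (le_max_left _ _)).trans hh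
  have g4 : n4 ≤ h := (((le_max_right _ _).trans (le_max_right _ _)).trans (le_max_left _ _)).trans hh
  have g5 : n5 ≤ h := ((le_max_left _ _).trans (le_max_right _ _)).trans hh
  have g6 : m ≤ h := (((le_max_left _ _).trans (le_max_right _ _)).trans (le_max_right _ _)).trans hh
  have g7 : 1 ≤ h := (((le_max_right _ _).trans (le_max_right _ _)).trans (le_max_right _ _)).trans hh
  exact ⟨g7, g6, H1 h g1, H2 h g2, Nat.mul_le_mul_left _ (H2 h g2), H3 h g3, H4 h g4, H5 h g5⟩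

/-! ### the cost which forces `z0 ≤ b0` -/

/-- cost of the cap `b0` -/
noncomputable def lowc (nB z0 b0 : ℕ) : ℝ := if b0 < z0 then (nB : ℝ) / z0 else 0

theorem lowc_nonneg (nB z0 b0 : ℕ) : 0 ≤ lowc nB z0 b0 := by
  unfold lowc
  split_ifs
  · positivity
  · exact le_rfl

/-- its sum over all windows -/
theorem lowc_sum {nB z0 : ℕ} (hz : 0 < z0) (R Tc : ℕ) :
    ∑ b0 ∈ range R, ∑ _kk ∈ range Tc, lowc nB z0 b0 ≤ nB * Tc := by
  have hz' : (0 : ℝ) < z0 := by exact_mod_cast hz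
  have h1 : ∑ b0 ∈ range R, lowc nB z0 b0 ≤ nB := by
    unfold lowc
    rw [← Finset.sum_filter, Finset.sum_const, nsmul_eq_mul]
    have h2 : ((range R).filter fun b0 => b0 < z0).card ≤ z0 := by
      refine (card_le_card (t := range z0) fun b hb => ?_).trans (card_range z0).le
      exact mem_range.2 (mem_filter.1 hb).2
    have h3 : (((range R).filter fun b0 => b0 < z0).card : ℝ) ≤ z0 := by exact_mod_cast h2
    have h4 := mul_le_mul_of_nonneg_right h3 (by positivity : (0 : ℝ) ≤ (nB : ℝ) / z0)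
    have h5 : (z0 : ℝ) * ((nB : ℝ) / z0) = nB := by field_simp
    linarith
  have h2 : ∑ b0 ∈ range R, ∑ _kk ∈ range Tc, lowc nB z0 b0 = Tc * ∑ b0 ∈ range R, lowc nB z0 b0 := by
    rw [Finset.mul_sum]
    refine Finset.sum_congr rfl fun b0 _ => ?_
    rw [Finset.sum_const, card_range, nsmul_eq_mul]
  rw [h2]
  have h3 := mul_le_mul_of_nonneg_left h1 (Nat.cast_nonneg (α := ℝ) Tc)
  linarith

/-- **small cost forces `z0 ≤ b0`** -/
theorem lowc_get {nB z0 b0 : ℕ} {C : ℝ} (h : lowc nB z0 b0 ≤ C) (hC : C * z0 < nB) : z0 ≤ b0 := by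
  by_contra hb
  have hb' : b0 < z0 := by omega
  have hz : (0 : ℝ) < z0 := by exact_mod_cast (by omega : 0 < z0)
  unfold lowc at h
  rw [if_pos hb', div_le_iff₀ hz] at h
  linarith

end Vale.Agent.P106.U.H652
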