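import Vale.Agent.P106.U.H652.SE1
import Vale.Agent.P106.U.H384.XHr
import Vale.Agent.P106.U.H495.RK0
import Vale.Agent.P106.U.H786.SCs

/-!
# P106 / U / H652 : **`se1 : H495.RK.SE1`**, the sum of the errors of row [K] (helper652)

* `adm_iff` : 495's `AdmK` is `AdmV`;  `mem_Id` : its index is in `IdS .. (Kap R) R.IsA`.
* `si1z` : the sum of `I1K`, from 384's `f1_xH`;  `si2z` : the sum of `I2K`, from the field `V2`.
* `collK_sum` : from 786's `sc1_ev`;  `xk_le` : `m #XK ≤ 58 ε h`.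
* **`se1`**.
-/

set_option autoImplicit false

namespace Vale.Agent.P106.U.H652.SE

open Finset Vale.Agent.P127 Vale.Agent.P127.Stk
open Vale.Agent.P127.U.CellD (q2 q2_pos q2_add q2_le q2_mul_pow)
open Vale.Agent.P106.U.S3 (Run IdK IdP At' mt LDk LTh Ob lv)
open Vale.Agent.P106.U.S5
open Vale.Agent.P106.U.H336 (SwL)
open Vale.Agent.P106.U.MIC
open Vale.Agent.P106.U.H833 (errO)
open Vale.Agent.P106.U.H416.F1P (IdS mem_IdS Kap)
open Vale.Agent.P106.U.H572.HStep (xH WH BfH)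
open Vale.Agent.P106.U.H495.RK (KrK pK rK bK A0K ui I1z I2z AdmK XK collK PuK errK)
open Vale.Agent.P106.U.H786.SC (cc1 Tq)

section

variable {η : ℝ} {x : ℕ} {σ : S5.Cst} {ε : ℝ} {ρ : Thr} {g : Gv} {m B h : ℕ}

theorem adm_iff (s : St η x σ ε ρ g m B h) {Sw : Finset ℕ} {L1 L2 Lk j k : ℕ}
    (A : AdmK s (PuK s Sw) L1 L2 Lk j k) : AdmV s 1 Sw 1 L1 L2 Lk j k :=
  ⟨A.1, A.2.1, A.2.2.1, A.2.2.2.1, A.2.2.2.2.1, A.2.2.2.2.2⟩

theorem krK_pos (x : ℕ) : 0 < KrK x := by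
  unfold KrK
  omega

theorem mem_Id (s : St η x σ ε ρ g m B h) (hB : 1 ≤ B) {Sw : Finset ℕ} {L1 L2 Lk Lr j k : ℕ}
    (hLk : 2 * KrK x ≤ Lk) (hSw : SwL s.R B s.Vs s.Xs Lr ⊆ Sw) (A : AdmK s (PuK s Sw) L1 L2 Lk j k) :
    uV s 1 j ∈ IdS s.R s.Vs s.Xs (Kap s.R) s.R.IsA := by
  have h1 := adm_K s hB (krK_pos x) hLk hSw (adm_iff s A)
  have h2 := (adm_ix s (krK_pos x) hLk (adm_iff s A)).uA
  obtain ⟨⟨a1, a2⟩, a3, a4, a5⟩ := H384.F1.mem_IdK.1 h1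
  rw [mem_IdS]
  exact ⟨⟨a1, a2⟩, a3, a4, a5, h2⟩

/-- the constant of the letter -/
noncomputable def PH (x : ℕ) : ℝ := 4 * cμ * xS x + 1

open Classical in
/-- **the sum of the first informations** -/
theorem si1z (hρ : ρ.Ok) (N : KNum x ρ m B h) (s : St η x σ ε ρ g m B h) {N0 : ℕ} (hN0 : ρ.K ≤ N0)
    (hl : Real.log (8 * N0 + 3) ≤ m) {Sw : Finset ℕ} {L1 L2 Lk Lr : ℕ} (hLk : 2 * KrK x ≤ Lk)
    (hLr : L1 + KrK x ≤ Lr) (hSw : SwL s.R B s.Vs s.Xs Lr ⊆ Sw) :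
    ∑ j ∈ range s.N, ∑ k ∈ Ioc j (j + L1), H495.RK.I1K s (PuK s Sw) L1 L2 Lk j k ≤
      L1 * ((L1 + KrK x + 1 : ℕ) : ℝ) * (PH x * (3 * (2 * ((L1 + KrK x + KrK x : ℕ) : ℝ) + 1))) * ((h : ℝ) / B) +
        L1 * ((L1 + KrK x + 1 : ℕ) : ℝ) * (4 * H416.F1P.cF ρ.K * KS ρ) * (m + μS x m + 1) * q2 (μS x m / 8) *
          ((2 * σ.K1 + 4) * ((h : ℝ) / m)) +
        L1 * ((L1 + KrK x + 1 : ℕ) : ℝ) * (PH x * (2 * ((L1 + KrK x + KrK x : ℕ) : ℝ))) * m := by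
  have hK1 := hρ.K1
  have hK0 : 0 ≤ KS ρ := by
    unfold KS
    positivity
  have hP := s.run.ok.pth
  have hm1 : 1 ≤ s.R.m := hP.m1
  have hmr : (1 : ℝ) ≤ m := by exact_mod_cast N.m1
  have hμm : μS x m ≤ s.R.C.μ := by
    rw [s.run.hμ]
    exact N.μB.trans (Nat.le_mul_of_pos_left B N.m1)
  have hb : 8 * μS x m ≤ s.R.m * s.R.b1 := by
    have h1 := s.run.cap.low
    have h2 : s.R.b1 ≤ s.R.m * s.R.b1 := Nat.le_mul_of_pos_left _ hm1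
    have h3 := N.μB
    omega
  have hr : 100 * (s.R.m * B) ≤ s.R.r0 := by
    rw [s.run.hm, s.run.hr0]
    exact s.run.rm
  have hd : 2 * μS x m + s.R.m ≤ KrK x * s.R.m := by
    rw [s.run.hm]
    have e : KrK x * m = 8 * μS x m + 2 * m := by
      unfold KrK MuS μS
      ring
    rw [e]
    omega
  set D : ℕ := L1 + KrK x with hD
  have hq := q2_pos (μS x m / 8)
  have hn := nJ_le s N.hJ N.m1
  have hH : (pK x m : ℝ) * Real.log 2 + ((pK x m : ℝ) * Real.log 2 + Real.log (8 * N0 + 3)) ≤ PH x * m := by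
    have l2 : Real.log 2 ≤ 1 := by
      have := Real.log_two_lt_d9
      linarith
    have h1 : (pK x m : ℝ) * Real.log 2 ≤ pK x m := mul_le_of_le_one_right (Nat.cast_nonneg _) l2
    have h2 : (pK x m : ℝ) = 2 * cμ * xS x * m := by
      unfold pK μS
      push_cast
      ring
    unfold PH
    rw [h2] at h1 ⊢
    linarith
  have hH0 : 0 ≤ (pK x m : ℝ) * Real.log 2 + ((pK x m : ℝ) * Real.log 2 + Real.log (8 * N0 + 3)) := by
    have l2 : 0 ≤ Real.log 2 := Real.log_nonneg (by norm_num)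
    have l8 : 0 ≤ Real.log (8 * (N0 : ℝ) + 3) := Real.log_nonneg (by
      have : (0 : ℝ) ≤ N0 := Nat.cast_nonneg _
      linarith)
    positivity
  have hPH : 0 ≤ PH x := by
    unfold PH
    positivity
  have hcF : 0 ≤ 4 * H416.F1P.cF ρ.K * (KS ρ * (s.R.n + s.pn.J + 1) * q2 (μS x m / 8)) := by
    have : 0 ≤ H416.F1P.cF ρ.K := H416.F1P.cF_nonneg _
    positivity
  have hsum : ∀ d ≤ D, ∑ k ∈ IdS s.R s.Vs s.Xs (Kap s.R) s.R.IsA, ∑ i ∈ At' s.R s.pn B d k,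
      mi s.R.Q (xH s.R s.F (s.R.m * s.R.b1) (pK x m) (pK x m) k)
        ((mt s.R s.F (μS x m) s.o s.o').mtr i (s.R.m * s.R.b1))
        (fun ω => (LDk ((mt s.R s.F (μS x m) s.o s.o').fz k k) (s.R.m * s.R.b1) k ω,
          LTh ((mt s.R s.F (μS x m) s.o s.o').fz k k) (s.R.m * s.R.b1) i ω)) ≤
      PH x * ((2 * ((D + KrK x : ℕ) : ℝ) + 1) * (3 * ((h : ℝ) / B)) + 2 * ((D + KrK x : ℕ) : ℝ) * m) +
        4 * H416.F1P.cF ρ.K * (KS ρ * (s.R.n + s.pn.J + 1) * q2 (μS x m / 8)) := by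
    intro d hdD
    obtain ⟨Bp, -, c1, c2⟩ := H384.XHr.f1_xH (d := d) (d0 := KrK x) s.run.ok s.f2 hK1 N.KB hr N.μB hμm hb
      (le_refl (KS ρ)) s.f2o hd (pK x m) (pK x m) hN0
    refine c2.trans (add_le_add ?_ le_rfl)
    rw [s.run.hm, s.run.hh] at c1
    have e1 : ((Bp.card : ℝ) + 2 * ((d + KrK x : ℕ) : ℝ) * (Bp.card + 1)) ≤
        (2 * ((D + KrK x : ℕ) : ℝ) + 1) * Bp.card + 2 * ((D + KrK x : ℕ) : ℝ) := by
      have f1 : ((d + KrK x : ℕ) : ℝ) ≤ ((D + KrK x : ℕ) : ℝ) := by exact_mod_cast Nat.add_le_add_right hdD _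
      have f2 : 2 * ((d + KrK x : ℕ) : ℝ) * (Bp.card + 1) ≤ 2 * ((D + KrK x : ℕ) : ℝ) * (Bp.card + 1) :=
        mul_le_mul_of_nonneg_right (by linarith) (by positivity)
      linarith
    refine (mul_le_mul_of_nonneg_left e1 hH0).trans ((mul_le_mul_of_nonneg_right hH (by positivity)).trans ?_)
    have e2 : PH x * m * ((2 * ((D + KrK x : ℕ) : ℝ) + 1) * Bp.card + 2 * ((D + KrK x : ℕ) : ℝ)) =
        PH x * ((2 * ((D + KrK x : ℕ) : ℝ) + 1) * (m * Bp.card) + 2 * ((D + KrK x : ℕ) : ℝ) * m) := by ring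
    rw [e2]
    refine mul_le_mul_of_nonneg_left (add_le_add ?_ le_rfl) hPH
    exact mul_le_mul_of_nonneg_left c1 (by positivity)
  have h1 := pairs_sum (N := s.N) (L1 := L1) (D := D) (I := IdS s.R s.Vs s.Xs (Kap s.R) s.R.IsA)
    (T := fun d k => At' s.R s.pn B d k)
    (Φ := fun k i => mi s.R.Q (xH s.R s.F (s.R.m * s.R.b1) (pK x m) (pK x m) k)
        ((mt s.R s.F (μS x m) s.o s.o').mtr i (s.R.m * s.R.b1))
        (fun ω => (LDk ((mt s.R s.F (μS x m) s.o s.o').fz k k) (s.R.m * s.R.b1) k ω,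
          LTh ((mt s.R s.F (μS x m) s.o s.o').fz k k) (s.R.m * s.R.b1) i ω)))
    (bd := fun _ => PH x * ((2 * ((D + KrK x : ℕ) : ℝ) + 1) * (3 * ((h : ℝ) / B)) + 2 * ((D + KrK x : ℕ) : ℝ) * m) +
        4 * H416.F1P.cF ρ.K * (KS ρ * (s.R.n + s.pn.J + 1) * q2 (μS x m / 8)))
    (fun k i => mi_nonneg _ _ _ _) hsum (AdmK s (PuK s Sw) L1 L2 Lk) (uV s 1) (vV s (KrK x))
    (fun j k A => ⟨mem_Id s N.B1 hLk hSw A, adm_at s (krK_pos x) hLk hLr hSw (adm_iff s A)⟩)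
    (fun j j' k k' A A' hu => inj_u s (krK_pos x) hLk (adm_iff s A) (adm_iff s A') hu)
  refine h1.trans ?_
  rw [Finset.sum_const, Finset.card_range, nsmul_eq_mul]
  have hμ0 : (0 : ℝ) ≤ μS x m := Nat.cast_nonneg _
  have hm0 : (0 : ℝ) ≤ m := Nat.cast_nonneg _
  have hcF0 : 0 ≤ H416.F1P.cF ρ.K := H416.F1P.cF_nonneg _
  have hC0 : 0 ≤ (2 * σ.K1 + 4) * ((s.R.h : ℝ) / s.R.m) := le_trans (by positivity) hn
  have e3 : 4 * H416.F1P.cF ρ.K * (KS ρ * (s.R.n + s.pn.J + 1) * q2 (μS x m / 8)) ≤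
      (4 * H416.F1P.cF ρ.K * KS ρ) * (m + μS x m + 1) * q2 (μS x m / 8) * ((2 * σ.K1 + 4) * ((h : ℝ) / m)) := by
    have f1 : 4 * H416.F1P.cF ρ.K * (KS ρ * (s.R.n + s.pn.J + 1) * q2 (μS x m / 8)) =
        (4 * H416.F1P.cF ρ.K * KS ρ) * q2 (μS x m / 8) * ((s.R.n : ℝ) + s.pn.J + 1) := by ring
    rw [f1]
    rw [s.run.hh, s.run.hm] at hn hC0
    have f2 : (4 * H416.F1P.cF ρ.K * KS ρ) * q2 (μS x m / 8) * ((s.R.n : ℝ) + s.pn.J + 1) ≤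
        (4 * H416.F1P.cF ρ.K * KS ρ) * q2 (μS x m / 8) * ((2 * σ.K1 + 4) * ((h : ℝ) / m)) :=
      mul_le_mul_of_nonneg_left hn (by positivity)
    have f3 : (4 * H416.F1P.cF ρ.K * KS ρ) * q2 (μS x m / 8) * ((2 * σ.K1 + 4) * ((h : ℝ) / m)) * 1 ≤
        (4 * H416.F1P.cF ρ.K * KS ρ) * q2 (μS x m / 8) * ((2 * σ.K1 + 4) * ((h : ℝ) / m)) * (m + μS x m + 1) :=
      mul_le_mul_of_nonneg_left (by linarith) (by positivity)
    linarith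
  have e4 := mul_le_mul_of_nonneg_left e3 (show (0 : ℝ) ≤ L1 * ((D + 1 : ℕ) : ℝ) by positivity)
  have e5 : (L1 : ℝ) * (((D + 1 : ℕ) : ℝ) * (PH x * ((2 * ((D + KrK x : ℕ) : ℝ) + 1) * (3 * ((h : ℝ) / B)) +
      2 * ((D + KrK x : ℕ) : ℝ) * m) + 4 * H416.F1P.cF ρ.K * (KS ρ * (s.R.n + s.pn.J + 1) * q2 (μS x m / 8)))) =
      L1 * ((D + 1 : ℕ) : ℝ) * (PH x * (3 * (2 * ((D + KrK x : ℕ) : ℝ) + 1))) * ((h : ℝ) / B) +
      L1 * ((D + 1 : ℕ) : ℝ) * (4 * H416.F1P.cF ρ.K * (KS ρ * (s.R.n + s.pn.J + 1) * q2 (μS x m / 8))) +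
      L1 * ((D + 1 : ℕ) : ℝ) * (PH x * (2 * ((D + KrK x : ℕ) : ℝ))) * m := by ring
  rw [e5]
  linarith

open Classical in
/-- **the sum of the second informations** -/
theorem si2z (hρ : ρ.Ok) (N : KNum x ρ m B h) (s : St η x σ ε ρ g m B h) {Sw : Finset ℕ} {L1 L2 Lk Lr : ℕ}
    (hLk : 2 * KrK x ≤ Lk) (hLr : L1 + KrK x ≤ Lr) (hSw : SwL s.R B s.Vs s.Xs Lr ⊆ Sw) (hB : L1 + KrK x ≤ B) :
    ∑ j ∈ range s.N, ∑ k ∈ Ioc j (j + L1), H495.RK.I2K s (PuK s Sw) L1 L2 Lk j k ≤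
      L1 * (((L1 + KrK x : ℕ) : ℝ) + 1) * ((h : ℝ) / B) +
        L1 * (((L1 + KrK x : ℕ) : ℝ) + 1) ^ 3 * KS ρ * (m + μS x m + 1) * q2 (μS x m / 8) *
          ((2 * σ.K1 + 4) * ((h : ℝ) / m)) := by
  have hK0 : 0 ≤ KS ρ := by
    unfold KS
    have := hρ.K1
    positivity
  have h1 := pairs_F2b (N := s.N) (L1 := L1) (D := L1 + KrK x) (B := B) (μ := μS x m) (K' := KS ρ) (p := s.pn)
    (C := 2 * σ.K1 + 4) (I := IdK s.R s.Vs s.Xs)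
    (Φ := fun u v => mi s.R.Q (LTh ((mt s.R s.F (μS x m) s.o s.o').fz u u) (s.R.m * s.R.b1) v)
      (fun ω => (((mt s.R s.F (μS x m) s.o s.o').fz u u).cell u s.bV ω,
        s.F.Ao (lv s.R u) ω, Ob s.R B s.o' u ω))
      (LDk ((mt s.R s.F (μS x m) s.o s.o').fz u u) (s.R.m * s.R.b1) u))
    hK0 (fun u v => mi_nonneg _ _ _ _) s.f2o.V2 hB (nJ_le s N.hJ N.m1) (AdmK s (PuK s Sw) L1 L2 Lk) (uV s 1)
    (vV s (KrK x))
    (fun j k A => ⟨adm_K s N.B1 (krK_pos x) hLk hSw (adm_iff s A), adm_at s (krK_pos x) hLk hLr hSw (adm_iff s A)⟩)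
    (fun j j' k k' A A' hu => inj_u s (krK_pos x) hLk (adm_iff s A) (adm_iff s A') hu)
  refine h1.trans (le_of_eq ?_)
  rw [s.run.hm, s.run.hh]

/-! ### the collisions -/

/-- numbers -/
theorem K_q2 {K : ℝ} {m B : ℕ} (hm : 1 ≤ m) (hB : K + 2 ≤ B) (r : ℕ) (hB2 : 2 ≤ B) :
    K * q2 (r + m * B) ≤ q2 (r + m + 1) := by
  obtain ⟨n, hn⟩ : ∃ n, m * B = m + 1 + n + (B - 2) := by
    refine ⟨m * B - (m + 1) - (B - 2), ?_⟩
    have : m + 1 + (B - 2) ≤ m * B := by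
      obtain ⟨c, rfl⟩ : ∃ c, B = c + 2 := ⟨B - 2, by omega⟩
      have e : m * (c + 2) = m * c + 2 * m := by ring
      have : c ≤ m * c := Nat.le_mul_of_pos_left c hm
      omega
    omega
  have e1 : q2 (r + m * B) = q2 (r + m + 1) * (q2 n * q2 (B - 2)) := by
    rw [hn, show r + (m + 1 + n + (B - 2)) = (r + m + 1) + (n + (B - 2)) by omega, q2_add (r + m + 1), q2_add n]
  have q1 := q2_pos (r + m + 1)
  have q3 := q2_pos (B - 2)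
  have q4 : q2 n ≤ 1 := by
    have := q2_mul_pow n
    have h1 : (1 : ℝ) ≤ 2 ^ n := one_le_pow₀ (by norm_num)
    have h2 := q2_pos n
    nlinarith
  have q5 : K * q2 (B - 2) ≤ 1 := by
    have h1 : K ≤ ((B - 2 : ℕ) : ℝ) := by
      rw [Nat.cast_sub hB2]
      push_cast
      linarith
    have h2 : ((B - 2 : ℕ) : ℝ) ≤ 2 ^ (B - 2) := by exact_mod_cast (Nat.lt_two_pow_self (n := B - 2)).le
    have h3 := q2_mul_pow (B - 2)
    nlinarith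
  rw [e1]
  have h5 : K * (q2 (r + m + 1) * (q2 n * q2 (B - 2))) = q2 (r + m + 1) * (q2 n * (K * q2 (B - 2))) := by ring
  rw [h5]
  have h6 := q2_pos n
  have h7 : q2 n * (K * q2 (B - 2)) ≤ 1 := by
    rcases le_or_gt 0 (K * q2 (B - 2)) with h | h
    · exact mul_le_one₀ q4 h q5
    · nlinarith
  calc q2 (r + m + 1) * (q2 n * (K * q2 (B - 2))) ≤ q2 (r + m + 1) * 1 := mul_le_mul_of_nonneg_left h7 q1.le
    _ = _ := mul_one _

theorem xk_sub (s : St η x σ ε ρ g m B h) : XK s ⊆ XE s := by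
  classical
  intro j hj
  unfold XK at hj
  rw [Finset.mem_filter] at hj
  obtain ⟨h1, h2, h3, h4⟩ := hj
  unfold XE
  rw [Finset.mem_filter]
  refine ⟨h1, h2, h3, Or.inr ?_⟩
  have D := s.word.sd
  have HL := lvl s
  have a0 : s.a 0 ≤ s.a j := D.am (Nat.zero_le _) (Finset.mem_range.1 h1).le
  have c1 : s.lm (s.a j + 1) < s.N := HL.lt _ (by omega) h3
  have c2 := HL.eq (s.a j + 1) (by omega) h3
  have c3 := HL.st (s.a j + 1) (by omega) h3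
  exact s.word.hE _ c1 (by
    show s.a (s.lm (s.a j + 1) + 1) = s.a (s.lm (s.a j + 1)) + 1
    omega) h4

theorem xk_le (s : St η x σ ε ρ g m B h) (hε : 0 ≤ ε) : (m : ℝ) * (XK s).card ≤ 58 * ε * h := by
  refine le_trans (mul_le_mul_of_nonneg_left ?_ (Nat.cast_nonneg m)) (xe_le s hε)
  exact_mod_cast Finset.card_le_card (xk_sub s)

end

/-- **the sum of the collisions** -/
theorem collK_sum {σ : S5.Cst} (hσ : σ.Ok) {κ : ℝ} (hκ : 0 < κ) : ∃ ε0 : ℝ, 0 < ε0 ∧ ∀ ε : ℝ, 0 < ε → ε ≤ ε0 →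
    ∀ ρ : Thr, ρ.Ok → ∀ x : ℕ, Ev3 fun m B h => ∀ (η : ℝ) (g : Gv) (s : St η x σ ε ρ g m B h) (Sw : Finset ℕ)
      (L1 L2 Lk Lr : ℕ), 2 * KrK x ≤ Lk → SwL s.R B s.Vs s.Xs Lr ⊆ Sw →
        (m : ℝ) * ∑ j ∈ range s.N, collK s (PuK s Sw) L1 L2 Lk j ≤ κ * h := by
  obtain ⟨ε0, hε0, H⟩ := H786.SC.sc1_ev hσ hκ
  refine ⟨ε0, hε0, fun ε hε hε' ρ hρ x => ?_⟩
  have H1 := H ε hε hε' ρ hρ x
  have H2 := ev_KNum x ρ
  have H3 := H364.NwRec.ev_NwNum σ hσ ρ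
  refine ((H1.mono2 H2 fun _ _ _ p q => And.intro p q).mono2 H3 fun _ _ _ p q => And.intro p q).mono
    fun m B h P => ?_
  obtain ⟨⟨P1, N⟩, N3⟩ := P
  intro η g s Sw L1 L2 Lk Lr hLk hSw
  classical
  have C := H786.SC.cx s hσ hρ N3 N.μB
  have hm := s.run.hm
  set T : Finset ℕ := (range s.N).filter fun j => (∃ k, AdmK s (PuK s Sw) L1 L2 Lk j k) ∧ j ∉ XK s with hT
  have key := P1 η g s T (uV s 1) (uV s 1) (bc s.R) (s.R.m * s.R.b1) m ℝ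
    (fun j => BfH s.R s.F (rK m) (uV s 1 j)) (fun _ z => z) le_rfl ?_ ?_ ?_ ?_
  · refine le_trans (le_of_eq ?_) key
    congr 1
    rw [hT, Finset.sum_filter]
    refine Finset.sum_congr rfl fun j _ => ?_
    unfold collK
    rfl
  · intro i hi j hj hij
    obtain ⟨⟨k, hk⟩, -⟩ := (Finset.mem_filter.1 hi).2
    obtain ⟨⟨k', hk'⟩, -⟩ := (Finset.mem_filter.1 hj).2
    exact inj_u s (krK_pos x) hLk (adm_iff s hk) (adm_iff s hk') hij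
  · intro j hj
    obtain ⟨⟨k, hk⟩, -⟩ := (Finset.mem_filter.1 hj).2
    exact adm_K s N.B1 (krK_pos x) hLk hSw (adm_iff s hk)
  · intro j hj
    obtain ⟨⟨k, hk⟩, hX⟩ := (Finset.mem_filter.1 hj).2
    have I := adm_ix s (krK_pos x) hLk (adm_iff s hk)
    have h1 : s.gd (jV s 1 j) := by
      by_contra hc
      apply hX
      unfold XK
      rw [Finset.mem_filter]
      refine ⟨(Finset.mem_filter.1 hj).1, hk.1, ?_, hc⟩
      have h2 := I.ja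
      have h3 := s.word.sd.am (i := jV s 1 j + 1) (j := s.N) (by have := I.jN; omega) le_rfl
      have h4 := hk.2.2.2.1
      obtain ⟨i1, c1, c2, c3, c4⟩ := hk.2.2.2.2.1
      have h5 := s.word.sd.am (i := i1) (j := s.N) c2 le_rfl
      have h6 : s.a i1 ≤ s.a s.N := h5
      omega
    refine ⟨le_rfl, ?_, h1, rfl⟩
    exact lt_of_lt_of_le (H812.ix_strict s.run.ok.pth _ _ (Nat.lt_succ_self _) (Nat.succ_le_of_lt I.jN)) (f_le s _)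
  · intro j hj z ω hω hB
    obtain ⟨⟨k, hk⟩, -⟩ := (Finset.mem_filter.1 hj).2
    have h1 := adm_K s N.B1 (krK_pos x) hLk hSw (adm_iff s hk)
    obtain ⟨⟨a1, a2⟩, a3, a4, a5⟩ := H384.F1.mem_IdK.1 h1
    refine C.Bf_Ao a3 a2 rfl ?_ z ω hω ?_
    · rw [hm]
      refine K_q2 N.m1 ?_ _ ?_
      · have h3 := N.KB
        have h4 := hρ.K1
        have h5 : ρ.K + 2 ≤ (100 * ρ.K) ^ 20 := by
          have h6 : 100 * ρ.K ≤ (100 * ρ.K) ^ 20 := le_self_pow₀ (by linarith) (by norm_num)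
          linarith
        linarith
      · have h3 := N.KB
        have h4 := hρ.K1
        have h6 : 100 * ρ.K ≤ (100 * ρ.K) ^ 20 := le_self_pow₀ (by linarith) (by norm_num)
        have h7 : (2 : ℝ) ≤ B := by linarith
        exact_mod_cast h7
    · unfold BfH rK at hB
      rw [hm]
      exact hB

/-- the factor -/
theorem A0K_le (x m : ℕ) {c' : ℝ} (hc : 0 < c') :
    A0K m c' ≤ 10 * 2 ^ 539 / (c' / 2) * 2 ^ (5 * (xS x * m)) := by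
  unfold A0K rK bK
  have e1 : (2 : ℝ) ^ (4 * m + 42 * m + 6 * (m + 1 + 2) + 8 * 53 + 97) = 2 ^ 539 * 2 ^ (52 * m) := by
    rw [← pow_add]
    congr 1
    ring
  have e2 : (2 : ℝ) ^ (52 * m) ≤ 2 ^ (5 * (xS x * m)) := by
    refine pow_le_pow_right₀ (by norm_num) ?_
    unfold xS
    nlinarith
  rw [e1]
  have e3 : 10 * ((2 : ℝ) ^ 539 * 2 ^ (52 * m)) / (c' / 2) = 10 * 2 ^ 539 / (c' / 2) * 2 ^ (52 * m) := by ring
  rw [e3]
  exact mul_le_mul_of_nonneg_left e2 (by positivity)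

/-- **[SE1]** -/
theorem se1 : H495.RK.SE1 := by
  intro b hb η hη x δh e3 _ _ _
  refine ⟨1, one_pos, fun θ _ _ => ⟨1, one_pos, fun δ1 _ _ σ hσe hσ => ?_⟩⟩
  have hK1 : 0 < σ.K1 := hσ.bs.K10
  obtain ⟨κ, e0, hκ, he0, H⟩ := ev_se1 (K1 := σ.K1) (η := η) (c2 := 1200) hK1 hη (by norm_num)
  obtain ⟨ε0, hε0, HC⟩ := collK_sum hσ hκ
  refine ⟨min ε0 (e0 / 58), lt_min hε0 (by positivity), fun ε hε hε' ρ hρ => ?_⟩
  intro c0 L1 L2 Lk L hc0 hL1 hLk hL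
  have hKρ := hρ.K1
  have hK0 : 0 ≤ KS ρ := by
    unfold KS
    positivity
  have hcF0 : 0 ≤ H416.F1P.cF ρ.K := H416.F1P.cF_nonneg _
  have hPH : 0 ≤ PH x := by
    unfold PH
    positivity
  obtain ⟨N0, hN0⟩ := exists_nat_ge ρ.K
  obtain ⟨D1, hD1⟩ : ∃ D1 : ℝ, D1 = L1 * ((L1 + KrK x + 1 : ℕ) : ℝ) *
    (PH x * (3 * (2 * ((L1 + KrK x + KrK x : ℕ) : ℝ) + 1))) := ⟨_, rfl⟩
  obtain ⟨D2, hD2⟩ : ∃ D2 : ℝ, D2 = L1 * (((L1 + KrK x : ℕ) : ℝ) + 1) := ⟨_, rfl⟩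
  obtain ⟨G1, hG1⟩ : ∃ G1 : ℝ, G1 = L1 * ((L1 + KrK x + 1 : ℕ) : ℝ) * (4 * H416.F1P.cF ρ.K * KS ρ) := ⟨_, rfl⟩
  obtain ⟨G2, hG2⟩ : ∃ G2 : ℝ, G2 = L1 * (((L1 + KrK x : ℕ) : ℝ) + 1) ^ 3 * KS ρ := ⟨_, rfl⟩
  obtain ⟨X1, hX1⟩ : ∃ X1 : ℕ → ℕ → ℝ, X1 = fun (m : ℕ) (_ : ℕ) => (L1 : ℝ) * ((L1 + KrK x + 1 : ℕ) : ℝ) *
    (PH x * (2 * ((L1 + KrK x + KrK x : ℕ) : ℝ))) * (m : ℝ) := ⟨_, rfl⟩
  have d1 : 0 ≤ D1 := by rw [hD1]; positivity
  have d2 : 0 ≤ D2 := by rw [hD2]; positivity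
  have g1 : 0 ≤ G1 := by rw [hG1]; positivity
  have g2 : 0 ≤ G2 := by rw [hG2]; positivity
  have hCC : 0 ≤ 2 * σ.K1 + 4 := by linarith
  have hcN : 800 ≤ cN := le_max_left _ _
  have E1 := H c0 hc0 (e := 5) (by omega) x L1 (10 * 2 ^ 539 / (ρ.c' / 2)) (2 * σ.K1 + 4) (D1 + D2) (G1 + G2) X1
    (by have := hρ.c'0; positivity) hCC (by linarith) (by linarith)
  have E2 := HC ε hε (hε'.trans (min_le_left _ _)) ρ hρ x
  have E3 := ev_KNum x ρ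
  have E4 : Ev3 fun m B _ => Real.log (8 * N0 + 3) ≤ m ∧ L1 + KrK x ≤ B := by
    have a1 : Ev3 fun m _ _ => Real.log (8 * N0 + 3) ≤ m := by
      obtain ⟨n, hn⟩ := exists_nat_ge (Real.log (8 * N0 + 3))
      exact Ev3.of_m ((ev_nat n).mono fun m hm => hn.trans (by exact_mod_cast hm))
    have a2 : Ev3 fun _ B _ => L1 + KrK x ≤ B := Ev3.of_B' fun _ => ev_nat (L1 + KrK x)
    exact a1.mono2 a2 fun _ _ _ p q => ⟨p, q⟩
  have E := (E1.mono2 E2 fun _ _ _ p q => And.intro p q).mono2 (E3.mono2 E4 fun _ _ _ p q => And.intro p q)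
    fun _ _ _ p q => And.intro p q
  refine Suf.of_ev3 fun g _ => Ev3.out (E.mono fun m B h P => ?_)
  obtain ⟨⟨P1, P2⟩, P3, P4⟩ := P
  intro s Sw hSw
  have hq := q2_pos (μS x m / 8)
  have hh : (0 : ℝ) ≤ h / B := by positivity
  have hh2 : (0 : ℝ) ≤ (h : ℝ) / m := by positivity
  have s1 := si1z hρ P3 s hN0 P4.1 (L1 := L1) (L2 := L2) hLk (by omega) hSw
  have s2 := si2z hρ P3 s (L1 := L1) (L2 := L2) hLk (by omega) hSw P4.2
  rw [← hD1, ← hG1] at s1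
  rw [← hD2, ← hG2] at s2
  have W : 0 ≤ (m + μS x m + 1 : ℝ) * q2 (μS x m / 8) * ((2 * σ.K1 + 4) * ((h : ℝ) / m)) := by positivity
  have w1 := mul_nonneg g1 W
  have w2 := mul_nonneg g2 W
  have v1 := mul_nonneg d1 hh
  have v2 := mul_nonneg d2 hh
  have hX1n : 0 ≤ X1 m B := by
    rw [hX1]
    positivity
  have eX : X1 m B = L1 * ((L1 + KrK x + 1 : ℕ) : ℝ) * (PH x * (2 * ((L1 + KrK x + KrK x : ℕ) : ℝ))) * m := by rw [hX1]
  rw [← eX] at s1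
  have key := P1 σ ε ρ g s rfl (A0K m ρ.c') (by
      unfold A0K
      have := hρ.c'0
      positivity) (A0K_le x m hρ.c'0) (collK s (PuK s Sw) L1 L2 Lk) (H495.RK.I1K s (PuK s Sw) L1 L2 Lk)
    (H495.RK.I2K s (PuK s Sw) L1 L2 Lk) (XK s)
    (fun j k => by
      unfold H495.RK.I1K
      split_ifs
      · exact mi_nonneg _ _ _ _
      · exact le_rfl)
    (fun j k => by
      unfold H495.RK.I2K
      split_ifs
      · exact mi_nonneg _ _ _ _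
      · exact le_rfl)
    (P2 η g s Sw L1 L2 Lk L hLk hSw)
    (s1.trans (by linarith)) (s2.trans (by linarith))
    ((xk_le s hε.le).trans (by
      have h1 : 58 * ε ≤ e0 := by
        have := hε'.trans (min_le_right _ _)
        rw [le_div_iff₀ (by norm_num)] at this
        linarith
      exact mul_le_mul_of_nonneg_right h1 (Nat.cast_nonneg _)))
  exact key

end Vale.Agent.P106.U.H652.SE
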