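import Vale.Agent.P106.U.H565.RunF
import Vale.Agent.P106.U.H425.LightC
import Vale.Agent.P106.U.H652.RunNum

/-!
# P106 / U / H652 : the number fields of the record for helper565's concrete run (helper652)

* `run_sum` : `a i + rf i + rk i = 2 r0 + i m`;  `n_cast` : number of the steps `n + J ≤ (1 + 2 K1) h / m`.
* `gN c` : the price `g'` of the letters; `gN_le` : `≤ CgN K1 h / m`.
* `lg_num` : `g' ≤ ε h`, `κ₀ ((4 J + 1) g') ≤ T h / m` with `κ₀ = kL / m`, for `m ≥ m0`.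
* `NumF` : the number fields of `RunOk`;  `numF`.
-/

set_option autoImplicit false

namespace Vale.Agent.P106.U.H652.RunB

open Finset Vale.Agent.P127 Vale.Agent.P127.Stk Vale.Agent.P127.U Vale.Agent.P106.W
open Vale.Agent.P106.U Vale.Agent.P106.U.H449 Vale.Agent.P106.U.H565

/-! ### the number of the steps -/

section path

variable {Ω : Type} [Fintype Ω] {τ υ : Type} {R : S3.Run Ω τ υ} {p : S3.Run.Num}

theorem run_sum (P : R.Path p) : ∀ i ≤ R.n + p.J, R.C.a i + R.C.rf i + R.C.rk i = 2 * R.r0 + i * R.m := by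
  intro i
  induction i with
  | zero => intro _; rw [P.a0, P.f0, P.k0]; omega
  | succ i ih =>
    intro hi
    have h1 := ih (by omega)
    have e : (i + 1) * R.m = i * R.m + R.m := Nat.succ_mul i R.m
    rcases P.stp i (by omega) with ⟨a1, a2, a3⟩ | ⟨a1, a2, a3⟩ | ⟨a1, a2, a3⟩
    · rw [a1, a2, a3]; omega
    · rw [a1, a2, a3]; omega
    · rw [a1, a2, a3]; omega

/-- **the number of the steps**, if `rk ≤ rf` at the end -/
theorem run_n (P : R.Path p) (hk : R.C.rk (R.n + p.J) ≤ R.C.rf (R.n + p.J)) :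
    (R.n + p.J) * R.m + 2 * R.r0 ≤ R.h + 2 * p.QF := by
  have h1 := run_sum P _ le_rfl
  have h2 := P.rA
  have h3 := P.leF _ le_rfl
  omega

end path

/-! ### the concrete run -/

section conc

variable {Ω : Type} [Fintype Ω] {c : C2 Ω} {Rm : ℕ} {cc : ℝ} {Ac rc : ℕ}

theorem rk_le_rf (i : ℕ) : c.run.C.rk i ≤ c.run.C.rf i := c.D.lkf i

theorem m_pos (_ : c.Hyp Rm cc Ac rc) : (0 : ℝ) < c.I.m := by
  have h1 := c.good.m1
  exact_mod_cast (by omega : 0 < c.I.m)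

/-- `1 ≤ h / m` -/
theorem one_le (H : c.Hyp Rm cc Ac rc) : (1 : ℝ) ≤ c.I.h / c.I.m := by
  have h1 := c.good.hm
  have h2 := H.N0s
  have h3 : (4 : ℝ) ≤ c.N0 := by exact_mod_cast (by omega : 4 ≤ c.N0)
  linarith

/-- **the number of the steps** -/
theorem n_cast (H : c.Hyp Rm cc Ac rc) :
    ((c.D.n + c.I.J : ℕ) : ℝ) ≤ (2 + 2 * c.K1) * ((c.I.h : ℝ) / c.I.m) := by
  have hm := m_pos H
  have P := C2.path H
  have h1 : (c.D.n + c.I.J) * c.I.m + 2 * c.I.rs ≤ c.I.h + 2 * c.I.num.QF := run_n P (rk_le_rf _)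
  have h2 := c.good.QFq
  have h3 := c.good.qr
  have h4 : ((c.D.n + c.I.J : ℕ) : ℝ) * c.I.m + 2 * c.I.rs ≤ c.I.h + 2 * c.I.q := by
    have : (c.D.n + c.I.J) * c.I.m + 2 * c.I.rs ≤ c.I.h + 2 * c.I.q := by omega
    exact_mod_cast this
  rw [← mul_div_assoc, le_div_iff₀ hm]
  linarith

/-- **price of the letters of the cells** -/
noncomputable def gN (c : C2 Ω) : ℝ := 3 * PrT.LS.Lg 6 3 * ((c.D.n + c.I.J : ℕ) + 1)

end conc

/-- its constant -/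
noncomputable def CgN (K1 : ℝ) : ℝ := 3 * PrT.LS.Lg 6 3 * (3 + 2 * K1)

theorem CgN_nonneg {K1 : ℝ} (h : 0 ≤ K1) : 0 ≤ CgN K1 := by
  have := PrT.LS.Lg_nonneg 6 3
  unfold CgN
  positivity

section conc

variable {Ω : Type} [Fintype Ω] {c : C2 Ω} {Rm : ℕ} {cc : ℝ} {Ac rc : ℕ}

theorem gN_nonneg (c : C2 Ω) : 0 ≤ gN c := by
  have := PrT.LS.Lg_nonneg 6 3
  unfold gN
  positivity

theorem gN_le (H : c.Hyp Rm cc Ac rc) : gN c ≤ CgN c.K1 * ((c.I.h : ℝ) / c.I.m) := by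
  have h1 := n_cast H
  have h2 := one_le H
  have h3 := PrT.LS.Lg_nonneg 6 3
  unfold gN CgN
  have h4 : ((c.D.n + c.I.J : ℕ) : ℝ) + 1 ≤ (3 + 2 * c.K1) * ((c.I.h : ℝ) / c.I.m) := by linarith
  have h5 := mul_le_mul_of_nonneg_left h4 (mul_nonneg (by norm_num : (0 : ℝ) ≤ 3) h3)
  linarith

end conc

/-- **the prices `g'` and `κ₀ ((4 J + 1) g')`** -/
theorem lg_num (K1 : ℝ) {ε T kL : ℝ} (hε : 0 < ε) (hT : 0 < T) (hk : 0 ≤ kL) (J : ℕ) :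
    ∃ m0 : ℕ, ∀ (Ω : Type) [Fintype Ω] (c : C2 Ω) (Rm : ℕ) (cc : ℝ) (Ac rc : ℕ), c.Hyp Rm cc Ac rc → c.K1 = K1 →
      c.I.J = J → m0 ≤ c.I.m → gN c ≤ ε * c.I.h ∧
      kL / c.I.m * ((4 * c.I.J + 1) * gN c) ≤ T * (c.I.h / c.I.m) := by
  obtain ⟨m1, -, hm1⟩ := lin_num (CgN K1) hε
  obtain ⟨m2, -, hm2⟩ := lin_num (kL * (4 * J + 1) * CgN K1) hT
  refine ⟨max m1 m2, fun Ω _ c Rm cc Ac rc H eK eJ hm => ?_⟩
  have hmr := m_pos H
  have h1 := gN_le H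
  rw [eK] at h1
  have h2 := hm1 c.I.m c.I.h ((le_max_left _ _).trans hm)
  have h3 := hm2 c.I.m c.I.h ((le_max_right _ _).trans hm)
  refine ⟨h1.trans ?_, ?_⟩
  · rw [← mul_div_assoc]
    exact h2
  · rw [eJ]
    have h4 : (4 * (J : ℝ) + 1) * gN c ≤ (4 * J + 1) * (CgN K1 * ((c.I.h : ℝ) / c.I.m)) :=
      mul_le_mul_of_nonneg_left h1 (by positivity)
    have h5 : kL / c.I.m * ((4 * (J : ℝ) + 1) * gN c) ≤
        kL / c.I.m * ((4 * J + 1) * (CgN K1 * ((c.I.h : ℝ) / c.I.m))) :=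
      mul_le_mul_of_nonneg_left h4 (by positivity)
    refine h5.trans ?_
    have e1 : kL / (c.I.m : ℝ) * ((4 * J + 1) * (CgN K1 * ((c.I.h : ℝ) / c.I.m))) =
        (kL * (4 * J + 1) * CgN K1 * c.I.h / c.I.m) / c.I.m := by
      field_simp
    rw [e1, ← mul_div_assoc]
    exact div_le_div_of_nonneg_right h3 hmr.le

/-- `e = T h / m` as in `RunOk.le` -/
theorem le_num {ε c' δ1 K T : ℝ} {h m : ℕ} (hT : T ≤ ε ^ 2 * c' * δ1 / (1000 * K ^ 8)) :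
    T * ((h : ℝ) / m) ≤ ε ^ 2 * c' * δ1 * h / (1000 * K ^ 8 * m) := by
  have h1 : (0 : ℝ) ≤ (h : ℝ) / m := by positivity
  have h2 := mul_le_mul_of_nonneg_right hT h1
  have e : ε ^ 2 * c' * δ1 / (1000 * K ^ 8) * ((h : ℝ) / m) = ε ^ 2 * c' * δ1 * h / (1000 * K ^ 8 * m) := by
    rw [div_mul_div_comm]
  linarith

/-! ### the number fields -/

/-- the number fields of `RunOk` -/
structure NumF (σ : S5.Cst) (ε : ℝ) (h q r0 : ℕ) (p : S3.Run.Num) (a1 r1 : ℕ) : Prop where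
  qr : (q : ℝ) ≤ r0 + (σ.K1 + 1) * h
  A1 : (p.A : ℝ) ≤ (1 - 4 * σ.δ1) * h
  A2 : (1 - 5 * σ.δ1) * h ≤ p.A
  QK1 : (p.QK : ℝ) ≤ q - 4 * σ.C1 * σ.δ1 * h
  QK2 : q - 5 * σ.C1 * σ.δ1 * h ≤ p.QK
  B1 : (p.B₁ : ℝ) ≤ σ.δ1 * h
  QF2 : q - σ.C1 * σ.δ1 * h ≤ p.QF
  sw1 : (a1 : ℝ) ≤ (1 - 8 * σ.δ1) * h
  sw2 : (q : ℝ) ≤ r1 + 10 * σ.C1 * σ.δ1 * h
  sw3 : r1 ≤ q

/-- **the number fields** -/
theorem numF {σ : S5.Cst} {ε : ℝ} {I : H523.Nums.Inp} {K1 : ℝ} {N0 ps : ℕ} (g : I.Good K1 N0) (hK : K1 = σ.K1 + 1 / 2)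
    (hC : I.C1 = σ.C1) (hδ : I.δ1 = σ.δ1) : NumF σ ε I.h I.q I.rs { I.num with s := ps } I.a1 I.r1 where
  qr := by
    have := g.qr
    rw [hK] at this
    linarith
  A1 := by have := g.A1; rwa [hδ] at this
  A2 := by have := g.A2; rwa [hδ] at this
  QK1 := by have := g.QK1; rwa [hδ, hC] at this
  QK2 := by have := g.QK2; rwa [hδ, hC] at this
  B1 := by have := g.B1; rwa [hδ] at this
  QF2 := by have := g.QF2; rwa [hδ, hC] at this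
  sw1 := by have := g.sw1; rwa [hδ] at this
  sw2 := by have := g.sw2; rwa [hδ, hC] at this
  sw3 := g.sw3

/-! ### the price of the laws -/

/-- `log (1 / x) ≤ CA h / m ≤ ε h` -/
theorem lp_num {CA ε : ℝ} (hε : 0 < ε) : ∃ m0 : ℕ, 1 ≤ m0 ∧ ∀ m h : ℕ, m0 ≤ m → ∀ x : ℝ,
    Real.log (1 / x) ≤ CA * h / m → Real.log (1 / x) ≤ ε * h := by
  obtain ⟨m0, h1, h2⟩ := lin_num CA hε
  exact ⟨m0, h1, fun m h hm x hx => hx.trans (h2 m h hm)⟩

/-- length of the words, as in helper480's `run_sel` -/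
theorem Rw_num {Ω : Type} [Fintype Ω] {c : C0 Ω} {K1 : ℝ} {N0 : ℕ} (g : c.I.Good K1 N0) {Q : Law Ω} {E : List (Lt 2)}
    {x : ℝ} (cn : Cn c.rule c.P Q c.I.pm.n E x) (a : ℕ) :
    (c.I.m : ℝ) * Rw c.I.pm.n E 1 a ≤ (2 + 2 * K1) * c.I.h := by
  have h1 := cn.lv_sum (i := H449.tw c.I.pm.n E a) (Cn.tw_le a)
  have h2 := Cn.tw_le (n := c.I.pm.n) (E := E) a
  have h3 : Rw c.I.pm.n E 1 a ≤ c.I.pm.n := by
    unfold Rw
    omega
  have h4 := g.n1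
  have hm : (0 : ℝ) < c.I.m := by exact_mod_cast (by have := g.m1; omega : 0 < c.I.m)
  have h5 : ((Rw c.I.pm.n E 1 a : ℕ) : ℝ) ≤ c.I.pm.n := by exact_mod_cast h3
  have h6 := mul_le_mul_of_nonneg_left (h5.trans h4) hm.le
  have e : (c.I.m : ℝ) * ((2 + 2 * K1) * ((c.I.h : ℝ) / c.I.m)) = (2 + 2 * K1) * c.I.h := by
    field_simp
  linarith

end Vale.Agent.P106.U.H652.RunB
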