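import Vale.Agent.P106.U.H652.Prs
import Vale.Agent.P106.U.H404.RowKd
import Vale.Agent.P106.U.H336.SwF

/-!
# P106 / U / H652 : the steps and windows of the young kinds over `MIC.St` (helper652)

* `AdmV s c Sw e L1 L2 Lk j k` : `j` is an a-step, all levels of `[a j, a k + Lk]` are of kind `c` and outside `Sw`, `a j + e < a k`,
  there is a later index `i1 ≤ j + L2` with `a k + Lk + 1 ≤ a i1`.
* `jV s e j` = a-step `e` levels later, `uV` = its index in the record;  `wV s Kr k = lx .. Kr k`, `vV` = its index in the record.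
* **`adm_ix`**, **`adm_at`** : indices, levels, membership in `At'`;  `adm_K`, `adm_P` : membership in `IdK`, `IdP`;
  `inj_u` : `u` is injective.
* **`adm_prk`** : 384's `Prk` for the family of all admissible pairs of kind 1.
-/

set_option autoImplicit false

namespace Vale.Agent.P106.U.H652.SE

open Finset Vale.Agent.P127 Vale.Agent.P127.Stk
open Vale.Agent.P106.U.S3 (Run IdK IdP At')
open Vale.Agent.P106.U.S5
open Vale.Agent.P106.U.H833 (aN RN lx lx_spec lev_a aN_mono)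
open Vale.Agent.P106.U.H336 (SwL)
open Vale.Agent.P106.U.H404 (kd3)
open Vale.Agent.P106.U.MIC
open Vale.Agent.P106.U.H823
open Vale.Agent.P106.U.H495 (Lvl)
open Vale.Agent.P106.U.H384.F1 (gdK lkR Prk)

section

variable {η : ℝ} {x : ℕ} {σ : Cst} {ε : ℝ} {ρ : Thr} {g : Gv} {m B h : ℕ}

/-- admissible: a-step `j`, window up to `k` -/
def AdmV (s : St η x σ ε ρ g m B h) (c : Fin 3) (Sw : Finset ℕ) (e L1 L2 Lk j k : ℕ) : Prop :=
  s.lm (s.a j) = j ∧ j < k ∧ k ≤ j + L1 ∧ s.a j + e < s.a k ∧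
    (∃ i1, k ≤ i1 ∧ i1 ≤ s.N ∧ i1 ≤ j + L2 ∧ s.a k + (Lk + 1) ≤ s.a i1) ∧
    ∀ z, s.a j ≤ z → z ≤ s.a k + Lk → z ∉ Sw ∧ s.kd z = c

/-- the a-step `e` levels later -/
noncomputable def jV (s : St η x σ ε ρ g m B h) (e j : ℕ) : ℕ := s.lm (s.a j + e)

/-- its index in the record -/
noncomputable def uV (s : St η x σ ε ρ g m B h) (e j : ℕ) : ℕ := s.f (jV s e j)

/-- the late step -/
noncomputable def wV (s : St η x σ ε ρ g m B h) (Kr k : ℕ) : ℕ := lx s.N s.a Kr k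

/-- its index in the record -/
noncomputable def vV (s : St η x σ ε ρ g m B h) (Kr k : ℕ) : ℕ := s.f (wV s Kr k)

theorem lvl (s : St η x σ ε ρ g m B h) : Lvl s.N s.a s.lm := H812.lvl s.word.sd

theorem a_f (s : St η x σ ε ρ g m B h) (j : ℕ) : s.R.C.a (s.f j) = s.R.m * s.a j := H812.a_ix s.run.ok.pth s.i0 j

theorem aN_f (s : St η x σ ε ρ g m B h) (j : ℕ) : aN s.R (s.f j) = s.a j := rfl

theorem f_le (s : St η x σ ε ρ g m B h) (j : ℕ) : s.f j ≤ s.R.n := H812.ix_le_n s.R s.i0 j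

/-- the indices of an admissible pair -/
structure Ix (s : St η x σ ε ρ g m B h) (e L1 L2 Kr j k : ℕ) : Prop where
  jN : jV s e j < s.N
  ja : s.a (jV s e j) = s.a j + e
  jj : j ≤ jV s e j
  jk : jV s e j < k
  kw : k < wV s Kr k
  wL : wV s Kr k < j + L2
  wN : wV s Kr k < s.N
  wa : s.a (wV s Kr k) = s.a k + Kr
  ww : wV s Kr k < wV s (2 * Kr) k
  w2L : wV s (2 * Kr) k < j + L2
  w2N : wV s (2 * Kr) k < s.N
  w2a : s.a (wV s (2 * Kr) k) = s.a k + 2 * Kr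
  ak : s.a k ≤ s.a j + L1
  uA : s.R.IsA (uV s e j)
  vA : s.R.IsA (vV s Kr k)

theorem adm_ix (s : St η x σ ε ρ g m B h) {c : Fin 3} {Sw : Finset ℕ} {e L1 L2 Lk Kr j k : ℕ} (hKr : 0 < Kr)
    (hLk : 2 * Kr ≤ Lk) (A : AdmV s c Sw e L1 L2 Lk j k) : Ix s e L1 L2 Kr j k := by
  obtain ⟨A1, A2, A3, A4, ⟨i1, A5, A6, A7, A8⟩, A9⟩ := A
  have D := s.word.sd
  have hP := s.run.ok.pth
  have HL := lvl s
  have a0 : s.a 0 ≤ s.a j := D.am (Nat.zero_le _) (by show j ≤ s.N; omega)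
  have aN1 : s.a i1 ≤ s.a s.N := D.am A6 le_rfl
  have c1 : jV s e j < s.N := HL.lt _ (by omega) (by omega)
  have c2 : s.a (jV s e j) = s.a j + e := HL.eq _ (by omega) (by omega)
  have c3 : s.a (jV s e j + 1) = s.a j + e + 1 := HL.st _ (by omega) (by omega)
  have c4 : j ≤ jV s e j := by
    rcases Nat.eq_zero_or_pos e with h | h
    · unfold jV
      rw [h, Nat.add_zero, A1]
    · by_contra hc
      have := D.am (i := jV s e j) (j := j) (by omega) (by show j ≤ s.N; omega)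
      have h2 : s.a (jV s e j) ≤ s.a j := this
      omega
  have c5 : jV s e j < k := by
    by_contra hc
    have := D.am (i := k) (j := jV s e j) (by omega) (by show jV s e j ≤ s.N; omega)
    have h2 : s.a k ≤ s.a (jV s e j) := this
    omega
  obtain ⟨q1, q2, q3, q4⟩ := lx_spec D A6 A5 hKr (show s.a k + Kr + 1 ≤ s.a i1 by omega)
  obtain ⟨p1, p2, p3, p4⟩ := lx_spec D A6 A5 (by omega : 0 < 2 * Kr) (show s.a k + 2 * Kr + 1 ≤ s.a i1 by omega)
  have hw : wV s Kr k < wV s (2 * Kr) k := by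
    by_contra hc
    have := D.am (i := wV s (2 * Kr) k) (j := wV s Kr k) (by omega) (by
      show wV s Kr k ≤ s.N
      have : wV s Kr k < i1 := q2
      omega)
    have h2 : s.a (wV s (2 * Kr) k) ≤ s.a (wV s Kr k) := this
    have h3 : s.a (wV s Kr k) = s.a k + Kr := q3
    have h4 : s.a (wV s (2 * Kr) k) = s.a k + 2 * Kr := p3
    omega
  have hal : s.a k ≤ s.a j + (k - j) := D.al (i := j) (j := k) (by omega) (by show k ≤ s.N; omega)
  refine ⟨c1, c2, c4, c5, q1, ?_, ?_, q3, hw, ?_, ?_, p3, by omega, ?_, ?_⟩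
  · have : wV s Kr k < i1 := q2
    omega
  · have : wV s Kr k < i1 := q2
    omega
  · have : wV s (2 * Kr) k < i1 := p2
    omega
  · have : wV s (2 * Kr) k < i1 := p2
    omega
  · exact H812.ix_isA hP c1 (by
      show s.a (jV s e j + 1) = s.a (jV s e j) + 1
      omega)
  · refine H812.ix_isA hP (show wV s Kr k < nz s.R s.i0 from ?_) ?_
    · show wV s Kr k < s.N
      have : wV s Kr k < i1 := q2
      omega
    · show s.a (wV s Kr k + 1) = s.a (wV s Kr k) + 1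
      have h3 : s.a (wV s Kr k) = s.a k + Kr := q3
      have h4 : s.a (wV s Kr k + 1) = s.a k + Kr + 1 := q4
      omega

/-- **the late step is in `At'`** -/
theorem adm_at (s : St η x σ ε ρ g m B h) {c : Fin 3} {Sw : Finset ℕ} {e L1 L2 Lk Lr Kr j k : ℕ} (hKr : 0 < Kr)
    (hLk : 2 * Kr ≤ Lk) (hLr : L1 + Kr ≤ Lr) (hSw : SwL s.R B s.Vs s.Xs Lr ⊆ Sw) (A : AdmV s c Sw e L1 L2 Lk j k) :
    ∃ d ≤ L1 + Kr, vV s Kr k ∈ At' s.R s.pn B d (uV s e j) := by
  have I := adm_ix s hKr hLk A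
  have hP := s.run.ok.pth
  obtain ⟨A1, A2, A3, A4, -, A9⟩ := A
  have e1 : aN s.R (uV s e j) = s.a j + e := I.ja
  have e2 : aN s.R (vV s Kr k) = s.a k + Kr := I.wa
  have h1 : aN s.R (uV s e j) ∉ SwL s.R B s.Vs s.Xs Lr := by
    rw [e1]
    exact fun hh => (A9 _ (by omega) (by omega)).1 (hSw hh)
  have h2 : uV s e j < vV s Kr k :=
    H812.ix_strict hP _ _ (show jV s e j < wV s Kr k by have := I.jk; have := I.kw; omega) (le_of_lt I.wN)
  have ak := I.ak
  exact ⟨s.a k + Kr - (s.a j + e), by omega,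
    (H336.at_of (B := B) (d := s.a k + Kr - (s.a j + e)) hP h1 h2 (f_le s _) I.vA (by omega) (by omega)).2⟩

/-- the kind of an index of the record whose level is of kind 1 -/
theorem gd_of_kd (s : St η x σ ε ρ g m B h) (hB : 1 ≤ B) {Lr i : ℕ} (hi : i ≤ s.R.n)
    (hS : aN s.R i ∉ SwL s.R B s.Vs s.Xs Lr) (hk : s.kd (aN s.R i) = 1) :
    i ∈ IdK s.R s.Vs s.Xs ∧ gdK s.R s.Vs s.Xs i := by
  have hP := s.run.ok.pth
  have hz : aN s.R i ≤ aN s.R s.R.n := aN_mono hP hi (by omega)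
  have h1 : kd3 s.R s.Vs s.Xs (aN s.R i) = 1 := (H404.kd3_kd hz hS).1.2 ((H404.kd_cases s _).1.1 hk)
  have h2 := (H336.idK s.f2 hP hB hi h1).2.1
  exact ⟨h2, (H384.F1.mem_IdK.1 h2).2⟩

theorem adm_K (s : St η x σ ε ρ g m B h) (hB : 1 ≤ B) {Sw : Finset ℕ} {e L1 L2 Lk Lr Kr j k : ℕ} (hKr : 0 < Kr)
    (hLk : 2 * Kr ≤ Lk) (hSw : SwL s.R B s.Vs s.Xs Lr ⊆ Sw) (A : AdmV s 1 Sw e L1 L2 Lk j k) :
    uV s e j ∈ IdK s.R s.Vs s.Xs := by
  have I := adm_ix s hKr hLk A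
  obtain ⟨A1, A2, A3, A4, -, A9⟩ := A
  have e1 : aN s.R (uV s e j) = s.a j + e := I.ja
  have h1 := A9 (s.a j + e) (by omega) (by omega)
  refine (gd_of_kd s hB (Lr := Lr) (f_le s _) ?_ ?_).1
  · rw [show aN s.R (s.f (jV s e j)) = s.a j + e from e1]
    exact fun hh => h1.1 (hSw hh)
  · rw [show aN s.R (s.f (jV s e j)) = s.a j + e from e1]
    exact h1.2

theorem adm_P (s : St η x σ ε ρ g m B h) (hB : 1 ≤ B) {Sw : Finset ℕ} {e L1 L2 Lk Lr Kr j k : ℕ} (hKr : 0 < Kr)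
    (hLk : 2 * Kr ≤ Lk) (hSw : SwL s.R B s.Vs s.Xs Lr ⊆ Sw) (A : AdmV s 2 Sw e L1 L2 Lk j k) :
    uV s e j ∈ IdP s.R s.F B s.Vs s.Xs := by
  have I := adm_ix s hKr hLk A
  have hP := s.run.ok.pth
  obtain ⟨A1, A2, A3, A4, -, A9⟩ := A
  have e1 : aN s.R (uV s e j) = s.a j + e := I.ja
  have h1 := A9 (s.a j + e) (by omega) (by omega)
  have hz : aN s.R (uV s e j) ≤ aN s.R s.R.n := aN_mono hP (f_le s _) (by omega)
  have hS : aN s.R (uV s e j) ∉ SwL s.R B s.Vs s.Xs Lr := by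
    rw [e1]
    exact fun hh => h1.1 (hSw hh)
  have hk : s.kd (aN s.R (uV s e j)) = 2 := by
    rw [e1]
    exact h1.2
  have h3 : kd3 s.R s.Vs s.Xs (aN s.R (uV s e j)) = 2 := (H404.kd3_kd hz hS).2.1.2 ((H404.kd_cases s _).2.1.1 hk)
  exact (H336.idP s.f2 hP hB (f_le s _) h3).2.1

/-- the index is injective -/
theorem inj_u (s : St η x σ ε ρ g m B h) {c : Fin 3} {Sw : Finset ℕ} {e L1 L2 Lk Kr j j' k k' : ℕ} (hKr : 0 < Kr)
    (hLk : 2 * Kr ≤ Lk) (A : AdmV s c Sw e L1 L2 Lk j k) (A' : AdmV s c Sw e L1 L2 Lk j' k')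
    (hu : uV s e j = uV s e j') : j = j' := by
  have I := adm_ix s hKr hLk A
  have I' := adm_ix s hKr hLk A'
  have h1 : s.a (jV s e j) = s.a (jV s e j') := by
    rw [← aN_f, ← aN_f]
    show aN s.R (uV s e j) = aN s.R (uV s e j')
    rw [hu]
  rw [I.ja, I'.ja] at h1
  have h2 : s.a j = s.a j' := by omega
  rw [← A.1, ← A'.1, h2]

open Classical in
/-- **the family of all admissible pairs of kind 1** -/
theorem adm_prk (s : St η x σ ε ρ g m B h) (hB : 1 ≤ B) {Sw Cu : Finset ℕ} {e L1 L2 Lk Lr Kr : ℕ} (hKr : 0 < Kr)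
    (hLk : 2 * Kr ≤ Lk) (hSw : SwL s.R B s.Vs s.Xs Lr ⊆ Sw) (hCu : Cu ⊆ Sw) :
    Prk s.R (gdK s.R s.Vs s.Xs) Cu s.f s.N (s.R.m * Kr) L2 L1
      (((range s.N).sigma fun j => Ioc j (j + L1)).filter fun y => AdmV s 1 Sw e L1 L2 Lk y.1 y.2)
      (fun y => jV s e y.1) (fun y => wV s Kr y.2) := by
  have hP := s.run.ok.pth
  have D := s.word.sd
  have key : ∀ y : (_ : ℕ) × ℕ, y ∈ (((range s.N).sigma fun j => Ioc j (j + L1)).filter
      fun y => AdmV s 1 Sw e L1 L2 Lk y.1 y.2) → AdmV s 1 Sw e L1 L2 Lk y.1 y.2 := fun y hy => (Finset.mem_filter.1 hy).2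
  refine ⟨?_, ?_, ?_, ?_, ?_⟩
  · intro y hy
    have A := key y hy
    have I := adm_ix s hKr hLk A
    have e1 : aN s.R (s.f (jV s e y.1)) = s.a y.1 + e := I.ja
    have h1 := A.2.2.2.2.2 (s.a y.1 + e) (by omega) (by have := A.2.2.2.1; omega)
    refine (gd_of_kd s hB (Lr := Lr) (f_le s _) ?_ ?_).2
    · rw [e1]
      exact fun hh => h1.1 (hSw hh)
    · rw [e1]
      exact h1.2
  · intro y hy
    have I := adm_ix s hKr hLk (key y hy)
    have := I.jk
    have := I.kw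
    show jV s e y.1 < wV s Kr y.2
    omega
  · intro y hy
    have A := key y hy
    have I := adm_ix s hKr hLk A
    rw [a_f, a_f, I.ja, I.wa, ← Nat.mul_add]
    exact Nat.mul_le_mul_left _ (by have := A.2.2.2.1; omega)
  · intro y hy
    have A := key y hy
    have I := adm_ix s hKr hLk A
    refine ⟨wV s (2 * Kr) y.2, I.w2N.le, I.ww, ?_, ?_, ?_⟩
    · intro i hi1 hi2
      have f1 : i + 1 ≤ s.f (wV s (2 * Kr) y.2) := hi2
      have f0 : s.f (wV s (2 * Kr) y.2) ≤ s.R.n := f_le s _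
      have g1 : s.a y.1 + e ≤ aN s.R i := by
        have := aN_mono hP (i := s.f (jV s e y.1)) (j := i) hi1 (by omega)
        rw [aN_f, I.ja] at this
        exact this
      have g2 : aN s.R (i + 1) ≤ s.a y.2 + 2 * Kr := by
        have := aN_mono hP (i := i + 1) (j := s.f (wV s (2 * Kr) y.2)) f1 (by omega)
        rw [aN_f, I.w2a] at this
        exact this
      have g3 : aN s.R i ≤ aN s.R (i + 1) := aN_mono hP (Nat.le_succ i) (by omega)
      have h1 := A.2.2.2.2.2 (aN s.R i) (by omega) (by omega)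
      have h2 := A.2.2.2.2.2 (aN s.R (i + 1)) (by omega) (by omega)
      refine ⟨(gd_of_kd s hB (Lr := Lr) (by omega) (fun hh => h1.1 (hSw hh)) h1.2).2,
        (gd_of_kd s hB (Lr := Lr) (by omega) (fun hh => h2.1 (hSw hh)) h2.2).2, Or.inr fun hh => h1.1 (hCu hh)⟩
    · rw [a_f, a_f, I.wa, I.w2a, ← Nat.mul_add]
      exact Nat.mul_le_mul_left _ (by omega)
    · have := I.w2L
      have := I.jj
      omega
  · intro i
    refine card_u (P := AdmV s 1 Sw e L1 L2 Lk) (s := jV s e) ?_ i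
    intro j j' k k' A A' hjj
    refine inj_u s hKr hLk A A' ?_
    show s.f (jV s e j) = s.f (jV s e j')
    rw [hjj]

end

end Vale.Agent.P106.U.H652.SE
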