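import Mathlib

/-!
# P106 / U / H652 : [AVG] from the sums of the errors over steps and caps to one cap (helper652)

Real arrays only.  Error of the step `j` at one cap (helper833's note 19203):
`c0 + c m coll j + A ∑_{k ∈ (j, j+L]} (√(I1 j k) + √(I2 j k)) + x m 1[j ∈ X]`.

* `err_le` : the sum over the steps (Cauchy-Schwarz over the pairs `(j, k)`).
* `avg_par` : constants: `κ, e` (relative, before `m`) for the collisions and the exceptional steps, then `m`, then `φ0`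
  for `∑ I2`, `h0`.
* `maj` : the scale `s b` depends on the cap: majority value on a set of caps.
* `avg_phi` : the quantity `φ b` (F2 information + mixed steps) for helper715's `caps` / `pair_gd`, and its sum over caps.
-/

set_option autoImplicit false

namespace Vale.Agent.P106.U.H652

open Finset

/-- Cauchy-Schwarz over pairs -/
theorem sqrt_pairs (n L : ℕ) {I : ℕ → ℕ → ℝ} (hI : ∀ j k, 0 ≤ I j k) :
    ∑ j ∈ range n, ∑ k ∈ Ioc j (j + L), Real.sqrt (I j k) ≤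
      Real.sqrt ((n : ℝ) * L * ∑ j ∈ range n, ∑ k ∈ Ioc j (j + L), I j k) := by
  have h1 : ∑ j ∈ range n, ∑ k ∈ Ioc j (j + L), Real.sqrt (I j k) =
      ∑ x ∈ (range n).sigma fun j => Ioc j (j + L), Real.sqrt (I x.1 x.2) := by
    rw [Finset.sum_sigma]
  have h2 : ∑ j ∈ range n, ∑ k ∈ Ioc j (j + L), I j k =
      ∑ x ∈ (range n).sigma fun j => Ioc j (j + L), I x.1 x.2 := by
    rw [Finset.sum_sigma]
  have hc : (((range n).sigma fun j => Ioc j (j + L)).card : ℝ) = (n : ℝ) * L := by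
    rw [Finset.card_sigma]
    simp [Nat.card_Ioc]
  rw [h1, h2, ← hc]
  refine Real.le_sqrt_of_sq_le ?_
  refine (sq_sum_le_card_mul_sum_sq).trans (le_of_eq ?_)
  congr 1
  refine Finset.sum_congr rfl fun x _ => ?_
  exact Real.sq_sqrt (hI _ _)

/-- the error of a step -/
noncomputable def err1 (c0 c m A x : ℝ) (L : ℕ) (coll : ℕ → ℝ) (I1 I2 : ℕ → ℕ → ℝ) (X : Finset ℕ) (j : ℕ) : ℝ :=
  c0 + c * m * coll j + A * ∑ k ∈ Ioc j (j + L), (Real.sqrt (I1 j k) + Real.sqrt (I2 j k)) +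
    x * m * (if j ∈ X then 1 else 0)

theorem err1_nonneg {c0 c m A x : ℝ} (h0 : 0 ≤ c0) (hc : 0 ≤ c) (hm : 0 ≤ m) (hA : 0 ≤ A) (hx : 0 ≤ x) {L : ℕ}
    {coll : ℕ → ℝ} {I1 I2 : ℕ → ℕ → ℝ} {X : Finset ℕ} (hcoll : ∀ j, 0 ≤ coll j) (j : ℕ) :
    0 ≤ err1 c0 c m A x L coll I1 I2 X j := by
  unfold err1
  have h1 : 0 ≤ ∑ k ∈ Ioc j (j + L), (Real.sqrt (I1 j k) + Real.sqrt (I2 j k)) :=
    Finset.sum_nonneg fun _ _ => by positivity
  have h2 := hcoll j
  have h3 : (0 : ℝ) ≤ if j ∈ X then 1 else 0 := by split_ifs <;> norm_num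
  positivity

theorem err_le {c0 c m A x : ℝ} (hA : 0 ≤ A) (hxm : 0 ≤ x * m) (n L : ℕ) (coll : ℕ → ℝ) {I1 I2 : ℕ → ℕ → ℝ}
    (h1 : ∀ j k, 0 ≤ I1 j k) (h2 : ∀ j k, 0 ≤ I2 j k) (X : Finset ℕ) :
    ∑ j ∈ range n, err1 c0 c m A x L coll I1 I2 X j ≤
      c0 * n + c * m * ∑ j ∈ range n, coll j +
      A * (Real.sqrt ((n : ℝ) * L * ∑ j ∈ range n, ∑ k ∈ Ioc j (j + L), I1 j k) +
        Real.sqrt ((n : ℝ) * L * ∑ j ∈ range n, ∑ k ∈ Ioc j (j + L), I2 j k)) + x * m * X.card := by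
  have e1 := sqrt_pairs n L h1
  have e2 := sqrt_pairs n L h2
  have e3 : ∑ j ∈ range n, (if j ∈ X then (1 : ℝ) else 0) ≤ X.card := by
    rw [Finset.sum_boole]
    have : ((range n).filter fun j => j ∈ X) ⊆ X := fun j hj => (Finset.mem_filter.1 hj).2
    exact_mod_cast Finset.card_le_card this
  unfold err1
  rw [Finset.sum_add_distrib, Finset.sum_add_distrib, Finset.sum_add_distrib, ← Finset.mul_sum, ← Finset.mul_sum,
    ← Finset.mul_sum, Finset.sum_const, card_range, nsmul_eq_mul]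
  have e4 : ∑ j ∈ range n, ∑ k ∈ Ioc j (j + L), (Real.sqrt (I1 j k) + Real.sqrt (I2 j k)) =
      ∑ j ∈ range n, ∑ k ∈ Ioc j (j + L), Real.sqrt (I1 j k) +
        ∑ j ∈ range n, ∑ k ∈ Ioc j (j + L), Real.sqrt (I2 j k) := by
    rw [← Finset.sum_add_distrib]
    exact Finset.sum_congr rfl fun j _ => Finset.sum_add_distrib
  have e5 : A * ∑ j ∈ range n, ∑ k ∈ Ioc j (j + L), (Real.sqrt (I1 j k) + Real.sqrt (I2 j k)) ≤
      A * (Real.sqrt ((n : ℝ) * L * ∑ j ∈ range n, ∑ k ∈ Ioc j (j + L), I1 j k) +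
        Real.sqrt ((n : ℝ) * L * ∑ j ∈ range n, ∑ k ∈ Ioc j (j + L), I2 j k)) := by
    refine mul_le_mul_of_nonneg_left ?_ hA
    rw [e4]
    exact add_le_add e1 e2
  have e6 := mul_le_mul_of_nonneg_left e3 hxm
  have e7 : (n : ℝ) * c0 = c0 * n := mul_comm _ _
  rw [e7]
  linarith

/-- **constants** of the errors of the steps -/
theorem avg_par {K τ c x : ℝ} (hK : 0 < K) (hτ : 0 < τ) (hc : 0 ≤ c) (hx : 0 ≤ x) :
    ∃ κ e : ℝ, 0 < κ ∧ 0 < e ∧ ∀ c0 : ℝ, 0 ≤ c0 → ∃ m0 : ℝ, 1 ≤ m0 ∧ ∀ m : ℝ, m0 ≤ m →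
      ∀ (L : ℕ) (A X1 : ℝ), 0 ≤ A → 0 ≤ X1 → ∃ φ0 h0 : ℝ, 0 < φ0 ∧ 0 < h0 ∧ ∀ h : ℝ, h0 ≤ h → ∀ n : ℕ, m * n ≤ K * h →
        ∀ (coll : ℕ → ℝ) (I1 I2 : ℕ → ℕ → ℝ) (X : Finset ℕ), (∀ j k, 0 ≤ I1 j k) → (∀ j k, 0 ≤ I2 j k) →
          m * ∑ j ∈ range n, coll j ≤ κ * h → ∑ j ∈ range n, ∑ k ∈ Ioc j (j + L), I1 j k ≤ X1 →
          ∑ j ∈ range n, ∑ k ∈ Ioc j (j + L), I2 j k ≤ φ0 * h → m * X.card ≤ e * h →
          ∑ j ∈ range n, err1 c0 c m A x L coll I1 I2 X j ≤ τ * h := by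
  set u : ℝ := τ / 5 with hu
  have hu0 : 0 < u := by positivity
  refine ⟨u / (c + 1), u / (x + 1), by positivity, by positivity, ?_⟩
  intro c0 hc0
  refine ⟨max 1 (c0 * K / u), le_max_left _ _, ?_⟩
  intro m hm L A X1 hA hX1
  have hm1 : 1 ≤ m := (le_max_left _ _).trans hm
  have hm0 : 0 < m := by linarith
  have hmc : c0 * K / u ≤ m := (le_max_right _ _).trans hm
  refine ⟨u ^ 2 / (A ^ 2 * K * L + 1), A ^ 2 * K * L * X1 / u ^ 2 + 1, by positivity, by positivity, ?_⟩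
  intro h hh n hn coll I1 I2 X h1 h2 hcoll hI1 hI2 hX
  have hq0 : 0 ≤ A ^ 2 * K * L * X1 / u ^ 2 := by positivity
  have hh0 : 0 < h := by linarith
  have hn0 : (0 : ℝ) ≤ n := Nat.cast_nonneg _
  have hL0 : (0 : ℝ) ≤ L := Nat.cast_nonneg _
  have hnK : (n : ℝ) ≤ K * h := by nlinarith
  refine (err_le hA (by positivity) n L coll h1 h2 X).trans ?_
  -- the five terms
  have t1 : c0 * n ≤ u * h := by
    rw [div_le_iff₀ hu0] at hmc
    have g1 : c0 * K * n ≤ m * u * n := mul_le_mul_of_nonneg_right hmc hn0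
    have g2 : u * (m * n) ≤ u * (K * h) := mul_le_mul_of_nonneg_left hn hu0.le
    have g3 : K * (c0 * n) ≤ K * (u * h) := by linarith
    exact le_of_mul_le_mul_left g3 hK
  have t2 : c * m * ∑ j ∈ range n, coll j ≤ u * h := by
    have g1 : c * (m * ∑ j ∈ range n, coll j) ≤ c * (u / (c + 1) * h) := mul_le_mul_of_nonneg_left hcoll hc
    have g2 : c * (u / (c + 1) * h) ≤ (c + 1) * (u / (c + 1) * h) :=
      mul_le_mul_of_nonneg_right (by linarith) (by positivity)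
    have g3 : (c + 1) * (u / (c + 1) * h) = u * h := by
      field_simp
    have g4 : c * m * ∑ j ∈ range n, coll j = c * (m * ∑ j ∈ range n, coll j) := by ring
    linarith
  have t3 : x * m * X.card ≤ u * h := by
    have g1 : x * (m * X.card) ≤ x * (u / (x + 1) * h) := mul_le_mul_of_nonneg_left hX hx
    have g2 : x * (u / (x + 1) * h) ≤ (x + 1) * (u / (x + 1) * h) :=
      mul_le_mul_of_nonneg_right (by linarith) (by positivity)
    have g3 : (x + 1) * (u / (x + 1) * h) = u * h := by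
      field_simp
    have g4 : x * m * (X.card : ℝ) = x * (m * X.card) := by ring
    linarith
  have hsq : ∀ Y : ℝ, 0 ≤ Y → A ^ 2 * (K * h * L * Y) ≤ (u * h) ^ 2 →
      A * Real.sqrt (n * L * Y) ≤ u * h := by
    intro Y hY hle
    have g1 : Real.sqrt (n * L * Y) ≤ Real.sqrt (K * h * L * Y) :=
      Real.sqrt_le_sqrt (mul_le_mul_of_nonneg_right (mul_le_mul_of_nonneg_right hnK hL0) hY)
    have g2 : A * Real.sqrt (K * h * L * Y) ≤ u * h := by
      refine abs_le_of_sq_le_sq' ?_ (by positivity) |>.2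
      rw [mul_pow, Real.sq_sqrt (by positivity)]
      exact hle
    exact (mul_le_mul_of_nonneg_left g1 hA).trans g2
  have s1 : 0 ≤ ∑ j ∈ range n, ∑ k ∈ Ioc j (j + L), I1 j k :=
    Finset.sum_nonneg fun j _ => Finset.sum_nonneg fun k _ => h1 j k
  have s2 : 0 ≤ ∑ j ∈ range n, ∑ k ∈ Ioc j (j + L), I2 j k :=
    Finset.sum_nonneg fun j _ => Finset.sum_nonneg fun k _ => h2 j k
  have t4 : A * Real.sqrt ((n : ℝ) * L * ∑ j ∈ range n, ∑ k ∈ Ioc j (j + L), I1 j k) ≤ u * h := by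
    refine hsq _ s1 ?_
    have g1 : A ^ 2 * K * L * X1 ≤ u ^ 2 * h := by
      have : A ^ 2 * K * L * X1 / u ^ 2 ≤ h := by linarith
      rw [div_le_iff₀ (by positivity)] at this
      linarith
    have g2 : A ^ 2 * (K * h * L * ∑ j ∈ range n, ∑ k ∈ Ioc j (j + L), I1 j k) ≤
        A ^ 2 * (K * h * L * X1) :=
      mul_le_mul_of_nonneg_left (mul_le_mul_of_nonneg_left hI1 (by positivity)) (by positivity)
    have g3 : A ^ 2 * (K * h * L * X1) = (A ^ 2 * K * L * X1) * h := by ring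
    have g4 := mul_le_mul_of_nonneg_right g1 hh0.le
    have g5 : u ^ 2 * h * h = (u * h) ^ 2 := by ring
    linarith
  have t5 : A * Real.sqrt ((n : ℝ) * L * ∑ j ∈ range n, ∑ k ∈ Ioc j (j + L), I2 j k) ≤ u * h := by
    refine hsq _ s2 ?_
    have g2 : A ^ 2 * (K * h * L * ∑ j ∈ range n, ∑ k ∈ Ioc j (j + L), I2 j k) ≤
        A ^ 2 * (K * h * L * (u ^ 2 / (A ^ 2 * K * L + 1) * h)) :=
      mul_le_mul_of_nonneg_left (mul_le_mul_of_nonneg_left hI2 (by positivity)) (by positivity)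
    have g3 : A ^ 2 * (K * h * L * (u ^ 2 / (A ^ 2 * K * L + 1) * h)) =
        (A ^ 2 * K * L / (A ^ 2 * K * L + 1)) * (u * h) ^ 2 := by
      field_simp
    have g4 : A ^ 2 * K * L / (A ^ 2 * K * L + 1) ≤ 1 := by
      rw [div_le_one (by positivity)]
      linarith
    have g5 : (A ^ 2 * K * L / (A ^ 2 * K * L + 1)) * (u * h) ^ 2 ≤ 1 * (u * h) ^ 2 :=
      mul_le_mul_of_nonneg_right g4 (by positivity)
    linarith
  have hfin : 5 * (u * h) = τ * h := by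
    rw [hu]
    ring
  linarith

/-- **majority** : the scale depends on the cap -/
theorem maj {p N0 : ℕ} {G : Finset ℕ} {s : ℕ → ℕ} (hp : 0 < p) (hs : ∀ b ∈ G, s b < p)
    (hG : p * N0 ≤ G.card) : ∃ s0 < p, N0 ≤ (G.filter fun b => s b = s0).card := by
  have hmaps : ∀ b ∈ G, s b ∈ range p := fun b hb => Finset.mem_range.2 (hs b hb)
  have hne : (range p).Nonempty := ⟨0, Finset.mem_range.2 hp⟩
  obtain ⟨y, hy, hy'⟩ := Finset.exists_le_card_fiber_of_mul_le_card_of_maps_to hmaps hne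
    (by rw [card_range]; exact hG)
  exact ⟨y, Finset.mem_range.1 hy, hy'⟩

/-- the quantity which is summed over the caps: F2 information and mixed steps -/
noncomputable def phi (φ0 e m h : ℝ) (n L : ℕ) (I2 : ℕ → ℕ → ℕ → ℝ) (mix : ℕ → Finset ℕ) (b : ℕ) : ℝ :=
  (∑ j ∈ range n, ∑ k ∈ Ioc j (j + L), I2 b j k) / (φ0 * h) + m * (mix b).card / (e * h)

theorem phi_nonneg {φ0 e m h : ℝ} (h1 : 0 < φ0) (h2 : 0 < e) (h3 : 0 ≤ m) (h4 : 0 < h) {n L : ℕ} {I2 : ℕ → ℕ → ℕ → ℝ}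
    (hI : ∀ b j k, 0 ≤ I2 b j k) (mix : ℕ → Finset ℕ) (b : ℕ) : 0 ≤ phi φ0 e m h n L I2 mix b := by
  unfold phi
  have h5 : 0 ≤ ∑ j ∈ range n, ∑ k ∈ Ioc j (j + L), I2 b j k :=
    Finset.sum_nonneg fun _ _ => Finset.sum_nonneg fun _ _ => hI _ _ _
  positivity

/-- a cap with `φ b ≤ 1` -/
theorem phi_le {φ0 e m h : ℝ} (h1 : 0 < φ0) (h2 : 0 < e) (h3 : 0 ≤ m) (h4 : 0 < h) {n L : ℕ}
    {I2 : ℕ → ℕ → ℕ → ℝ} (hI : ∀ b j k, 0 ≤ I2 b j k) (mix : ℕ → Finset ℕ) {b : ℕ}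
    (hb : phi φ0 e m h n L I2 mix b ≤ 1) :
    ∑ j ∈ range n, ∑ k ∈ Ioc j (j + L), I2 b j k ≤ φ0 * h ∧ m * (mix b).card ≤ e * h := by
  have h5 : 0 ≤ ∑ j ∈ range n, ∑ k ∈ Ioc j (j + L), I2 b j k :=
    Finset.sum_nonneg fun _ _ => Finset.sum_nonneg fun _ _ => hI _ _ _
  have h6 : 0 ≤ m * ((mix b).card : ℝ) / (e * h) := by positivity
  have h7 : 0 ≤ (∑ j ∈ range n, ∑ k ∈ Ioc j (j + L), I2 b j k) / (φ0 * h) := by positivity
  unfold phi at hb
  constructor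
  · have : (∑ j ∈ range n, ∑ k ∈ Ioc j (j + L), I2 b j k) / (φ0 * h) ≤ 1 := by linarith
    rwa [div_le_one (by positivity)] at this
  · have : m * ((mix b).card : ℝ) / (e * h) ≤ 1 := by linarith
    rwa [div_le_one (by positivity)] at this

/-- the sum over the caps : `X2` bounds the sum of `I2` over the caps for one pair of steps, `Cx` the number of caps for which
one step is mixed -/
theorem phi_sum {K φ0 e m h : ℝ} (h1 : 0 < φ0) (h2 : 0 < e) (h3 : 1 ≤ m) (h4 : 0 < h) {n L Cx : ℕ} {X2 : ℝ}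
    (hX2 : 0 ≤ X2) (hn : m * n ≤ K * h) {I2 : ℕ → ℕ → ℕ → ℝ} {mix : ℕ → Finset ℕ} {G : Finset ℕ}
    (hI : ∀ j < n, ∀ k, ∑ b ∈ G, I2 b j k ≤ X2) (hmix : ∀ b ∈ G, mix b ⊆ range n)
    (hCx : ∀ j < n, (G.filter fun b => j ∈ mix b).card ≤ Cx) :
    ∑ b ∈ G, phi φ0 e m h n L I2 mix b ≤ K * L * X2 / φ0 + K * Cx / e := by
  classical
  have hm0 : 0 < m := by linarith
  have hL0 : (0 : ℝ) ≤ L := Nat.cast_nonneg _
  have hn0 : (0 : ℝ) ≤ n := Nat.cast_nonneg _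
  have hnK : (n : ℝ) ≤ K * h := by nlinarith
  unfold phi
  rw [Finset.sum_add_distrib, ← Finset.sum_div, ← Finset.sum_div]
  have e1 : ∑ b ∈ G, ∑ j ∈ range n, ∑ k ∈ Ioc j (j + L), I2 b j k ≤ n * (L * X2) := by
    rw [Finset.sum_comm]
    have g1 : ∀ j ∈ range n, ∑ b ∈ G, ∑ k ∈ Ioc j (j + L), I2 b j k ≤ L * X2 := by
      intro j hj
      rw [Finset.sum_comm]
      refine (Finset.sum_le_card_nsmul _ _ X2 fun k _ => hI j (Finset.mem_range.1 hj) k).trans ?_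
      rw [Nat.card_Ioc, nsmul_eq_mul]
      have : ((j + L - j : ℕ) : ℝ) = L := by
        rw [Nat.add_sub_cancel_left]
      rw [this]
    refine (Finset.sum_le_card_nsmul _ _ _ g1).trans ?_
    rw [card_range, nsmul_eq_mul]
  have e2 : ∑ b ∈ G, m * ((mix b).card : ℝ) ≤ m * (n * Cx) := by
    rw [← Finset.mul_sum]
    refine mul_le_mul_of_nonneg_left ?_ hm0.le
    have g1 : ∑ b ∈ G, (mix b).card = ∑ j ∈ range n, (G.filter fun b => j ∈ mix b).card := by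
      have g2 : ∀ b ∈ G, (mix b).card = ∑ j ∈ range n, if j ∈ mix b then 1 else 0 := by
        intro b hb
        rw [Finset.sum_boole, Nat.cast_id]
        congr 1
        ext j
        rw [Finset.mem_filter]
        exact ⟨fun h => ⟨hmix b hb h, h⟩, fun h => h.2⟩
      rw [Finset.sum_congr rfl g2, Finset.sum_comm]
      refine Finset.sum_congr rfl fun j _ => ?_
      rw [Finset.sum_boole, Nat.cast_id]
    have g3 : ∑ j ∈ range n, (G.filter fun b => j ∈ mix b).card ≤ n * Cx := by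
      refine (Finset.sum_le_card_nsmul _ _ Cx fun j hj => hCx j (Finset.mem_range.1 hj)).trans ?_
      rw [card_range, smul_eq_mul]
    have g4 : ∑ b ∈ G, (mix b).card ≤ n * Cx := by rw [g1]; exact g3
    exact_mod_cast g4
  have e3 : (∑ b ∈ G, ∑ j ∈ range n, ∑ k ∈ Ioc j (j + L), I2 b j k) / (φ0 * h) ≤ K * L * X2 / φ0 := by
    rw [div_le_div_iff₀ (by positivity) h1]
    have g1 : (n : ℝ) * (L * X2) ≤ K * h * (L * X2) := mul_le_mul_of_nonneg_right hnK (by positivity)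
    have g2 := mul_le_mul_of_nonneg_right (e1.trans g1) h1.le
    linarith
  have e4 : (∑ b ∈ G, m * ((mix b).card : ℝ)) / (e * h) ≤ K * Cx / e := by
    rw [div_le_div_iff₀ (by positivity) h2]
    have g1 : m * n * (Cx : ℝ) ≤ K * h * Cx := mul_le_mul_of_nonneg_right hn (Nat.cast_nonneg _)
    have g2 : ∑ b ∈ G, m * ((mix b).card : ℝ) ≤ K * h * Cx := by
      refine e2.trans ?_
      linarith
    have g3 := mul_le_mul_of_nonneg_right g2 h2.le
    linarith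
  linarith

end Vale.Agent.P106.U.H652
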