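import Vale.Agent.P106.U.H652.Avg

/-!
# P106 / U / H652 : [CHO] choice of one cap (helper652)

For every cap `x ∈ G` helper833's `mic_par` gives a scale `s x < p`.  All the error arrays are given for ALL scales `σ < p`
and all caps of `G`; kinds of errors `q : Fin Q` (light steps, `(V,Z)`-steps, …).  One cap `x ∈ G` is good for all
kinds at its own scale `s x`.

* `one` : `∑_{x ∈ G} Φ σ x ≤ Y` for every `σ < p`, `p Y ≤ #G` ⟹ one `x ∈ G` with `Φ (s x) x ≤ 1`.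
* `cho_par` : the constants and the choice for the literal errors `err1` of `Avg.lean` and an abstract error `err2`.
-/

set_option autoImplicit false

namespace Vale.Agent.P106.U.H652

open Finset

/-- averaging over the caps, the scale depends on the cap -/
theorem one {p : ℕ} {G : Finset ℕ} (hG : G.Nonempty) {s : ℕ → ℕ} (hs : ∀ x ∈ G, s x < p) {Φ : ℕ → ℕ → ℝ}
    (h0 : ∀ σ < p, ∀ x ∈ G, 0 ≤ Φ σ x) {Y : ℝ} (hY : ∀ σ < p, ∑ x ∈ G, Φ σ x ≤ Y)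
    (hc : p * Y ≤ G.card) : ∃ x ∈ G, Φ (s x) x ≤ 1 := by
  by_contra hcon
  push Not at hcon
  have h1 : (G.card : ℝ) < ∑ x ∈ G, Φ (s x) x := by
    have := Finset.sum_lt_sum_of_nonempty hG hcon
    rwa [Finset.sum_const, nsmul_eq_mul, mul_one] at this
  have h2 : ∑ x ∈ G, Φ (s x) x ≤ ∑ x ∈ G, ∑ σ ∈ range p, Φ σ x := by
    refine Finset.sum_le_sum fun x hx => ?_
    exact Finset.single_le_sum (f := fun σ => Φ σ x) (fun σ hσ => h0 σ (Finset.mem_range.1 hσ) x hx)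
      (Finset.mem_range.2 (hs x hx))
  have h3 : ∑ x ∈ G, ∑ σ ∈ range p, Φ σ x ≤ p * Y := by
    rw [Finset.sum_comm]
    refine (Finset.sum_le_card_nsmul _ _ Y fun σ hσ => hY σ (Finset.mem_range.1 hσ)).trans ?_
    rw [card_range, nsmul_eq_mul]
  linarith

/-- a common positive lower bound -/
theorem low_ex {Q : ℕ} {f : Fin Q → ℝ} (hf : ∀ q, 0 < f q) : ∃ κ : ℝ, 0 < κ ∧ ∀ q, κ ≤ f q := by
  have h1 : ∀ q, 0 ≤ 1 / f q := fun q => by have := hf q; positivity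
  have h2 : 0 < 1 + ∑ q, 1 / f q := by
    have := Finset.sum_nonneg fun q (_ : q ∈ Finset.univ) => h1 q
    linarith
  refine ⟨1 / (1 + ∑ q, 1 / f q), by positivity, fun q => ?_⟩
  have h3 : 1 / f q ≤ ∑ q, 1 / f q :=
    Finset.single_le_sum (f := fun q => 1 / f q) (fun q _ => h1 q) (Finset.mem_univ q)
  have h4 := hf q
  rw [div_le_iff₀ h2]
  have h5 : f q * (1 / f q) = 1 := by field_simp
  have h6 := mul_le_mul_of_nonneg_left h3 h4.le
  nlinarith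

/-- a common upper bound -/
theorem upp_ex {Q : ℕ} (f : Fin Q → ℝ) : ∃ κ : ℝ, 1 ≤ κ ∧ ∀ q, f q ≤ κ := by
  refine ⟨1 + ∑ q, |f q|, ?_, fun q => ?_⟩
  · have := Finset.sum_nonneg fun q (_ : q ∈ Finset.univ) => abs_nonneg (f q)
    linarith
  · have h3 : |f q| ≤ ∑ q, |f q| :=
      Finset.single_le_sum (f := fun q => |f q|) (fun q _ => abs_nonneg (f q)) (Finset.mem_univ q)
    have := le_abs_self (f q)
    linarith

theorem low_ex2 {Q p : ℕ} {f : Fin Q → ℕ → ℝ} (hf : ∀ q σ, 0 < f q σ) : ∃ κ : ℝ, 0 < κ ∧ ∀ q, ∀ σ < p, κ ≤ f q σ := by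
  have h1 : ∀ q, ∃ κ : ℝ, 0 < κ ∧ ∀ σ < p, κ ≤ f q σ := by
    intro q
    obtain ⟨κ, h2, h3⟩ := low_ex (Q := p) (f := fun σ => f q σ) fun σ => hf q σ
    exact ⟨κ, h2, fun σ hσ => h3 ⟨σ, hσ⟩⟩
  choose κ h2 h3 using h1
  obtain ⟨κ', h4, h5⟩ := low_ex h2
  exact ⟨κ', h4, fun q σ hσ => (h5 q).trans (h3 q σ hσ)⟩

theorem upp_ex2 {Q p : ℕ} (f : Fin Q → ℕ → ℝ) : ∃ κ : ℝ, 1 ≤ κ ∧ ∀ q, ∀ σ < p, f q σ ≤ κ := by
  have h1 : ∀ q, ∃ κ : ℝ, 1 ≤ κ ∧ ∀ σ < p, f q σ ≤ κ := by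
    intro q
    obtain ⟨κ, h2, h3⟩ := upp_ex (Q := p) fun σ => f q σ
    exact ⟨κ, h2, fun σ hσ => h3 ⟨σ, hσ⟩⟩
  choose κ h2 h3 using h1
  obtain ⟨κ', h4, h5⟩ := upp_ex κ
  exact ⟨κ', h4, fun q σ hσ => (h3 q σ hσ).trans (h5 q)⟩

/-- total of `I2` from a bound for each pair of steps -/
theorem tot_of {K m h : ℝ} (hm : 1 ≤ m) {n L : ℕ} {X2 : ℝ} (hX2 : 0 ≤ X2) (hn : m * n ≤ K * h)
    {I2 : ℕ → ℕ → ℕ → ℝ} {G : Finset ℕ} (hI : ∀ j < n, ∀ k, ∑ b ∈ G, I2 b j k ≤ X2) :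
    ∑ b ∈ G, ∑ j ∈ range n, ∑ k ∈ Ioc j (j + L), I2 b j k ≤ K * L * X2 * h := by
  have hn0 : (0 : ℝ) ≤ n := Nat.cast_nonneg _
  have hL0 : (0 : ℝ) ≤ L := Nat.cast_nonneg _
  have hnK : (n : ℝ) ≤ K * h := by nlinarith
  rw [Finset.sum_comm]
  have g1 : ∀ j ∈ range n, ∑ b ∈ G, ∑ k ∈ Ioc j (j + L), I2 b j k ≤ L * X2 := by
    intro j hj
    rw [Finset.sum_comm]
    refine (Finset.sum_le_card_nsmul _ _ X2 fun k _ => hI j (Finset.mem_range.1 hj) k).trans ?_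
    rw [Nat.card_Ioc, nsmul_eq_mul, Nat.add_sub_cancel_left]
  refine (Finset.sum_le_card_nsmul _ _ _ g1).trans ?_
  rw [card_range, nsmul_eq_mul]
  have g2 : (n : ℝ) * (L * X2) ≤ K * h * (L * X2) := mul_le_mul_of_nonneg_right hnK (by positivity)
  linarith

/-- total of the mixed steps from a bound for each step -/
theorem mix_of {K m h : ℝ} (hm : 0 ≤ m) {n Cx : ℕ} (hn : m * n ≤ K * h) {mix : ℕ → Finset ℕ} {G : Finset ℕ}
    (hmix : ∀ b ∈ G, mix b ⊆ range n) (hCx : ∀ j < n, (G.filter fun b => j ∈ mix b).card ≤ Cx) :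
    m * ∑ b ∈ G, ((mix b).card : ℝ) ≤ K * Cx * h := by
  classical
  have g1 : ∑ b ∈ G, (mix b).card = ∑ j ∈ range n, (G.filter fun b => j ∈ mix b).card := by
    have g2 : ∀ b ∈ G, (mix b).card = ∑ j ∈ range n, if j ∈ mix b then 1 else 0 := by
      intro b hb
      rw [Finset.sum_boole, Nat.cast_id]
      congr 1
      ext j
      rw [Finset.mem_filter]
      exact ⟨fun h => ⟨hmix b hb h, h⟩, fun h => h.2⟩
    rw [Finset.sum_congr rfl g2, Finset.sum_comm]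
    refine Finset.sum_congr rfl fun j _ => ?_
    rw [Finset.sum_boole, Nat.cast_id]
  have g3 : ∑ j ∈ range n, (G.filter fun b => j ∈ mix b).card ≤ n * Cx := by
    refine (Finset.sum_le_card_nsmul _ _ Cx fun j hj => hCx j (Finset.mem_range.1 hj)).trans ?_
    rw [card_range, smul_eq_mul]
  have g4 : ∑ b ∈ G, (mix b).card ≤ n * Cx := by rw [g1]; exact g3
  have g5 : ∑ b ∈ G, ((mix b).card : ℝ) ≤ n * Cx := by exact_mod_cast g4
  have g6 : m * n * (Cx : ℝ) ≤ K * h * Cx := mul_le_mul_of_nonneg_right hn (Nat.cast_nonneg _)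
  have g7 := mul_le_mul_of_nonneg_left g5 hm
  linarith

/-- **choice of one cap**.  Relative constants `κ, e, e2` first; `ρ, N0, h0` after `m` and the windows. -/
theorem cho_par {Q p : ℕ} (hp : 0 < p) {K : ℝ} (hK : 0 < K) {τ c x : Fin Q → ℝ} (hτ : ∀ q, 0 < τ q)
    (hc : ∀ q, 0 ≤ c q) (hx : ∀ q, 0 ≤ x q) :
    ∃ κ e e2 : ℝ, 0 < κ ∧ 0 < e ∧ 0 < e2 ∧ ∀ c0 : Fin Q → ℝ, (∀ q, 0 ≤ c0 q) → ∃ m0 : ℝ, 1 ≤ m0 ∧
      ∀ m : ℝ, m0 ≤ m → ∀ (L : Fin Q → ℕ → ℕ) (A : Fin Q → ℕ → ℝ), (∀ q σ, 0 ≤ A q σ) →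
      ∀ X1 : Fin Q → ℕ → ℝ, (∀ q σ, 0 ≤ X1 q σ) → ∃ ρ : ℝ, 0 < ρ ∧ ∀ X2 Cx X3 : Fin Q → ℕ → ℝ,
      ∃ (N0 : ℕ) (h0 : ℝ), 0 < h0 ∧ ∀ h : ℝ, h0 ≤ h → ∀ n : ℕ, m * n ≤ K * h → ∀ G : Finset ℕ, N0 ≤ G.card →
        ∀ s : ℕ → ℕ, (∀ y ∈ G, s y < p) →
        ∀ (coll : Fin Q → ℕ → ℕ → ℕ → ℝ) (I1 I2 : Fin Q → ℕ → ℕ → ℕ → ℕ → ℝ) (Xe mix : Fin Q → ℕ → ℕ → Finset ℕ)
          (err2 : Fin Q → ℕ → ℕ → ℝ),
          (∀ q σ y j k, 0 ≤ I1 q σ y j k) → (∀ q σ y j k, 0 ≤ I2 q σ y j k) → (∀ q σ y, 0 ≤ err2 q σ y) →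
          (∀ q, ∀ σ < p, ∀ y ∈ G, m * ∑ j ∈ range n, coll q σ y j ≤ κ * h) →
          (∀ q, ∀ σ < p, ∀ y ∈ G, ∑ j ∈ range n, ∑ k ∈ Ioc j (j + L q σ), I1 q σ y j k ≤ X1 q σ) →
          (∀ q, ∀ σ < p, ∑ y ∈ G, ∑ j ∈ range n, ∑ k ∈ Ioc j (j + L q σ), I2 q σ y j k ≤
            (X2 q σ + ρ * G.card) * h) →
          (∀ q, ∀ σ < p, ∀ y ∈ G, m * (Xe q σ y).card ≤ e * h) →
          (∀ q, ∀ σ < p, m * ∑ y ∈ G, ((mix q σ y).card : ℝ) ≤ (Cx q σ + e2 * G.card) * h) →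
          (∀ q, ∀ σ < p, ∑ y ∈ G, err2 q σ y ≤ (X3 q σ + e2 * G.card) * h) →
          ∃ y ∈ G, ∀ q, ∑ j ∈ range n, err1 (c0 q) (c q) m (A q (s y)) (x q) (L q (s y)) (coll q (s y) y)
            (I1 q (s y) y) (I2 q (s y) y) (Xe q (s y) y ∪ mix q (s y) y) j + err2 q (s y) y ≤ τ q * h := by
  classical
  have hpar := fun q => avg_par (K := K) (τ := τ q / 2) (c := c q) (x := x q) hK (by have := hτ q; positivity)
    (hc q) (hx q)
  choose κ0 e0 hκ0 he0 H using hpar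
  obtain ⟨κ, hκ, hκ'⟩ := low_ex hκ0
  obtain ⟨e, he, he'⟩ := low_ex he0
  obtain ⟨τ0, hτ0, hτ0'⟩ := low_ex hτ
  have hpr : (0 : ℝ) < p := by exact_mod_cast hp
  have hQp : (0 : ℝ) ≤ Q := Nat.cast_nonneg _
  set D : ℝ := 8 * p * (Q + 1) with hD
  have hD0 : 0 < D := by positivity
  refine ⟨κ, e / 2, min (e / 2) (τ0 / 2) / D, hκ, by positivity, by positivity, ?_⟩
  have m1 : min (e / 2) (τ0 / 2) ≤ e / 2 := min_le_left _ _
  have m2 : min (e / 2) (τ0 / 2) ≤ τ0 / 2 := min_le_right _ _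
  set e2 : ℝ := min (e / 2) (τ0 / 2) / D with he2
  have he2a : e2 / (e / 2) ≤ 1 / D := by
    rw [div_le_div_iff₀ (by positivity) hD0, he2, div_mul_cancel₀ _ hD0.ne', one_mul]
    exact m1
  have he2b : e2 * (2 / τ0) ≤ 1 / D := by
    have : e2 * (2 / τ0) = e2 / (τ0 / 2) := by field_simp
    rw [this, div_le_div_iff₀ (by positivity) hD0, he2, div_mul_cancel₀ _ hD0.ne', one_mul]
    exact m2
  intro c0 hc0
  have H1 := fun q => H q (c0 q) (hc0 q)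
  choose m0 hm0 H2 using H1
  obtain ⟨m1, hm1, hm1'⟩ := upp_ex m0
  refine ⟨m1, hm1, ?_⟩
  intro m hm L A hA X1 hX1
  have hmm1 : 1 ≤ m := hm1.trans hm
  have hm0' : 0 < m := by linarith
  have H3 := fun q σ => H2 q m ((hm1' q).trans hm) (L q σ) (A q σ) (X1 q σ) (hA q σ) (hX1 q σ)
  choose φ0 h0 hφ0 hh0 H4 using H3
  obtain ⟨φ1, hφ1, hφ1'⟩ := low_ex2 (p := p) hφ0
  refine ⟨φ1 / D, by positivity, ?_⟩
  intro X2 Cx X3
  obtain ⟨h1, hh1, hh1'⟩ := upp_ex2 (p := p) h0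
  -- the bound of the sum over caps
  obtain ⟨Y, hY, hY'⟩ := upp_ex2 (p := p) (fun q σ => X2 q σ / φ0 q σ + Cx q σ / (e / 2) + X3 q σ * (2 / τ0))
  obtain ⟨N0, hN0⟩ := exists_nat_gt (2 * (p : ℝ) * (Q * Y))
  refine ⟨N0 + 1, h1, by linarith, ?_⟩
  intro h hh n hn G hG s hs coll I1 I2 Xe mix err2 hI1 hI2 herr2 b1 b2 b3 b4 b6 b7
  have hhp : 0 < h := by linarith
  have hGne : G.Nonempty := Finset.card_pos.1 (by omega)
  have hGc : (0 : ℝ) ≤ G.card := Nat.cast_nonneg _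
  set Φ : ℕ → ℕ → ℝ := fun σ y => ∑ q, (phi (φ0 q σ) (e / 2) m h n (L q σ) (I2 q σ) (mix q σ) y +
    err2 q σ y * (2 / (τ0 * h))) with hΦ
  have hterm : ∀ q σ y, 0 ≤ phi (φ0 q σ) (e / 2) m h n (L q σ) (I2 q σ) (mix q σ) y := fun q σ y =>
    phi_nonneg (hφ0 q σ) (by positivity) hm0'.le hhp (hI2 q σ) _ _
  have hterm2 : ∀ q σ y, 0 ≤ err2 q σ y * (2 / (τ0 * h)) := fun q σ y =>
    mul_nonneg (herr2 q σ y) (by positivity)
  have hsum : ∀ σ < p, ∑ y ∈ G, Φ σ y ≤ Q * Y + 3 * G.card / (8 * p) := by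
    intro σ hσ
    rw [hΦ]
    simp only
    rw [Finset.sum_comm]
    have g1 : ∀ q : Fin Q, ∑ y ∈ G, (phi (φ0 q σ) (e / 2) m h n (L q σ) (I2 q σ) (mix q σ) y +
        err2 q σ y * (2 / (τ0 * h))) ≤ Y + 3 * G.card * (1 / D) := by
      intro q
      rw [Finset.sum_add_distrib, ← Finset.sum_mul]
      unfold phi
      rw [Finset.sum_add_distrib, ← Finset.sum_div, ← Finset.sum_div, ← Finset.mul_sum]
      have g3 := hY' q σ hσ
      have k1 : (∑ y ∈ G, ∑ j ∈ range n, ∑ k ∈ Ioc j (j + L q σ), I2 q σ y j k) / (φ0 q σ * h) ≤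
          X2 q σ / φ0 q σ + G.card * (1 / D) := by
        rw [div_le_iff₀ (mul_pos (hφ0 q σ) hhp)]
        refine (b3 q σ hσ).trans ?_
        have e1 : (X2 q σ / φ0 q σ + G.card * (1 / D)) * (φ0 q σ * h) =
            (X2 q σ + G.card * (φ0 q σ / D)) * h := by
          have := (hφ0 q σ).ne'
          field_simp
        rw [e1]
        refine mul_le_mul_of_nonneg_right ?_ hhp.le
        have e2' : φ1 / D ≤ φ0 q σ / D := div_le_div_of_nonneg_right (hφ1' q σ hσ) hD0.le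
        have e3 := mul_le_mul_of_nonneg_right e2' hGc
        linarith
      have k2 : m * ∑ y ∈ G, ((mix q σ y).card : ℝ) / (e / 2 * h) ≤ Cx q σ / (e / 2) + G.card * (1 / D) := by
        rw [← Finset.sum_div, mul_div_assoc', div_le_iff₀ (by positivity)]
        refine (b6 q σ hσ).trans ?_
        have e1 : (Cx q σ / (e / 2) + G.card * (1 / D)) * (e / 2 * h) =
            (Cx q σ + G.card * (1 / D * (e / 2))) * h := by
          field_simp
        rw [e1]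
        refine mul_le_mul_of_nonneg_right ?_ hhp.le
        have e3 : e2 ≤ 1 / D * (e / 2) := by
          rwa [div_le_iff₀ (by positivity)] at he2a
        have e4 := mul_le_mul_of_nonneg_right e3 hGc
        linarith
      have k3 : (∑ y ∈ G, err2 q σ y) * (2 / (τ0 * h)) ≤ X3 q σ * (2 / τ0) + G.card * (1 / D) := by
        have e0' : (∑ y ∈ G, err2 q σ y) * (2 / (τ0 * h)) ≤ ((X3 q σ + e2 * G.card) * h) * (2 / (τ0 * h)) :=
          mul_le_mul_of_nonneg_right (b7 q σ hσ) (by positivity)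
        have e1 : ((X3 q σ + e2 * G.card) * h) * (2 / (τ0 * h)) =
            X3 q σ * (2 / τ0) + G.card * (e2 * (2 / τ0)) := by
          field_simp
        have e4 := mul_le_mul_of_nonneg_left he2b hGc
        linarith
      have k2' : m * ∑ y ∈ G, ((mix q σ y).card : ℝ) / (e / 2 * h) =
          ∑ y ∈ G, m * ((mix q σ y).card : ℝ) / (e / 2 * h) := by
        rw [Finset.mul_sum]
        exact Finset.sum_congr rfl fun y _ => by ring
      have k2'' : (m * ∑ y ∈ G, ((mix q σ y).card : ℝ)) / (e / 2 * h) =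
          m * ∑ y ∈ G, ((mix q σ y).card : ℝ) / (e / 2 * h) := by
        rw [← Finset.sum_div, mul_div_assoc']
      rw [k2'']
      linarith
    refine (Finset.sum_le_sum fun q _ => g1 q).trans ?_
    rw [Finset.sum_const, Finset.card_univ, Fintype.card_fin, nsmul_eq_mul, mul_add]
    have g6 : (Q : ℝ) * (3 * G.card * (1 / D)) ≤ 3 * G.card / (8 * p) := by
      have g7 : (Q : ℝ) * (3 * G.card * (1 / D)) = (Q / (Q + 1)) * (3 * G.card / (8 * p)) := by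
        rw [hD]
        field_simp
      have g8 : (Q : ℝ) / (Q + 1) ≤ 1 := by
        rw [div_le_one (by positivity)]
        linarith
      rw [g7]
      have g9 : (0 : ℝ) ≤ 3 * G.card / (8 * p) := by positivity
      nlinarith
    linarith
  obtain ⟨y, hy, hΦy⟩ := one (p := p) hGne hs (Φ := Φ)
    (fun σ _ y _ => Finset.sum_nonneg fun q _ => add_nonneg (hterm q σ y) (hterm2 q σ y))
    (Y := Q * Y + 3 * G.card / (8 * p)) hsum (by
      have g1 : ((N0 + 1 : ℕ) : ℝ) ≤ G.card := by exact_mod_cast hG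
      push_cast at g1
      have g2 : (p : ℝ) * (Q * Y + 3 * G.card / (8 * p)) = p * (Q * Y) + 3 * G.card / 8 := by
        field_simp
      rw [g2]
      linarith)
  refine ⟨y, hy, fun q => ?_⟩
  have hq : phi (φ0 q (s y)) (e / 2) m h n (L q (s y)) (I2 q (s y)) (mix q (s y)) y +
      err2 q (s y) y * (2 / (τ0 * h)) ≤ 1 := by
    refine le_trans ?_ hΦy
    exact Finset.single_le_sum (f := fun q => phi (φ0 q (s y)) (e / 2) m h n (L q (s y)) (I2 q (s y)) (mix q (s y)) y +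
      err2 q (s y) y * (2 / (τ0 * h))) (fun q _ => add_nonneg (hterm q (s y) y) (hterm2 q (s y) y)) (Finset.mem_univ q)
  have hq1 : phi (φ0 q (s y)) (e / 2) m h n (L q (s y)) (I2 q (s y)) (mix q (s y)) y ≤ 1 := by
    have := hterm2 q (s y) y
    linarith
  have hq2 : err2 q (s y) y * (2 / (τ0 * h)) ≤ 1 := by
    have := hterm q (s y) y
    linarith
  obtain ⟨f1, f2⟩ := phi_le (hφ0 q (s y)) (by positivity : 0 < e / 2) hm0'.le hhp (hI2 q (s y)) (mix q (s y)) hq1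
  have f3 : m * ((Xe q (s y) y ∪ mix q (s y) y).card : ℝ) ≤ e0 q * h := by
    have g1 : ((Xe q (s y) y ∪ mix q (s y) y).card : ℝ) ≤ (Xe q (s y) y).card + (mix q (s y) y).card := by
      exact_mod_cast Finset.card_union_le _ _
    have g2 := mul_le_mul_of_nonneg_left g1 hm0'.le
    have g3 := b4 q (s y) (hs y hy) y hy
    have g4 : e * h ≤ e0 q * h := mul_le_mul_of_nonneg_right (he' q) hhp.le
    linarith
  have f4 : m * ∑ j ∈ range n, coll q (s y) y j ≤ κ0 q * h :=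
    (b1 q (s y) (hs y hy) y hy).trans (mul_le_mul_of_nonneg_right (hκ' q) hhp.le)
  have f5 := H4 q (s y) h ((hh1' q (s y) (hs y hy)).trans hh) n hn (coll q (s y) y) (I1 q (s y) y) (I2 q (s y) y)
    (Xe q (s y) y ∪ mix q (s y) y) (hI1 q (s y) y) (hI2 q (s y) y) f4 (b2 q (s y) (hs y hy) y hy) f1 f3
  have f6 : err2 q (s y) y ≤ τ q / 2 * h := by
    have g1 : err2 q (s y) y * (2 / (τ0 * h)) = err2 q (s y) y * 2 / (τ0 * h) := by ring
    rw [g1, div_le_one (by positivity)] at hq2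
    have g2 : τ0 * h ≤ τ q * h := mul_le_mul_of_nonneg_right (hτ0' q) hhp.le
    linarith
  linarith

end Vale.Agent.P106.U.H652
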