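import Vale.Agent.P106.U.H652.Cho

/-!
# P106 / U / H652 : [CHO], weighted form: choice of one pair (cap, value of the words) (helper652)

Finite set `G` of pairs `y = (k, w)` with weights `wt y ≥ 0` (the probability of the value `w` of the words `w_(≤k)`),
`W = ∑ wt` (the number of active caps).  ALL hypotheses are averaged over the pairs.

* `avg_parW` : `avg_par` of `Avg.lean` with both information sums `≤ φ0 h`.
* `oneW` : `∑ wt Φ σ ≤ Y W`, `p Y < 1` ⟹ one `y` with `wt y > 0` and `Φ (s y) y ≤ 1`.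
* `cho_w` : the constants and the choice.
-/

set_option autoImplicit false

namespace Vale.Agent.P106.U.H652

open Finset

theorem err1_mono2 {c0 c m A x : ℝ} (hA : 0 ≤ A) {L : ℕ} {coll : ℕ → ℝ} {I1 I2 : ℕ → ℕ → ℝ}
    (h1 : ∀ j k, 0 ≤ I1 j k) (h2 : ∀ j k, 0 ≤ I2 j k) (X : Finset ℕ) (j : ℕ) :
    err1 c0 c m A x L coll I1 I2 X j ≤
      err1 c0 c m A x L coll (fun _ _ => 0) (fun j k => 2 * (I1 j k + I2 j k)) X j := by
  unfold err1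
  have g1 : ∀ k, Real.sqrt (I1 j k) + Real.sqrt (I2 j k) ≤
      Real.sqrt 0 + Real.sqrt (2 * (I1 j k + I2 j k)) := by
    intro k
    rw [Real.sqrt_zero, zero_add]
    refine Real.le_sqrt_of_sq_le ?_
    have a1 := Real.sq_sqrt (h1 j k)
    have a2 := Real.sq_sqrt (h2 j k)
    nlinarith [sq_nonneg (Real.sqrt (I1 j k) - Real.sqrt (I2 j k))]
  have g2 : ∑ k ∈ Ioc j (j + L), (Real.sqrt (I1 j k) + Real.sqrt (I2 j k)) ≤
      ∑ k ∈ Ioc j (j + L), (Real.sqrt 0 + Real.sqrt (2 * (I1 j k + I2 j k))) :=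
    Finset.sum_le_sum fun k _ => g1 k
  have g3 := mul_le_mul_of_nonneg_left g2 hA
  linarith

/-- **constants**, both information sums linear in `h` -/
theorem avg_parW {K τ c x : ℝ} (hK : 0 < K) (hτ : 0 < τ) (hc : 0 ≤ c) (hx : 0 ≤ x) :
    ∃ κ e : ℝ, 0 < κ ∧ 0 < e ∧ ∀ c0 : ℝ, 0 ≤ c0 → ∃ m0 : ℝ, 1 ≤ m0 ∧ ∀ m : ℝ, m0 ≤ m →
      ∀ (L : ℕ) (A : ℝ), 0 ≤ A → ∃ φ0 h0 : ℝ, 0 < φ0 ∧ 0 < h0 ∧ ∀ h : ℝ, h0 ≤ h → ∀ n : ℕ, m * n ≤ K * h →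
        ∀ (coll : ℕ → ℝ) (I1 I2 : ℕ → ℕ → ℝ) (X : Finset ℕ), (∀ j k, 0 ≤ I1 j k) → (∀ j k, 0 ≤ I2 j k) →
          m * ∑ j ∈ range n, coll j ≤ κ * h → ∑ j ∈ range n, ∑ k ∈ Ioc j (j + L), I1 j k ≤ φ0 * h →
          ∑ j ∈ range n, ∑ k ∈ Ioc j (j + L), I2 j k ≤ φ0 * h → m * X.card ≤ e * h →
          ∑ j ∈ range n, err1 c0 c m A x L coll I1 I2 X j ≤ τ * h := by
  obtain ⟨κ, e, hκ, he, H⟩ := avg_par (K := K) (τ := τ) (c := c) (x := x) hK hτ hc hx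
  refine ⟨κ, e, hκ, he, fun c0 hc0 => ?_⟩
  obtain ⟨m0, hm0, H2⟩ := H c0 hc0
  refine ⟨m0, hm0, fun m hm L A hA => ?_⟩
  obtain ⟨φ0, h0, hφ0, hh0, H3⟩ := H2 m hm L A 0 hA le_rfl
  refine ⟨φ0 / 4, h0, by positivity, hh0, ?_⟩
  intro h hh n hn coll I1 I2 X h1 h2 hcoll hI1 hI2 hX
  have g := H3 h hh n hn coll (fun _ _ => 0) (fun j k => 2 * (I1 j k + I2 j k)) X (fun _ _ => le_rfl)
    (fun j k => by have := h1 j k; have := h2 j k; positivity) hcoll (by simp) (by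
      have e1 : ∑ j ∈ range n, ∑ k ∈ Ioc j (j + L), 2 * (I1 j k + I2 j k) =
          2 * (∑ j ∈ range n, ∑ k ∈ Ioc j (j + L), I1 j k) + 2 * (∑ j ∈ range n, ∑ k ∈ Ioc j (j + L), I2 j k) := by
        rw [Finset.mul_sum, Finset.mul_sum, ← Finset.sum_add_distrib]
        refine Finset.sum_congr rfl fun j _ => ?_
        rw [Finset.mul_sum, Finset.mul_sum, ← Finset.sum_add_distrib]
        exact Finset.sum_congr rfl fun k _ => by ring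
      rw [e1]
      linarith) hX
  exact (Finset.sum_le_sum fun j _ => err1_mono2 hA h1 h2 X j).trans g

/-- weighted averaging, the scale depends on the pair -/
theorem oneW {ι : Type*} {p : ℕ} {G : Finset ι} {wt : ι → ℝ} (hwt : ∀ y ∈ G, 0 ≤ wt y) {s : ι → ℕ}
    (hs : ∀ y ∈ G, s y < p) {Φ : ℕ → ι → ℝ} (h0 : ∀ σ < p, ∀ y ∈ G, 0 ≤ Φ σ y) {Y : ℝ}
    (hY : ∀ σ < p, ∑ y ∈ G, wt y * Φ σ y ≤ Y) (hc : p * Y < ∑ y ∈ G, wt y) :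
    ∃ y ∈ G, 0 < wt y ∧ Φ (s y) y ≤ 1 := by
  by_contra hcon
  push Not at hcon
  have h1 : ∑ y ∈ G, wt y ≤ ∑ y ∈ G, wt y * Φ (s y) y := by
    refine Finset.sum_le_sum fun y hy => ?_
    rcases (hwt y hy).eq_or_lt with h | h
    · rw [← h]; simp
    · have := hcon y hy h
      nlinarith
  have h2 : ∑ y ∈ G, wt y * Φ (s y) y ≤ ∑ y ∈ G, ∑ σ ∈ range p, wt y * Φ σ y := by
    refine Finset.sum_le_sum fun y hy => ?_
    exact Finset.single_le_sum (f := fun σ => wt y * Φ σ y)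
      (fun σ hσ => mul_nonneg (hwt y hy) (h0 σ (Finset.mem_range.1 hσ) y hy)) (Finset.mem_range.2 (hs y hy))
  have h3 : ∑ y ∈ G, ∑ σ ∈ range p, wt y * Φ σ y ≤ p * Y := by
    rw [Finset.sum_comm]
    refine (Finset.sum_le_card_nsmul _ _ Y fun σ hσ => hY σ (Finset.mem_range.1 hσ)).trans ?_
    rw [card_range, nsmul_eq_mul]
  linarith

/-- the total of one pair, normalised -/
noncomputable def phiW (κ φ e τ m h : ℝ) (n L : ℕ) (coll : ℕ → ℝ) (I1 I2 : ℕ → ℕ → ℝ) (X : Finset ℕ) (err2 : ℝ) : ℝ :=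
  m * (∑ j ∈ range n, coll j) / (κ * h) + (∑ j ∈ range n, ∑ k ∈ Ioc j (j + L), I1 j k) / (φ * h) +
    (∑ j ∈ range n, ∑ k ∈ Ioc j (j + L), I2 j k) / (φ * h) + m * X.card / (e * h) + err2 / (τ * h)

theorem phiW_nonneg {κ φ e τ m h : ℝ} (hκ : 0 < κ) (hφ : 0 < φ) (he : 0 < e) (hτ : 0 < τ) (hm : 0 ≤ m) (hh : 0 < h)
    {n L : ℕ} {coll : ℕ → ℝ} {I1 I2 : ℕ → ℕ → ℝ} (X : Finset ℕ) {err2 : ℝ} (hcoll : ∀ j, 0 ≤ coll j)
    (h1 : ∀ j k, 0 ≤ I1 j k) (h2 : ∀ j k, 0 ≤ I2 j k) (h3 : 0 ≤ err2) :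
    0 ≤ phiW κ φ e τ m h n L coll I1 I2 X err2 := by
  unfold phiW
  have a1 : 0 ≤ ∑ j ∈ range n, coll j := Finset.sum_nonneg fun j _ => hcoll j
  have a2 : 0 ≤ ∑ j ∈ range n, ∑ k ∈ Ioc j (j + L), I1 j k :=
    Finset.sum_nonneg fun j _ => Finset.sum_nonneg fun k _ => h1 j k
  have a3 : 0 ≤ ∑ j ∈ range n, ∑ k ∈ Ioc j (j + L), I2 j k :=
    Finset.sum_nonneg fun j _ => Finset.sum_nonneg fun k _ => h2 j k
  positivity

theorem phiW_le {κ φ e τ m h : ℝ} (hκ : 0 < κ) (hφ : 0 < φ) (he : 0 < e) (hτ : 0 < τ) (hm : 0 ≤ m) (hh : 0 < h)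
    {n L : ℕ} {coll : ℕ → ℝ} {I1 I2 : ℕ → ℕ → ℝ} {X : Finset ℕ} {err2 : ℝ} (hcoll : ∀ j, 0 ≤ coll j)
    (h1 : ∀ j k, 0 ≤ I1 j k) (h2 : ∀ j k, 0 ≤ I2 j k) (h3 : 0 ≤ err2)
    (hle : phiW κ φ e τ m h n L coll I1 I2 X err2 ≤ 1) :
    m * ∑ j ∈ range n, coll j ≤ κ * h ∧ ∑ j ∈ range n, ∑ k ∈ Ioc j (j + L), I1 j k ≤ φ * h ∧
      ∑ j ∈ range n, ∑ k ∈ Ioc j (j + L), I2 j k ≤ φ * h ∧ m * X.card ≤ e * h ∧ err2 ≤ τ * h := by
  unfold phiW at hle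
  have a1 : 0 ≤ ∑ j ∈ range n, coll j := Finset.sum_nonneg fun j _ => hcoll j
  have a2 : 0 ≤ ∑ j ∈ range n, ∑ k ∈ Ioc j (j + L), I1 j k :=
    Finset.sum_nonneg fun j _ => Finset.sum_nonneg fun k _ => h1 j k
  have a3 : 0 ≤ ∑ j ∈ range n, ∑ k ∈ Ioc j (j + L), I2 j k :=
    Finset.sum_nonneg fun j _ => Finset.sum_nonneg fun k _ => h2 j k
  have b1 : 0 ≤ m * (∑ j ∈ range n, coll j) / (κ * h) := by positivity
  have b2 : 0 ≤ (∑ j ∈ range n, ∑ k ∈ Ioc j (j + L), I1 j k) / (φ * h) := by positivity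
  have b3 : 0 ≤ (∑ j ∈ range n, ∑ k ∈ Ioc j (j + L), I2 j k) / (φ * h) := by positivity
  have b4 : 0 ≤ m * X.card / (e * h) := by positivity
  have b5 : 0 ≤ err2 / (τ * h) := by positivity
  refine ⟨?_, ?_, ?_, ?_, ?_⟩
  · have := (div_le_one (by positivity)).1 (by linarith : m * (∑ j ∈ range n, coll j) / (κ * h) ≤ 1)
    exact this
  · exact (div_le_one (by positivity)).1 (by linarith :
      (∑ j ∈ range n, ∑ k ∈ Ioc j (j + L), I1 j k) / (φ * h) ≤ 1)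
  · exact (div_le_one (by positivity)).1 (by linarith :
      (∑ j ∈ range n, ∑ k ∈ Ioc j (j + L), I2 j k) / (φ * h) ≤ 1)
  · exact (div_le_one (by positivity)).1 (by linarith : m * X.card / (e * h) ≤ 1)
  · exact (div_le_one (by positivity)).1 (by linarith : err2 / (τ * h) ≤ 1)

/-- weighted sum of `phiW` -/
theorem phiW_sum {ι : Type*} {G : Finset ι} {wt : ι → ℝ} {W : ℝ} {κ κ' φ φ' e e' τ τ' X1 X2 Cx X3 D Y m h : ℝ}
    (hκ : 0 < κ) (hφ : 0 < φ) (he : 0 < e) (hτ : 0 < τ) (hh : 0 < h) (hW : 0 ≤ W) (hD : 0 < D)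
    (hκ' : κ' ≤ κ / D) (hφ' : φ' ≤ φ / D) (he' : e' ≤ e / D) (hτ' : τ' ≤ τ / D)
    (hYd : X1 / φ + X2 / φ + Cx / e + X3 / τ ≤ Y) {n L : ℕ} {coll : ι → ℕ → ℝ}
    {I1 I2 : ι → ℕ → ℕ → ℝ} {X : ι → Finset ℕ} {err2 : ι → ℝ}
    (b1 : m * ∑ y ∈ G, wt y * ∑ j ∈ range n, coll y j ≤ κ' * W * h)
    (b2 : ∑ y ∈ G, wt y * ∑ j ∈ range n, ∑ k ∈ Ioc j (j + L), I1 y j k ≤ (X1 + φ' * W) * h)
    (b3 : ∑ y ∈ G, wt y * ∑ j ∈ range n, ∑ k ∈ Ioc j (j + L), I2 y j k ≤ (X2 + φ' * W) * h)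
    (b4 : m * ∑ y ∈ G, wt y * ((X y).card : ℝ) ≤ (Cx + e' * W) * h)
    (b5 : ∑ y ∈ G, wt y * err2 y ≤ (X3 + τ' * W) * h) :
    ∑ y ∈ G, wt y * phiW κ φ e τ m h n L (coll y) (I1 y) (I2 y) (X y) (err2 y) ≤ Y + 5 * W / D := by
  have e1 : ∑ y ∈ G, wt y * phiW κ φ e τ m h n L (coll y) (I1 y) (I2 y) (X y) (err2 y) =
      (m * ∑ y ∈ G, wt y * ∑ j ∈ range n, coll y j) / (κ * h) +
      (∑ y ∈ G, wt y * ∑ j ∈ range n, ∑ k ∈ Ioc j (j + L), I1 y j k) / (φ * h) +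
      (∑ y ∈ G, wt y * ∑ j ∈ range n, ∑ k ∈ Ioc j (j + L), I2 y j k) / (φ * h) +
      (m * ∑ y ∈ G, wt y * ((X y).card : ℝ)) / (e * h) + (∑ y ∈ G, wt y * err2 y) / (τ * h) := by
    unfold phiW
    rw [Finset.mul_sum, Finset.mul_sum, Finset.sum_div, Finset.sum_div, Finset.sum_div, Finset.sum_div, Finset.sum_div,
      ← Finset.sum_add_distrib, ← Finset.sum_add_distrib, ← Finset.sum_add_distrib, ← Finset.sum_add_distrib]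
    exact Finset.sum_congr rfl fun y _ => by ring
  rw [e1]
  have q : ∀ {a A B C : ℝ}, 0 < A → a ≤ (B + C * W) * h → C ≤ A / D → a / (A * h) ≤ B / A + W / D := by
    intro a A B C hA ha hC
    rw [div_le_iff₀ (by positivity)]
    have g1 : (B / A + W / D) * (A * h) = (B + A / D * W) * h := by
      field_simp
    rw [g1]
    refine ha.trans (mul_le_mul_of_nonneg_right ?_ hh.le)
    have := mul_le_mul_of_nonneg_right hC hW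
    linarith
  have q1 := q hκ (a := m * ∑ y ∈ G, wt y * ∑ j ∈ range n, coll y j) (B := 0) (C := κ') (by linarith) hκ'
  have q2 := q hφ b2 hφ'
  have q3 := q hφ b3 hφ'
  have q4 := q he b4 he'
  have q5 := q hτ b5 hτ'
  rw [zero_div] at q1
  have q6 : 5 * W / D = W / D + W / D + W / D + W / D + W / D := by ring
  linarith

/-- **choice of one pair.**  Relative constants `κ, e, e2` first; `ρ` after `m` and the windows; `N0, h0` last. -/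
theorem cho_w {Q p : ℕ} (hp : 0 < p) {K : ℝ} (hK : 0 < K) {τ c x : Fin Q → ℝ} (hτ : ∀ q, 0 < τ q)
    (hc : ∀ q, 0 ≤ c q) (hx : ∀ q, 0 ≤ x q) :
    ∃ κ e e2 : ℝ, 0 < κ ∧ 0 < e ∧ 0 < e2 ∧ ∀ c0 : Fin Q → ℝ, (∀ q, 0 ≤ c0 q) → ∃ m0 : ℝ, 1 ≤ m0 ∧
      ∀ m : ℝ, m0 ≤ m → ∀ (L : Fin Q → ℕ → ℕ) (A : Fin Q → ℕ → ℝ), (∀ q σ, 0 ≤ A q σ) →
      ∃ ρ : ℝ, 0 < ρ ∧ ∀ X1 X2 Cx X3 : Fin Q → ℕ → ℝ,
      ∃ (N0 h0 : ℝ), 0 < N0 ∧ 0 < h0 ∧ ∀ h : ℝ, h0 ≤ h → ∀ n : ℕ, m * n ≤ K * h →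
        ∀ {ι : Type} (G : Finset ι) (wt : ι → ℝ), (∀ y ∈ G, 0 ≤ wt y) → N0 ≤ ∑ y ∈ G, wt y →
        ∀ s : ι → ℕ, (∀ y ∈ G, s y < p) →
        ∀ (coll : Fin Q → ℕ → ι → ℕ → ℝ) (I1 I2 : Fin Q → ℕ → ι → ℕ → ℕ → ℝ) (Xe : Fin Q → ℕ → ι → Finset ℕ)
          (err2 : Fin Q → ℕ → ι → ℝ),
          (∀ q σ y j, 0 ≤ coll q σ y j) → (∀ q σ y j k, 0 ≤ I1 q σ y j k) → (∀ q σ y j k, 0 ≤ I2 q σ y j k) →
          (∀ q σ y, 0 ≤ err2 q σ y) →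
          (∀ q, ∀ σ < p, m * ∑ y ∈ G, wt y * ∑ j ∈ range n, coll q σ y j ≤ κ * (∑ y ∈ G, wt y) * h) →
          (∀ q, ∀ σ < p, ∑ y ∈ G, wt y * ∑ j ∈ range n, ∑ k ∈ Ioc j (j + L q σ), I1 q σ y j k ≤
            (X1 q σ + ρ * ∑ y ∈ G, wt y) * h) →
          (∀ q, ∀ σ < p, ∑ y ∈ G, wt y * ∑ j ∈ range n, ∑ k ∈ Ioc j (j + L q σ), I2 q σ y j k ≤
            (X2 q σ + ρ * ∑ y ∈ G, wt y) * h) →
          (∀ q, ∀ σ < p, m * ∑ y ∈ G, wt y * ((Xe q σ y).card : ℝ) ≤ (Cx q σ + e * ∑ y ∈ G, wt y) * h) →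
          (∀ q, ∀ σ < p, ∑ y ∈ G, wt y * err2 q σ y ≤ (X3 q σ + e2 * ∑ y ∈ G, wt y) * h) →
          ∃ y ∈ G, 0 < wt y ∧ ∀ q, ∑ j ∈ range n, err1 (c0 q) (c q) m (A q (s y)) (x q) (L q (s y))
            (coll q (s y) y) (I1 q (s y) y) (I2 q (s y) y) (Xe q (s y) y) j + err2 q (s y) y ≤ τ q * h := by
  classical
  have hpar := fun q => avg_parW (K := K) (τ := τ q / 2) (c := c q) (x := x q) hK (by have := hτ q; positivity)
    (hc q) (hx q)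
  choose κ0 e0 hκ0 he0 H using hpar
  obtain ⟨κ, hκ, hκ'⟩ := low_ex hκ0
  obtain ⟨e, he, he'⟩ := low_ex he0
  obtain ⟨τ0, hτ0, hτ0'⟩ := low_ex hτ
  have hpr : (0 : ℝ) < p := by exact_mod_cast hp
  set D : ℝ := 20 * p * (Q + 1) with hD
  have hD0 : 0 < D := by positivity
  refine ⟨κ / D, e / D, τ0 / 2 / D, by positivity, by positivity, by positivity, ?_⟩
  intro c0 hc0
  have H1 := fun q => H q (c0 q) (hc0 q)
  choose m0 hm0 H2 using H1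
  obtain ⟨m1, hm1, hm1'⟩ := upp_ex m0
  refine ⟨m1, hm1, ?_⟩
  intro m hm L A hA
  have hmm1 : 1 ≤ m := hm1.trans hm
  have hm0' : 0 < m := by linarith
  have H3 := fun q σ => H2 q m ((hm1' q).trans hm) (L q σ) (A q σ) (hA q σ)
  choose φ0 h0 hφ0 hh0 H4 using H3
  obtain ⟨φ1, hφ1, hφ1'⟩ := low_ex2 (p := p) hφ0
  refine ⟨φ1 / D, by positivity, ?_⟩
  intro X1 X2 Cx X3
  obtain ⟨h1, hh1, hh1'⟩ := upp_ex2 (p := p) h0
  obtain ⟨Y, hY, hY'⟩ := upp_ex2 (p := p) (fun q σ => X1 q σ / φ0 q σ + X2 q σ / φ0 q σ + Cx q σ / e0 q +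
    X3 q σ / (τ q / 2))
  refine ⟨4 * (p : ℝ) * ((Q + 1) * Y), h1, by positivity, by linarith, ?_⟩
  intro h hh n hn ι G wt hwt hW s hs coll I1 I2 Xe err2 hcoll hI1 hI2 herr2 b1 b2 b3 b4 b5
  set W : ℝ := ∑ y ∈ G, wt y with hWd
  have hhp : 0 < h := by linarith
  have hW0 : 0 < W := by
    have : 0 < 4 * (p : ℝ) * ((Q + 1) * Y) := by positivity
    linarith
  set Φ : ℕ → ι → ℝ := fun σ y => ∑ q, phiW (κ0 q) (φ0 q σ) (e0 q) (τ q / 2) m h n (L q σ) (coll q σ y) (I1 q σ y)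
    (I2 q σ y) (Xe q σ y) (err2 q σ y) with hΦ
  have hterm : ∀ q σ y, 0 ≤ phiW (κ0 q) (φ0 q σ) (e0 q) (τ q / 2) m h n (L q σ) (coll q σ y) (I1 q σ y)
      (I2 q σ y) (Xe q σ y) (err2 q σ y) := fun q σ y =>
    phiW_nonneg (hκ0 q) (hφ0 q σ) (he0 q) (by have := hτ q; positivity) hm0'.le hhp _ (hcoll q σ y) (hI1 q σ y)
      (hI2 q σ y) (herr2 q σ y)
  have hsum : ∀ σ < p, ∑ y ∈ G, wt y * Φ σ y ≤ Q * (Y + 5 * W / D) := by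
    intro σ hσ
    rw [hΦ]
    simp only [Finset.mul_sum]
    rw [Finset.sum_comm]
    have g1 : ∀ q : Fin Q, ∑ y ∈ G, wt y * phiW (κ0 q) (φ0 q σ) (e0 q) (τ q / 2) m h n (L q σ) (coll q σ y)
        (I1 q σ y) (I2 q σ y) (Xe q σ y) (err2 q σ y) ≤ Y + 5 * W / D := by
      intro q
      refine phiW_sum (X1 := X1 q σ) (X2 := X2 q σ) (Cx := Cx q σ) (X3 := X3 q σ) (hκ0 q) (hφ0 q σ) (he0 q)
        (by have := hτ q; positivity) hhp hW0.le hD0 (div_le_div_of_nonneg_right (hκ' q) hD0.le)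
        (div_le_div_of_nonneg_right (hφ1' q σ hσ) hD0.le) (div_le_div_of_nonneg_right (he' q) hD0.le)
        (div_le_div_of_nonneg_right (by have := hτ0' q; linarith) hD0.le) (hY' q σ hσ) (b1 q σ hσ)
        (b2 q σ hσ) (b3 q σ hσ) (b4 q σ hσ) (b5 q σ hσ)
    refine (Finset.sum_le_sum fun q _ => g1 q).trans (le_of_eq ?_)
    rw [Finset.sum_const, Finset.card_univ, Fintype.card_fin, nsmul_eq_mul]
  have hfin : (p : ℝ) * (Q * (Y + 5 * W / D)) < W := by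
    have hQp : (0 : ℝ) ≤ Q := Nat.cast_nonneg _
    have g1 : (p : ℝ) * (Q * (Y + 5 * W / D)) = p * (Q * Y) + (Q / (Q + 1)) * (W / 4) := by
      rw [hD]
      field_simp
      ring
    have g2 : (Q : ℝ) / (Q + 1) ≤ 1 := by
      rw [div_le_one (by positivity)]
      linarith
    have g3 : (Q / (Q + 1) : ℝ) * (W / 4) ≤ W / 4 := by
      have : 0 ≤ W / 4 := by positivity
      nlinarith
    have g4 : (p : ℝ) * (Q * Y) ≤ p * ((Q + 1) * Y) := by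
      have : (0 : ℝ) ≤ p * Y := by positivity
      nlinarith
    rw [g1]
    linarith
  obtain ⟨y, hy, hwy, hΦy⟩ := oneW (p := p) hwt hs (Φ := Φ)
    (fun σ _ y _ => Finset.sum_nonneg fun q _ => hterm q σ y) hsum hfin
  refine ⟨y, hy, hwy, fun q => ?_⟩
  have hq : phiW (κ0 q) (φ0 q (s y)) (e0 q) (τ q / 2) m h n (L q (s y)) (coll q (s y) y) (I1 q (s y) y)
      (I2 q (s y) y) (Xe q (s y) y) (err2 q (s y) y) ≤ 1 := by
    refine le_trans ?_ hΦy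
    exact Finset.single_le_sum (f := fun q => phiW (κ0 q) (φ0 q (s y)) (e0 q) (τ q / 2) m h n (L q (s y))
      (coll q (s y) y) (I1 q (s y) y) (I2 q (s y) y) (Xe q (s y) y) (err2 q (s y) y)) (fun q _ => hterm q (s y) y)
      (Finset.mem_univ q)
  obtain ⟨f1, f2, f3, f4, f5⟩ := phiW_le (hκ0 q) (hφ0 q (s y)) (he0 q) (by have := hτ q; positivity) hm0'.le hhp
    (hcoll q (s y) y) (hI1 q (s y) y) (hI2 q (s y) y) (herr2 q (s y) y) hq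
  have f6 := H4 q (s y) h ((hh1' q (s y) (hs y hy)).trans hh) n hn (coll q (s y) y) (I1 q (s y) y) (I2 q (s y) y)
    (Xe q (s y) y) (hI1 q (s y) y) (hI2 q (s y) y) f1 f2 f3 f4
  linarith

end Vale.Agent.P106.U.H652
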