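import Mathlib

/-!
# P106 / U / H652 : the limit argument for the best constant (helper652)

`F k β` : the inequality with distance penalty `k` and rate `β`; monotone in `β`, antitone in `k`, true at `β = A + 2 k`.
If for all small `k` an improvement `F k (β + η) → F (k / 1024) (β - η)` holds for every `β ≥ β₀`, then `F k β₀` holds for some
`k > 0` (arbitrarily small).
-/

set_option autoImplicit false

namespace Vale.Agent.P106.U.H652

open Set Filter Topology

/-- **limit argument** -/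
theorem best_limit (F : ℝ → ℝ → Prop) {A k₀ η β₀ : ℝ}
    (hup : ∀ k β β' : ℝ, 0 < k → β ≤ β' → F k β → F k β')
    (hk : ∀ k k' β : ℝ, 0 < k → k ≤ k' → F k' β → F k β)
    (hext : ∀ k : ℝ, 0 < k → F k (A + 2 * k)) (hk₀ : 0 < k₀) (hη : 0 < η)
    (hcomp : ∀ k : ℝ, 0 < k → k ≤ k₀ → ∀ β : ℝ, β₀ ≤ β → β ≤ A + 2 * k → F k (β + η) → F (k / 1024) (β - η)) :
    ∃ k : ℝ, 0 < k ∧ k ≤ k₀ ∧ F k β₀ := by
  by_contra hno
  push Not at hno
  -- the sets
  have hkj : ∀ j : ℕ, 0 < k₀ * (1 / 1024 : ℝ) ^ j := fun j => by positivity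
  have hkj' : ∀ j : ℕ, k₀ * (1 / 1024 : ℝ) ^ j ≤ k₀ := fun j => by
    have : (1 / 1024 : ℝ) ^ j ≤ 1 := pow_le_one₀ (by norm_num) (by norm_num)
    nlinarith
  set S : ℕ → Set ℝ := fun j => {β | F (k₀ * (1 / 1024 : ℝ) ^ j) β} with hS
  have hlow : ∀ j, ∀ β ∈ S j, β₀ ≤ β := by
    intro j β hβ
    by_contra h
    exact hno _ (hkj j) (hkj' j) (hup _ β β₀ (hkj j) (not_le.1 h).le hβ)
  have hne : ∀ j, (S j).Nonempty := fun j => ⟨_, hext _ (hkj j)⟩
  have hbdd : ∀ j, BddBelow (S j) := fun j => ⟨β₀, fun β hβ => hlow j β hβ⟩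
  set b : ℕ → ℝ := fun j => sInf (S j) with hb
  have hbβ : ∀ j, β₀ ≤ b j := fun j => le_csInf (hne j) fun β hβ => hlow j β hβ
  have hmono : Antitone b := by
    refine antitone_nat_of_succ_le fun j => ?_
    refine csInf_le_csInf (hbdd _) (hne j) ?_
    intro β hβ
    refine hk _ (k₀ * (1 / 1024 : ℝ) ^ j) β (hkj _) ?_ hβ
    rw [pow_succ]
    have := hkj j
    nlinarith
  -- convergence
  have hconv : ∃ j, b j - b (j + 1) < η / 2 := by
    by_contra h
    push Not at h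
    have h1 : ∀ j : ℕ, b j ≤ b 0 - j * (η / 2) := by
      intro j
      induction j with
      | zero => simp
      | succ j ih =>
        have := h j
        push_cast
        linarith
    obtain ⟨n, hn⟩ := exists_nat_gt ((b 0 - β₀) / (η / 2))
    rw [div_lt_iff₀ (by linarith)] at hn
    have := h1 n
    have := hbβ n
    linarith
  obtain ⟨j, hj⟩ := hconv
  -- the improvement
  have h1 : F (k₀ * (1 / 1024 : ℝ) ^ j) (b (j + 1) + η) := by
    obtain ⟨β, hβS, hβ⟩ := exists_lt_of_csInf_lt (hne j) (show sInf (S j) < b (j + 1) + η by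
      show b j < _
      linarith)
    exact hup _ β _ (hkj j) hβ.le hβS
  have h2 : b (j + 1) ≤ A + 2 * (k₀ * (1 / 1024 : ℝ) ^ j) := by
    have h3 : b (j + 1) ≤ b j := hmono (Nat.le_succ j)
    exact h3.trans (csInf_le (hbdd j) (hext _ (hkj j)))
  have h3 := hcomp _ (hkj j) (hkj' j) (b (j + 1)) (hbβ _) h2 h1
  have h4 : k₀ * (1 / 1024 : ℝ) ^ j / 1024 = k₀ * (1 / 1024 : ℝ) ^ (j + 1) := by rw [pow_succ]; ring
  rw [h4] at h3
  have h5 : b (j + 1) ≤ b (j + 1) - η := csInf_le (hbdd (j + 1)) h3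
  linarith

end Vale.Agent.P106.U.H652
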