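import Vale.Agent.P106.U.H61.Mac
import Vale.Agent.P106.U.H652.Lim

/-!
# P106 / U / H652 : composition of the Kakeya side (helper652)

* `PCmp N` : no near-extremal systems (composition of helper336): `FIXA` at the rate `β + d` with the price `k` of the shape
  excludes near-extremal systems of rate `β`, defect `d`, price `k / 1024`, when `k ≤ k₀`, `h ≥ h0`.
* `PGlu N` : from `FIXA` to the interface `K.StK106 N`.
* `stK106_of` : `PBest`, `PNEx`, `PCmp N`, `PGlu N` ⇒ `K.StK106 N`.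
-/

set_option autoImplicit false

namespace Vale.Agent.P106.U.H652

open Vale.Agent.P127 Vale.Agent.P127.Stk Vale.Agent.P127.U Vale.Agent.P106.W Vale.Agent.P106.K

/-- **[COMP]** no near-extremal systems -/
def PCmp (N : ℝ) : Prop :=
  ∀ lam β₀ : ℝ, 0 < lam → lam < 1 → lam < β₀ → ∃ k₀ d : ℝ, 0 < k₀ ∧ 0 < d ∧ ∀ k β : ℝ, 0 < k → k ≤ k₀ →
    β₀ ≤ β → β ≤ 2 + 2 * k → FIXA lam N k (β + d) → ∀ c : ℝ, 1 ≤ c → ∃ h0 : ℕ,
      ∀ (Ω : Type) [Fintype Ω] (γ : Type) (P : Law Ω) (l : Ω → Ry) (t : Ω → ℝ) (C : Ω → γ) (L h q : ℕ) (W : Ω → Cbx),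
        h0 ≤ h → ¬ NEx c lam N (k / 1024) β d P l t C L h q W

/-- **[GLUE]** -/
def PGlu (N : ℝ) : Prop :=
  (∀ lam β₀ : ℝ, 0 < lam → lam < 1 → lam < β₀ → ∃ k : ℝ, 0 < k ∧ k ≤ 1 ∧ FIXA lam N k β₀) → K.StK106 N

theorem FIX.mono {c lam N k β β' : ℝ} (h : FIX c lam N k β) (hβ : β ≤ β') : FIX c lam N k β' := by
  intro ε hε
  obtain ⟨K, hK⟩ := h ε hε
  refine ⟨K, fun Ω _ γ P l t C L s e0 W h1 h2 h3 => (hK Ω γ P l t C L s e0 W h1 h2 h3).trans ?_⟩
  have h4 : (β + ε) * s * Real.log 2 ≤ (β' + ε) * s * Real.log 2 := by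
    have := Real.log_nonneg (show (1 : ℝ) ≤ 2 by norm_num)
    gcongr
  linarith

theorem FIXA.mono {lam N k β β' : ℝ} (h : FIXA lam N k β) (hβ : β ≤ β') : FIXA lam N k β' :=
  fun c hc => FIX.mono (h c hc) hβ

/-- **FIX at every rate above `lam`** -/
theorem fixa_of {N : ℝ} (hN : 0 ≤ N) (hB : PBest) (hX : PNEx) (hC : PCmp N) (lam β₀ : ℝ) (hl : 0 < lam)
    (hl1 : lam < 1) (hβ₀ : lam < β₀) : ∃ k : ℝ, 0 < k ∧ k ≤ 1 ∧ FIXA lam N k β₀ := by
  obtain ⟨k₀, d, hk₀, hd, hcomp⟩ := hC lam β₀ hl hl1 hβ₀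
  obtain ⟨hb, hmono⟩ := hB lam N hl hl1 hN
  have hβpos : 0 < β₀ := hl.trans hβ₀
  set d' : ℝ := min d β₀ with hd'
  have hd'0 : 0 < d' := lt_min hd hβpos
  have key := best_limit (fun k β => bst lam N k ≤ β) (A := 2) (k₀ := min k₀ 1) (η := d' / 2) (β₀ := β₀)
    (fun k β β' _ h1 h2 => h2.trans h1) (fun k k' β h1 h2 h3 => (hmono k k' h1.le h2).trans h3)
    (fun k hk => (hb k hk.le).2.1) (lt_min hk₀ one_pos) (by linarith) ?_
  · obtain ⟨k, h1, h2, h3⟩ := key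
    exact ⟨k, h1, h2.trans (min_le_right _ _), FIXA.mono (hb k h1.le).2.2.1 h3⟩
  · intro k hk hkk β hβ hβ2 hF
    have hF' : FIXA lam N k (β + d) := by
      refine FIXA.mono (hb k hk.le).2.2.1 (le_trans hF ?_)
      have := min_le_left d β₀
      linarith
    have hk4 : 0 < k / 1024 := by linarith
    have hk1 : k ≤ 1 := hkk.trans (min_le_right _ _)
    have hdd : d' ≤ d := min_le_left _ _
    -- FIXA at the rate `β - d / 2`
    have h1 : FIXA lam N (k / 1024) (β - d / 2) := by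
      by_contra hno
      obtain ⟨c, hc, hc2⟩ := hX lam N (k / 1024) β d hl hl1 hk4 (by linarith) hN hd hno
      obtain ⟨h0, hh0⟩ := hcomp k β hk (hkk.trans (min_le_left _ _)) hβ hβ2 hF' c hc
      obtain ⟨Ω, _, γ, P, l, t, C, L, h, q, W, e1, e2⟩ := hc2 h0
      exact hh0 Ω γ P l t C L h q W e1 e2
    have h2 : FIXA lam N (k / 1024) (β - d' / 2) := FIXA.mono h1 (by linarith)
    have h3 : d' ≤ β₀ := min_le_right _ _
    exact csInf_le ⟨0, fun x hx => hx.1⟩ ⟨by linarith, h2⟩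

/-- **composition of the Kakeya side** -/
theorem stK106_of {N : ℝ} (hN : 0 ≤ N) (hB : PBest) (hX : PNEx) (hC : PCmp N) (hG : PGlu N) : K.StK106 N :=
  hG fun lam β₀ hl hl1 h => fixa_of hN hB hX hC lam β₀ hl hl1 h

end Vale.Agent.P106.U.H652
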