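import Vale.Agent.P106.U.H652.ChoW

/-!
# P106 / U / H652 : one cap, all constants of the errors of the steps (helper652), form for the one-cap record (ADDENDUM 4)

Error of the step `j`: `err1 = c0 + c m coll j + A ∑_{k ∈ (j, j+L]} (√(I1 j k) + √(I2 j k)) + x m 1[j ∈ X]` (`Avg.lean`) and one
further total `err2` (near terms, junctions, prices).

* `one_kind` : one kind of steps, one scale; order `κ, e` → `c0` → `m0` → `m` → `L, A` → `B0` → `B` → `X1` → `h0` → `h`.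
* `one_par` : kinds `q : Fin Q`, scales `σ < p`, the same constants for all.
-/

set_option autoImplicit false

namespace Vale.Agent.P106.U.H652

open Finset

/-- **one kind of steps, one scale** -/
theorem one_kind {K τ c x : ℝ} (hK : 0 < K) (hτ : 0 < τ) (hc : 0 ≤ c) (hx : 0 ≤ x) :
    ∃ κ e : ℝ, 0 < κ ∧ 0 < e ∧ ∀ c0 : ℝ, 0 ≤ c0 → ∃ m0 : ℝ, 1 ≤ m0 ∧ ∀ m : ℝ, m0 ≤ m →
      ∀ (L : ℕ) (A : ℝ), 0 ≤ A → ∃ B0 : ℝ, 1 ≤ B0 ∧ ∀ B : ℝ, B0 ≤ B → ∀ X1 : ℝ, ∃ h0 : ℝ, 0 < h0 ∧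
        ∀ h : ℝ, h0 ≤ h → ∀ n : ℕ, m * n ≤ K * h →
        ∀ (coll : ℕ → ℝ) (I1 I2 : ℕ → ℕ → ℝ) (X : Finset ℕ), (∀ j k, 0 ≤ I1 j k) → (∀ j k, 0 ≤ I2 j k) →
          m * ∑ j ∈ range n, coll j ≤ κ * h →
          ∑ j ∈ range n, ∑ k ∈ Ioc j (j + L), I1 j k ≤ X1 + h / B →
          ∑ j ∈ range n, ∑ k ∈ Ioc j (j + L), I2 j k ≤ X1 + h / B → m * X.card ≤ e * h →
          ∑ j ∈ range n, err1 c0 c m A x L coll I1 I2 X j ≤ τ * h := by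
  obtain ⟨κ, e, hκ, he, H⟩ := avg_parW (K := K) (τ := τ) (c := c) (x := x) hK hτ hc hx
  refine ⟨κ, e, hκ, he, fun c0 hc0 => ?_⟩
  obtain ⟨m0, hm0, H2⟩ := H c0 hc0
  refine ⟨m0, hm0, fun m hm L A hA => ?_⟩
  obtain ⟨φ0, h0, hφ0, hh0, H3⟩ := H2 m hm L A hA
  refine ⟨max 1 (2 / φ0), le_max_left _ _, fun B hB X1 => ?_⟩
  have hB1 : 1 ≤ B := (le_max_left _ _).trans hB
  have hB0 : 0 < B := by linarith
  have hB2 : 2 / φ0 ≤ B := (le_max_right _ _).trans hB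
  refine ⟨max h0 (2 * |X1| / φ0), lt_of_lt_of_le hh0 (le_max_left _ _), ?_⟩
  intro h hh n hn coll I1 I2 X h1 h2 hcoll hI1 hI2 hX
  have hh1 : h0 ≤ h := (le_max_left _ _).trans hh
  have hh2 : 2 * |X1| / φ0 ≤ h := (le_max_right _ _).trans hh
  have hhp : 0 < h := by linarith
  have hle : X1 + h / B ≤ φ0 * h := by
    rw [div_le_iff₀ hφ0] at hB2 hh2
    have a1 := le_abs_self X1
    have a2 : h / B ≤ φ0 / 2 * h := by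
      rw [div_le_iff₀ hB0]
      nlinarith
    linarith
  exact H3 h hh1 n hn coll I1 I2 X h1 h2 hcoll (hI1.trans hle) (hI2.trans hle) hX

/-- **all kinds `q : Fin Q` and all scales `σ < p`** -/
theorem one_par {Q p : ℕ} {K : ℝ} (hK : 0 < K) {τ c x : Fin Q → ℝ} (hτ : ∀ q, 0 < τ q)
    (hc : ∀ q, 0 ≤ c q) (hx : ∀ q, 0 ≤ x q) :
    ∃ κ e e2 : ℝ, 0 < κ ∧ 0 < e ∧ 0 < e2 ∧ ∀ c0 : Fin Q → ℝ, (∀ q, 0 ≤ c0 q) → ∃ m0 : ℝ, 1 ≤ m0 ∧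
      ∀ m : ℝ, m0 ≤ m → ∀ (L : Fin Q → ℕ → ℕ) (A : Fin Q → ℕ → ℝ), (∀ q σ, 0 ≤ A q σ) →
      ∃ B0 : ℝ, 1 ≤ B0 ∧ ∀ B : ℝ, B0 ≤ B → ∀ X1 : Fin Q → ℕ → ℝ, ∃ h0 : ℝ, 0 < h0 ∧ ∀ h : ℝ, h0 ≤ h → ∀ n : ℕ,
        m * n ≤ K * h → ∀ σ < p, ∀ q,
        ∀ (coll : ℕ → ℝ) (I1 I2 : ℕ → ℕ → ℝ) (X : Finset ℕ) (err2 : ℝ),
          (∀ j k, 0 ≤ I1 j k) → (∀ j k, 0 ≤ I2 j k) →
          m * ∑ j ∈ range n, coll j ≤ κ * h →
          ∑ j ∈ range n, ∑ k ∈ Ioc j (j + L q σ), I1 j k ≤ X1 q σ + h / B →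
          ∑ j ∈ range n, ∑ k ∈ Ioc j (j + L q σ), I2 j k ≤ X1 q σ + h / B → m * X.card ≤ e * h → err2 ≤ e2 * h →
          ∑ j ∈ range n, err1 (c0 q) (c q) m (A q σ) (x q) (L q σ) coll I1 I2 X j + err2 ≤ τ q * h := by
  classical
  have hpar := fun q => one_kind (K := K) (τ := τ q / 2) (c := c q) (x := x q) hK (by have := hτ q; positivity)
    (hc q) (hx q)
  choose κ0 e0 hκ0 he0 H using hpar
  obtain ⟨κ, hκ, hκ'⟩ := low_ex hκ0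
  obtain ⟨e, he, he'⟩ := low_ex he0
  obtain ⟨τ0, hτ0, hτ0'⟩ := low_ex hτ
  refine ⟨κ, e, τ0 / 2, hκ, he, by positivity, fun c0 hc0 => ?_⟩
  have H1 := fun q => H q (c0 q) (hc0 q)
  choose m0 hm0 H2 using H1
  obtain ⟨m1, hm1, hm1'⟩ := upp_ex m0
  refine ⟨m1, hm1, fun m hm L A hA => ?_⟩
  have H3 := fun q σ => H2 q m ((hm1' q).trans hm) (L q σ) (A q σ) (hA q σ)
  choose B0 hB0 H4 using H3
  obtain ⟨B1, hB1, hB1'⟩ := upp_ex2 (p := p) B0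
  refine ⟨B1, hB1, fun B hB X1 => ?_⟩
  by_cases hex : ∀ q, ∀ σ < p, B0 q σ ≤ B
  swap
  · exact absurd (fun q σ hσ => (hB1' q σ hσ).trans hB) hex
  have H5 : ∀ q σ, ∃ h0 : ℝ, σ < p → (0 < h0 ∧
        ∀ h : ℝ, h0 ≤ h → ∀ n : ℕ, m * n ≤ K * h →
        ∀ (coll : ℕ → ℝ) (I1 I2 : ℕ → ℕ → ℝ) (X : Finset ℕ), (∀ j k, 0 ≤ I1 j k) → (∀ j k, 0 ≤ I2 j k) →
          m * ∑ j ∈ range n, coll j ≤ κ0 q * h →
          ∑ j ∈ range n, ∑ k ∈ Ioc j (j + L q σ), I1 j k ≤ X1 q σ + h / B →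
          ∑ j ∈ range n, ∑ k ∈ Ioc j (j + L q σ), I2 j k ≤ X1 q σ + h / B → m * X.card ≤ e0 q * h →
          ∑ j ∈ range n, err1 (c0 q) (c q) m (A q σ) (x q) (L q σ) coll I1 I2 X j ≤ τ q / 2 * h) := by
    intro q σ
    by_cases hσ : σ < p
    · obtain ⟨h0, a1, a2⟩ := H4 q σ B (hex q σ hσ) (X1 q σ)
      exact ⟨h0, fun _ => ⟨a1, a2⟩⟩
    · exact ⟨1, fun h => absurd h hσ⟩
  choose h0 H6 using H5
  obtain ⟨h1, hh1, hh1'⟩ := upp_ex2 (p := p) h0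
  refine ⟨h1, by linarith, ?_⟩
  intro h hh n hn σ hσ q coll I1 I2 X err2 g1 g2 b1 b2 b3 b4 b5
  have hhp : 0 < h := by linarith
  obtain ⟨a1, a2⟩ := H6 q σ hσ
  have a3 := a2 h ((hh1' q σ hσ).trans hh) n hn coll I1 I2 X g1 g2
    (b1.trans (mul_le_mul_of_nonneg_right (hκ' q) hhp.le)) b2 b3
    (b4.trans (mul_le_mul_of_nonneg_right (he' q) hhp.le))
  have a4 : τ0 / 2 * h ≤ τ q / 2 * h := mul_le_mul_of_nonneg_right (by have := hτ0' q; linarith) hhp.le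
  linarith

end Vale.Agent.P106.U.H652
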