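import Vale.Agent.P106.U.H652.Row
import Vale.Agent.P106.U.H384.F1Rec
import Vale.Agent.P106.U.S5.Run

/-!
# P106 / U / H652 : the sums of the informations over the windows of a scale, from the sums over the record (helper652)

`P j k` : the step `j` of the compressed path and the window which ends at `k` are used; `u j` = index of the record of the step,
`w k` = index of the record of the late step.

* `pairs_sum` : `∑_j ∑_k Φ (u j) (w k) ≤ L1 ∑_{d ≤ D} bd d`;  **`pairs_F2b`** : with `bd = F2b`.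
* `sum_pairs` : a sum over the pairs as a sum over a finite set of pairs;  `card_u`, `card_v` : multiplicities.
* **`f1_num`** : the right side of 384's `f1_kap`, `pp ≤ P m`, `δ ≤ Δ m`.
-/

set_option autoImplicit false

namespace Vale.Agent.P106.U.H652

open Finset
open Vale.Agent.P127.U.CellD (q2 q2_pos)
open Vale.Agent.P106.U.S3 (Run F2b)

/-! ### pairs -/

open Classical in
/-- **sum over the windows** -/
theorem pairs_sum {N L1 D : ℕ} {I : Finset ℕ} {T : ℕ → ℕ → Finset ℕ} {Φ : ℕ → ℕ → ℝ} {bd : ℕ → ℝ} (hΦ : ∀ k i, 0 ≤ Φ k i)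
    (h : ∀ d ≤ D, ∑ k ∈ I, ∑ i ∈ T d k, Φ k i ≤ bd d) (P : ℕ → ℕ → Prop) (u w : ℕ → ℕ)
    (hP : ∀ j k, P j k → u j ∈ I ∧ ∃ d ≤ D, w k ∈ T d (u j)) (inj : ∀ j j' k k', P j k → P j' k' → u j = u j' → j = j') :
    ∑ j ∈ range N, ∑ k ∈ Ioc j (j + L1), (if P j k then Φ (u j) (w k) else 0) ≤ L1 * ∑ d ∈ range (D + 1), bd d := by
  set G : ℕ → ℝ := fun x => ∑ d ∈ range (D + 1), ∑ i ∈ T d x, Φ x i with hG
  have hG0 : ∀ x, 0 ≤ G x := fun x => Finset.sum_nonneg fun d _ => Finset.sum_nonneg fun i _ => hΦ x i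
  set S : Finset ℕ := (range N).filter fun j => ∃ k, P j k with hS
  have h1 : ∀ j ∈ range N, ∑ k ∈ Ioc j (j + L1), (if P j k then Φ (u j) (w k) else 0) ≤
      if (∃ k, P j k) then L1 * G (u j) else 0 := by
    intro j _
    by_cases hj : ∃ k, P j k
    · rw [if_pos hj]
      have h2 : ∀ k ∈ Ioc j (j + L1), (if P j k then Φ (u j) (w k) else 0) ≤ G (u j) := by
        intro k _
        by_cases hk : P j k
        · rw [if_pos hk]
          obtain ⟨_, d, hd, hw⟩ := hP j k hk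
          have h3 := Finset.single_le_sum (f := fun i => Φ (u j) i) (fun i _ => hΦ (u j) i) hw
          have h4 := Finset.single_le_sum (f := fun d => ∑ i ∈ T d (u j), Φ (u j) i) (s := range (D + 1))
            (fun d _ => Finset.sum_nonneg fun i _ => hΦ (u j) i) (Finset.mem_range.2 (by omega : d < D + 1))
          exact h3.trans h4
        · rw [if_neg hk]
          exact hG0 _
      refine (Finset.sum_le_sum h2).trans (le_of_eq ?_)
      rw [Finset.sum_const, Nat.card_Ioc, nsmul_eq_mul]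
      congr 2
      omega
    · rw [if_neg hj]
      refine le_of_eq (Finset.sum_eq_zero fun k _ => if_neg fun hk => hj ⟨k, hk⟩)
  refine (Finset.sum_le_sum h1).trans ?_
  rw [← Finset.sum_filter, ← Finset.mul_sum]
  refine mul_le_mul_of_nonneg_left ?_ (Nat.cast_nonneg _)
  have h5 : ∑ j ∈ S, G (u j) = ∑ x ∈ S.image u, G x := by
    rw [Finset.sum_image]
    intro x hx y hy e
    obtain ⟨k, hk⟩ := (Finset.mem_filter.1 hx).2
    obtain ⟨k', hk'⟩ := (Finset.mem_filter.1 hy).2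
    exact inj x y k k' hk hk' e
  have h6 : ∑ x ∈ S.image u, G x ≤ ∑ x ∈ I, G x := by
    refine Finset.sum_le_sum_of_subset_of_nonneg ?_ fun x _ _ => hG0 x
    intro x hx
    obtain ⟨j, hj, rfl⟩ := Finset.mem_image.1 hx
    obtain ⟨k, hk⟩ := (Finset.mem_filter.1 hj).2
    exact (hP j k hk).1
  have h7 : ∑ x ∈ I, G x = ∑ d ∈ range (D + 1), ∑ x ∈ I, ∑ i ∈ T d x, Φ x i := Finset.sum_comm
  have h8 : ∑ d ∈ range (D + 1), ∑ x ∈ I, ∑ i ∈ T d x, Φ x i ≤ ∑ d ∈ range (D + 1), bd d :=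
    Finset.sum_le_sum fun d hd => h d (by rw [Finset.mem_range] at hd; omega)
  rw [← hS]
  linarith

open Classical in
/-- a sum over the windows as a sum over pairs -/
theorem sum_pairs (N L1 : ℕ) (Φ : ℕ → ℕ → ℝ) (P : ℕ → ℕ → Prop) :
    ∑ j ∈ range N, ∑ k ∈ Ioc j (j + L1), (if P j k then Φ j k else 0) =
      ∑ x ∈ (((range N).sigma fun j => Ioc j (j + L1)).filter fun x => P x.1 x.2), Φ x.1 x.2 := by
  rw [Finset.sum_filter, Finset.sum_sigma]

open Classical in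
theorem card_u {N L1 : ℕ} {P : ℕ → ℕ → Prop} {s : ℕ → ℕ} (inj : ∀ j j' k k', P j k → P j' k' → s j = s j' → j = j')
    (i : ℕ) : ((((range N).sigma fun j => Ioc j (j + L1)).filter fun x => P x.1 x.2).filter
      fun x => s x.1 = i).card ≤ L1 := by
  set G := (((range N).sigma fun j => Ioc j (j + L1)).filter fun x => P x.1 x.2).filter fun x => s x.1 = i with hG
  rcases G.eq_empty_or_nonempty with h | ⟨x0, hx0⟩
  · rw [h, Finset.card_empty]
    exact Nat.zero_le _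
  · have h0 := hx0
    rw [hG, Finset.mem_filter, Finset.mem_filter] at h0
    have h1 : G ⊆ (Ioc x0.1 (x0.1 + L1)).image fun k => (⟨x0.1, k⟩ : (_ : ℕ) × ℕ) := by
      intro x hx
      rw [hG, Finset.mem_filter, Finset.mem_filter, Finset.mem_sigma] at hx
      have e : x.1 = x0.1 := inj x.1 x0.1 x.2 x0.2 hx.1.2 h0.1.2 (by rw [hx.2, h0.2])
      rw [Finset.mem_image]
      refine ⟨x.2, ?_, ?_⟩
      · rw [← e]
        exact hx.1.1.2
      · rw [← e]
    refine (Finset.card_le_card h1).trans (Finset.card_image_le.trans ?_)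
    rw [Nat.card_Ioc]
    omega

open Classical in
theorem card_v {N L1 L2 : ℕ} {P : ℕ → ℕ → Prop} {w : ℕ → ℕ} (hw : ∀ j k, P j k → k ≤ w k ∧ w k ≤ k + L2)
    (i : ℕ) : ((((range N).sigma fun j => Ioc j (j + L1)).filter fun x => P x.1 x.2).filter
      fun x => w x.2 = i).card ≤ (L2 + 1) * L1 := by
  set G := (((range N).sigma fun j => Ioc j (j + L1)).filter fun x => P x.1 x.2).filter fun x => w x.2 = i with hG
  have h1 : G ⊆ ((range (L2 + 1)) ×ˢ (range L1)).image fun y => (⟨i - y.1 - 1 - y.2, i - y.1⟩ : (_ : ℕ) × ℕ) := by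
    intro x hx
    rw [hG, Finset.mem_filter, Finset.mem_filter, Finset.mem_sigma, Finset.mem_range, Finset.mem_Ioc] at hx
    obtain ⟨⟨⟨x1, x2, x3⟩, x4⟩, x5⟩ := hx
    have h2 := hw _ _ x4
    rw [x5] at h2
    rw [Finset.mem_image]
    refine ⟨(i - x.2, x.2 - 1 - x.1), ?_, ?_⟩
    · rw [Finset.mem_product, Finset.mem_range, Finset.mem_range]
      constructor
      · show i - x.2 < L2 + 1
        omega
      · show x.2 - 1 - x.1 < L1
        omega
    · obtain ⟨a, b⟩ := x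
      simp only at *
      have e1 : i - (i - b) = b := by omega
      have e2 : i - (i - b) - 1 - (b - 1 - a) = a := by omega
      rw [e2, e1]
  refine (Finset.card_le_card h1).trans (Finset.card_image_le.trans ?_)
  rw [Finset.card_product, Finset.card_range, Finset.card_range]

/-! ### the numbers -/

section rec

variable {Ω : Type} [Fintype Ω] {τ υ π : Type} {R : Run Ω τ υ} {p : Run.Num}

open Classical in
/-- **sum over the windows, from the fields `V1`, `V2`, `P1`, `S`** -/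
theorem pairs_F2b {N L1 D B μ : ℕ} {K' C : ℝ} {I : Finset ℕ} {Φ : ℕ → ℕ → ℝ} (hK' : 0 ≤ K') (hΦ : ∀ k i, 0 ≤ Φ k i)
    (h : ∀ d ≤ B, ∑ k ∈ I, ∑ i ∈ S3.At' R p B d k, Φ k i ≤ F2b R p B μ K' d) (hD : D ≤ B)
    (hC : ((R.n : ℝ) + p.J + 1) ≤ C * ((R.h : ℝ) / R.m)) (P : ℕ → ℕ → Prop) (u w : ℕ → ℕ)
    (hP : ∀ j k, P j k → u j ∈ I ∧ ∃ d ≤ D, w k ∈ S3.At' R p B d (u j))
    (inj : ∀ j j' k k', P j k → P j' k' → u j = u j' → j = j') :
    ∑ j ∈ range N, ∑ k ∈ Ioc j (j + L1), (if P j k then Φ (u j) (w k) else 0) ≤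
      L1 * ((D : ℝ) + 1) * ((R.h : ℝ) / B) +
        L1 * ((D : ℝ) + 1) ^ 3 * K' * (R.m + μ + 1) * q2 (μ / 8) * (C * ((R.h : ℝ) / R.m)) := by
  have h1 := pairs_sum (N := N) (L1 := L1) (D := D) hΦ (fun d hd => h d (by omega)) P u w hP inj
  have hq := q2_pos (μ / 8)
  have h2 := F2bs_le (h := (R.h : ℝ)) (B := (B : ℝ)) (K := K') (m := (R.m : ℝ)) (μ := (μ : ℝ)) (q := q2 (μ / 8))
    (n := (R.n : ℝ) + p.J + 1) hK' (by positivity) hq.le (by positivity) D
  have h3 : ∑ d ∈ range (D + 1), F2b R p B μ K' d ≤ ((D : ℝ) + 1) * (R.h / B) +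
      ((D : ℝ) + 1) ^ 3 * K' * (R.m + μ + 1) * q2 (μ / 8) * (R.n + p.J + 1) := h2
  have h4 : ((D : ℝ) + 1) ^ 3 * K' * (R.m + μ + 1) * q2 (μ / 8) * (R.n + p.J + 1) ≤
      ((D : ℝ) + 1) ^ 3 * K' * (R.m + μ + 1) * q2 (μ / 8) * (C * ((R.h : ℝ) / R.m)) :=
    mul_le_mul_of_nonneg_left hC (by positivity)
  have h5 := mul_le_mul_of_nonneg_left (h3.trans (add_le_add le_rfl h4)) (Nat.cast_nonneg L1 : (0 : ℝ) ≤ L1)
  refine h1.trans (h5.trans (le_of_eq ?_))
  ring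

/-- **the right side of `f1_kap`** -/
theorem f1_num {Vs Xs Cu : Finset ℕ} {K K' C P Δ : ℝ} {B μ N N2 L pp δ N0 : ℕ} (hm : 1 ≤ R.m) (hK' : 0 ≤ K')
    (hCu : (R.m : ℝ) * H384.F1.nR Vs Xs Cu ≤ 3 * (R.h / B) + R.m)
    (hpp : (pp : ℝ) ≤ P * R.m) (hδ : (δ : ℝ) ≤ Δ * R.m) (hN0 : Real.log (8 * N0 + 3) ≤ R.m)
    (hC : ((R.n : ℝ) + p.J + 1) ≤ C * ((R.h : ℝ) / R.m)) :
    H384.F1.nR Vs Xs Cu * (N * (L * (pp * Real.log 2 + ((δ + R.m) * Real.log 2 + Real.log (8 * N0 + 3))))) +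
        (N + N2 : ℕ) * H384.F1.dfK R p K K' μ ≤
      3 * (N * L * (P + Δ + 2)) * ((R.h : ℝ) / B) +
        (N + N2 : ℕ) * (2 * H122.cI (4 * K) (H384.F1.NK K) * K') * (R.m + μ + 1) * q2 (μ / 8) * (C * ((R.h : ℝ) / R.m)) +
        N * L * (P + Δ + 2) * R.m := by
  have hmr : (1 : ℝ) ≤ R.m := by exact_mod_cast hm
  have l2 : Real.log 2 ≤ 1 := by
    have := Real.log_two_lt_d9
    linarith
  have l20 : 0 ≤ Real.log 2 := Real.log_nonneg (by norm_num)
  have l0 : 0 ≤ Real.log (8 * N0 + 3) := Real.log_nonneg (by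
    have : (0 : ℝ) ≤ N0 := Nat.cast_nonneg _
    linarith)
  have hP0 : 0 ≤ P := by
    by_contra hc
    have h1 : (0 : ℝ) ≤ pp := Nat.cast_nonneg _
    nlinarith
  have hΔ0 : 0 ≤ Δ := by
    by_contra hc
    have h1 : (0 : ℝ) ≤ δ := Nat.cast_nonneg _
    nlinarith
  set n : ℝ := (H384.F1.nR Vs Xs Cu : ℝ) with hn
  have hn0 : 0 ≤ n := Nat.cast_nonneg _
  have a1 : (pp : ℝ) * Real.log 2 + ((δ + R.m) * Real.log 2 + Real.log (8 * N0 + 3)) ≤ (P + Δ + 2) * R.m := by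
    have b1 : (pp : ℝ) * Real.log 2 ≤ pp := mul_le_of_le_one_right (Nat.cast_nonneg _) l2
    have b2 : ((δ : ℝ) + R.m) * Real.log 2 ≤ δ + R.m := mul_le_of_le_one_right (by positivity) l2
    linarith
  have a2 : n * (N * (L * (pp * Real.log 2 + ((δ + R.m) * Real.log 2 + Real.log (8 * N0 + 3))))) ≤
      n * (N * (L * ((P + Δ + 2) * R.m))) := by gcongr
  have a3 : n * (N * (L * ((P + Δ + 2) * R.m))) = (N * L * (P + Δ + 2)) * (R.m * n) := by ring
  have a4 : (N * L * (P + Δ + 2)) * (R.m * n) ≤ (N * L * (P + Δ + 2)) * (3 * (R.h / B) + R.m) :=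
    mul_le_mul_of_nonneg_left hCu (by positivity)
  have hc : 0 ≤ H122.cI (4 * K) (H384.F1.NK K) := H384.F1.cI_nonneg _ _
  have hq := q2_pos (μ / 8)
  have a5 : H384.F1.dfK R p K K' μ ≤ (2 * H122.cI (4 * K) (H384.F1.NK K) * K') * (R.m + μ + 1) * q2 (μ / 8) *
      (C * ((R.h : ℝ) / R.m)) := by
    have b1 : H384.F1.dfK R p K K' μ = (2 * H122.cI (4 * K) (H384.F1.NK K) * K') * q2 (μ / 8) * ((R.n : ℝ) + p.J + 1) := by
      unfold H384.F1.dfK
      ring
    rw [b1]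
    have hμ : (0 : ℝ) ≤ μ := Nat.cast_nonneg _
    have hCC : 0 ≤ C * ((R.h : ℝ) / R.m) := le_trans (by positivity) hC
    have b2 : (2 * H122.cI (4 * K) (H384.F1.NK K) * K') * q2 (μ / 8) * ((R.n : ℝ) + p.J + 1) ≤
        (2 * H122.cI (4 * K) (H384.F1.NK K) * K') * q2 (μ / 8) * (C * ((R.h : ℝ) / R.m)) :=
      mul_le_mul_of_nonneg_left hC (by positivity)
    have b3 : (2 * H122.cI (4 * K) (H384.F1.NK K) * K') * q2 (μ / 8) * (C * ((R.h : ℝ) / R.m)) * 1 ≤
        (2 * H122.cI (4 * K) (H384.F1.NK K) * K') * q2 (μ / 8) * (C * ((R.h : ℝ) / R.m)) * (R.m + μ + 1) :=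
      mul_le_mul_of_nonneg_left (by linarith) (by positivity)
    linarith
  have a6 := mul_le_mul_of_nonneg_left a5 (Nat.cast_nonneg (N + N2) : (0 : ℝ) ≤ (N + N2 : ℕ))
  have e1 : (N * L * (P + Δ + 2)) * (3 * ((R.h : ℝ) / B) + R.m) = 3 * (N * L * (P + Δ + 2)) * ((R.h : ℝ) / B) +
      N * L * (P + Δ + 2) * R.m := by ring
  have e2 : ((N + N2 : ℕ) : ℝ) * ((2 * H122.cI (4 * K) (H384.F1.NK K) * K') * (R.m + μ + 1) * q2 (μ / 8) *
      (C * ((R.h : ℝ) / R.m))) = (N + N2 : ℕ) * (2 * H122.cI (4 * K) (H384.F1.NK K) * K') * (R.m + μ + 1) * q2 (μ / 8) *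
      (C * ((R.h : ℝ) / R.m)) := by ring
  rw [e2] at a6
  linarith

end rec

end Vale.Agent.P106.U.H652
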